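-- KEEP
import Claimed.Agent.R292.Defs.Arch
import Claimed.Agent.R292.AtHeight

/-!
# Row 292 (S0540), unit JORDAN, file Jordan/Arm197 (pen 197, prefix `ja7_`)

ATTACHED ARM, the topology (order J-1 of 281).  Deterministic.

`ja7_arm`: let the complement of `F` be edge-connected, let `ω'` be any configuration of the full
box `rswBox z N` whose good plus edges interior to `F` are good plus edges of `ω` (a completion of
`ω`: plus spins and edges of `O` off `F`).  If the good plus edges of `ω'` separate `rswBox z n`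
from the layer of `rswBox z N`, and `rswBox z n` is not inside `F`, then the SEALS of `ω` separate
`F ∩ rswBox z n` from `F \ rswBox z N` inside `F`.

No circuits, no planar duality, no Jordan curve theorem: a potential on the faces of `ℤ²`
(`at2h_potential`, the discrete Poincare lemma of 212).
-/

set_option autoImplicit false

namespace Claimed.Agent.R292

open Claims Claims.C0468

/-! ## 1. Potentials on the faces -/

/-- A function on the edges which is closed round every corner is the gradient of a function on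
the faces. -/
theorem ja7_potential (c : (ℤ × ℤ) × Bool → ℝ)
    (hc : ∀ x y : ℤ, c ((x, y), true) - c ((x, y - 1), true)
      = c ((x, y), false) - c ((x - 1, y), false)) :
    ∃ u : ℤ × ℤ → ℝ, ∀ e : (ℤ × ℤ) × Bool, u e.1 - u (rswCo e) = c e := by
  obtain ⟨H, h1, h2⟩ := at2h_potential (fun p => c ((p.1 + 1, p.2), true))
    (fun p => c ((p.1, p.2 + 1), false)) (by
      intro a b
      have := hc (a + 1) (b + 1)
      simp only [add_sub_cancel_right] at this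
      simp only
      linarith)
  refine ⟨H, ?_⟩
  rintro ⟨⟨x, y⟩, b⟩
  cases b with
  | true =>
    have := h1 (x - 1) y
    simp only [sub_add_cancel] at this
    simpa [rswCo] using this
  | false =>
    have := h2 x (y - 1)
    simp only [sub_add_cancel] at this
    simpa [rswCo] using this

/-- `u` does not change across an edge with both faces in `P`. -/
def ja7Flat (u : ℤ × ℤ → ℝ) (P : ℤ × ℤ → Prop) : Prop :=
  ∀ e : (ℤ × ℤ) × Bool, P e.1 → P (rswCo e) → u e.1 = u (rswCo e)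

theorem ja7_hseg_le {u : ℤ × ℤ → ℝ} {P : ℤ × ℤ → Prop} (h : ja7Flat u P) (y x₁ x₂ : ℤ)
    (hle : x₁ ≤ x₂) (hP : ∀ x, x₁ ≤ x → x ≤ x₂ → P (x, y)) : u (x₁, y) = u (x₂, y) := by
  induction x₂, hle using Int.leInduction with
  | base => rfl
  | succ k hk ih =>
    have h1 := ih fun x hx1 hx2 => hP x hx1 (by omega)
    have h2 := h ((k + 1, y), true) (hP _ (by omega) le_rfl)
      (by simpa [rswCo] using hP k hk (by omega))
    simp only [rswCo, if_true, add_sub_cancel_right] at h2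
    rw [h1, h2]

theorem ja7_vseg_le {u : ℤ × ℤ → ℝ} {P : ℤ × ℤ → Prop} (h : ja7Flat u P) (x y₁ y₂ : ℤ)
    (hle : y₁ ≤ y₂) (hP : ∀ y, y₁ ≤ y → y ≤ y₂ → P (x, y)) : u (x, y₁) = u (x, y₂) := by
  induction y₂, hle using Int.leInduction with
  | base => rfl
  | succ k hk ih =>
    have h1 := ih fun y hy1 hy2 => hP y hy1 (by omega)
    have h2 := h ((x, k + 1), false) (hP _ (by omega) le_rfl)
      (by simpa [rswCo] using hP k hk (by omega))
    simp only [rswCo, Bool.false_eq_true, if_false, add_sub_cancel_right] at h2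
    rw [h1, h2]

theorem ja7_hseg {u : ℤ × ℤ → ℝ} {P : ℤ × ℤ → Prop} (h : ja7Flat u P) (y x₁ x₂ : ℤ)
    (hP : ∀ x, min x₁ x₂ ≤ x → x ≤ max x₁ x₂ → P (x, y)) : u (x₁, y) = u (x₂, y) := by
  rcases le_total x₁ x₂ with hle | hle
  · exact ja7_hseg_le h y x₁ x₂ hle fun x h1 h2 => hP x (by omega) (by omega)
  · exact (ja7_hseg_le h y x₂ x₁ hle fun x h1 h2 => hP x (by omega) (by omega)).symm

theorem ja7_vseg {u : ℤ × ℤ → ℝ} {P : ℤ × ℤ → Prop} (h : ja7Flat u P) (x y₁ y₂ : ℤ)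
    (hP : ∀ y, min y₁ y₂ ≤ y → y ≤ max y₁ y₂ → P (x, y)) : u (x, y₁) = u (x, y₂) := by
  rcases le_total y₁ y₂ with hle | hle
  · exact ja7_vseg_le h x y₁ y₂ hle fun y h1 h2 => hP y (by omega) (by omega)
  · exact (ja7_vseg_le h x y₂ y₁ hle fun y h1 h2 => hP y (by omega) (by omega)).symm

theorem ja7_mem_box (z : ℤ × ℤ) (n : ℕ) (f : ℤ × ℤ) :
    f ∈ rswBox z n ↔ (z.1 - n ≤ f.1 ∧ f.1 < z.1 + n) ∧ (z.2 - n ≤ f.2 ∧ f.2 < z.2 + n) := by
  simp [rswBox, Finset.mem_product, Finset.mem_Ico]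

/-- `u` is constant on a box on which it is flat. -/
theorem ja7_const_box {u : ℤ × ℤ → ℝ} {P : ℤ × ℤ → Prop} (h : ja7Flat u P) (z : ℤ × ℤ) (n : ℕ)
    (hP : ∀ f ∈ rswBox z n, P f) {a b : ℤ × ℤ} (ha : a ∈ rswBox z n) (hb : b ∈ rswBox z n) :
    u a = u b := by
  obtain ⟨a1, a2⟩ := a
  obtain ⟨b1, b2⟩ := b
  rw [ja7_mem_box] at ha hb
  simp only at ha hb
  have h1 : u (a1, a2) = u (b1, a2) := ja7_hseg h a2 a1 b1 fun x hx1 hx2 =>
    hP _ ((ja7_mem_box z n _).2 ⟨⟨by simp only; omega, by simp only; omega⟩, ha.2⟩)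
  have h2 : u (b1, a2) = u (b1, b2) := ja7_vseg h b1 a2 b2 fun y hy1 hy2 =>
    hP _ ((ja7_mem_box z n _).2 ⟨hb.1, ⟨by simp only; omega, by simp only; omega⟩⟩)
  rw [h1, h2]

/-- `u` is constant off a box off which it is flat. -/
theorem ja7_const_off_box {u : ℤ × ℤ → ℝ} {P : ℤ × ℤ → Prop} (h : ja7Flat u P) (z : ℤ × ℤ)
    (N : ℕ) (hP : ∀ f, f ∉ rswBox z N → P f) {a : ℤ × ℤ} (ha : a ∉ rswBox z N) :
    u a = u (z.1 + N, z.2 + N) := by
  obtain ⟨a1, a2⟩ := a
  rw [ja7_mem_box] at ha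
  simp only at ha
  have hrow : ∀ x, P (x, z.2 + N) := fun x => hP _ (by rw [ja7_mem_box]; simp)
  have hcol : ∀ y, P (z.1 + N, y) := fun y => hP _ (by rw [ja7_mem_box]; simp)
  by_cases h1 : z.1 - N ≤ a1 ∧ a1 < z.1 + N
  · have h2 : ¬ (z.2 - N ≤ a2 ∧ a2 < z.2 + N) := fun h2 => ha ⟨h1, h2⟩
    have e1 : u (a1, a2) = u (z.1 + N, a2) := ja7_hseg h a2 a1 (z.1 + N) fun x _ _ =>
      hP _ (by rw [ja7_mem_box]; simp only; exact fun hh => h2 hh.2)
    have e2 : u (z.1 + N, a2) = u (z.1 + N, z.2 + N) :=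
      ja7_vseg h (z.1 + N) a2 (z.2 + N) fun y _ _ => hcol y
    rw [e1, e2]
  · have e1 : u (a1, a2) = u (a1, z.2 + N) := ja7_vseg h a1 a2 (z.2 + N) fun y _ _ =>
      hP _ (by rw [ja7_mem_box]; simp only; exact fun hh => h1 hh.1)
    have e2 : u (a1, z.2 + N) = u (z.1 + N, z.2 + N) :=
      ja7_hseg h (z.2 + N) a1 (z.1 + N) fun x _ _ => hrow x
    rw [e1, e2]

/-! ## 2. The wall cluster at a corner -/

/-- the edge is a seal, or is not interior to `F` -/
def ja7K (F : Finset (ℤ × ℤ)) (ω : RswCfg) (e : (ℤ × ℤ) × Bool) : Prop :=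
  ¬ (e.1 ∈ F ∧ rswCo e ∈ F) ∨ RswSeal F ω e

/-- `v` is an end of `e` -/
def ja7At (v : ℤ × ℤ) (e : (ℤ × ℤ) × Bool) : Prop := v = e.1 ∨ v = rswEnd e

theorem ja7_wall_link {F : Finset (ℤ × ℤ)} {ω : RswCfg} {a b : ℤ × ℤ} (h : RswWall F ω a)
    (hl : RswLink ω a b) : RswWall F ω b := by
  obtain ⟨w, hw, hp, hr⟩ := h
  exact ⟨w, hw, hp, hr.tail hl⟩

theorem ja7_link_of_good {ω : RswCfg} {e : (ℤ × ℤ) × Bool} (h : RswGood true ω e) :
    RswLink ω e.1 (rswEnd e) ∧ RswLink ω (rswEnd e) e.1 :=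
  ⟨⟨e, h, Or.inl ⟨rfl, rfl⟩⟩, ⟨e, h, Or.inr ⟨rfl, rfl⟩⟩⟩

/-- both ends of a good plus edge are in the wall cluster as soon as one is -/
theorem ja7_wall_of_good {F : Finset (ℤ × ℤ)} {ω : RswCfg} {e : (ℤ × ℤ) × Bool}
    (h : RswGood true ω e) {v w : ℤ × ℤ} (hv : ja7At v e) (hw : ja7At w e)
    (hwall : RswWall F ω v) : RswWall F ω w := by
  obtain ⟨l1, l2⟩ := ja7_link_of_good h
  rcases hv with rfl | rfl <;> rcases hw with rfl | rfl
  · exact hwall
  · exact ja7_wall_link hwall l1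
  · exact ja7_wall_link hwall l2
  · exact hwall

/-- an end of an edge whose first face is in `F` is a corner of `F` -/
theorem ja7_corner_of_at {F : Finset (ℤ × ℤ)} {e : (ℤ × ℤ) × Bool} (he : e.1 ∈ F) {v : ℤ × ℤ}
    (hv : ja7At v e) : v ∈ cornersOf F := by
  obtain ⟨⟨x, y⟩, b⟩ := e
  simp only [cornersOf, Finset.mem_biUnion]
  refine ⟨(x, y), he, ?_⟩
  rcases hv with rfl | rfl
  · simp
  · cases b <;> simp [rswEnd]

/-- an end of an edge which is not interior to `F` is on the polygon -/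
theorem ja7_onPolygon_of_at {F : Finset (ℤ × ℤ)} {e : (ℤ × ℤ) × Bool}
    (he : ¬ (e.1 ∈ F ∧ rswCo e ∈ F)) {v : ℤ × ℤ} (hv : ja7At v e) : OnPolygon F v := by
  obtain ⟨⟨x, y⟩, b⟩ := e
  intro hall
  apply he
  rcases hv with rfl | rfl
  · cases b
    · simp only [rswCo, Bool.false_eq_true, if_false]
      exact ⟨hall.1, hall.2.2.1⟩
    · simp only [rswCo, if_true]
      exact ⟨hall.1, hall.2.1⟩
  · cases b
    · simp only [rswEnd, Bool.false_eq_true, if_false, add_sub_cancel_right] at hall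
      simp only [rswCo, Bool.false_eq_true, if_false]
      exact ⟨hall.2.1, hall.2.2.2⟩
    · simp only [rswEnd, if_true, add_sub_cancel_right] at hall
      simp only [rswCo, if_true]
      exact ⟨hall.2.2.1, hall.2.2.2⟩

/-- an end of a `K` edge, if it is a corner of `F`, is in the wall cluster -/
theorem ja7_wall_of_K {F : Finset (ℤ × ℤ)} {ω : RswCfg} {e : (ℤ × ℤ) × Bool} (hK : ja7K F ω e)
    {v : ℤ × ℤ} (hv : ja7At v e) (hc : v ∈ cornersOf F) : RswWall F ω v := by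
  rcases hK with h | h
  · exact ⟨v, hc, ja7_onPolygon_of_at h hv, Relation.ReflTransGen.refl⟩
  · exact ja7_wall_of_good h.1 (Or.inl rfl) hv h.2

/-- an end of a good plus edge which is not `K` is a corner of `F` off the wall cluster -/
theorem ja7_not_wall_of_not_K {F : Finset (ℤ × ℤ)} {ω : RswCfg} {e : (ℤ × ℤ) × Bool}
    (hK : ¬ ja7K F ω e) (hg : RswGood true ω e) {v : ℤ × ℤ} (hv : ja7At v e) :
    v ∈ cornersOf F ∧ ¬ RswWall F ω v := by
  unfold ja7K at hK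
  push Not at hK
  refine ⟨ja7_corner_of_at hK.1.1 hv, fun hw => hK.2 ⟨hg, ?_⟩⟩
  exact ja7_wall_of_good hg hv (Or.inl rfl) hw

/-- the four edges at a corner -/
theorem ja7_at_four (x y : ℤ) :
    ja7At (x, y) ((x, y), true) ∧ ja7At (x, y) ((x, y - 1), true) ∧
      ja7At (x, y) ((x, y), false) ∧ ja7At (x, y) ((x - 1, y), false) := by
  refine ⟨Or.inl rfl, Or.inr ?_, Or.inl rfl, Or.inr ?_⟩ <;> simp [rswEnd]

/-! ## 3. The cut-off gradient -/

section cut

variable (F : Finset (ℤ × ℤ)) (ω : RswCfg) (χ : ℤ × ℤ → ℝ)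

open Classical in
/-- the gradient of `χ`, erased on the `K` edges -/
noncomputable def ja7C (e : (ℤ × ℤ) × Bool) : ℝ :=
  if ja7K F ω e then 0 else χ e.1 - χ (rswCo e)

theorem ja7C_of_K {e : (ℤ × ℤ) × Bool} (h : ja7K F ω e) : ja7C F ω χ e = 0 := by
  simp [ja7C, h]

theorem ja7C_of_not_K {e : (ℤ × ℤ) × Bool} (h : ¬ ja7K F ω e) :
    ja7C F ω χ e = χ e.1 - χ (rswCo e) := by
  simp [ja7C, h]

theorem ja7C_of_eq {e : (ℤ × ℤ) × Bool} (h : χ e.1 = χ (rswCo e)) : ja7C F ω χ e = 0 := by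
  by_cases hK : ja7K F ω e
  · exact ja7C_of_K F ω χ hK
  · rw [ja7C_of_not_K F ω χ hK, h, sub_self]

/-- **closedness**: if every edge across which `χ` changes and which is interior to `F` is a good
plus edge of `ω`, the cut-off gradient is closed round every corner. -/
theorem ja7C_closed
    (hgood : ∀ e : (ℤ × ℤ) × Bool, χ e.1 ≠ χ (rswCo e) → e.1 ∈ F → rswCo e ∈ F →
      RswGood true ω e) (x y : ℤ) :
    ja7C F ω χ ((x, y), true) - ja7C F ω χ ((x, y - 1), true)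
      = ja7C F ω χ ((x, y), false) - ja7C F ω χ ((x - 1, y), false) := by
  obtain ⟨a1, a2, a3, a4⟩ := ja7_at_four x y
  by_cases hex : ∃ e : (ℤ × ℤ) × Bool, ja7At (x, y) e ∧ χ e.1 ≠ χ (rswCo e) ∧ ¬ ja7K F ω e
  · obtain ⟨e, hat, hne, hK⟩ := hex
    have hint : e.1 ∈ F ∧ rswCo e ∈ F := by
      by_contra h
      exact hK (Or.inl h)
    obtain ⟨hc, hw⟩ := ja7_not_wall_of_not_K hK (hgood e hne hint.1 hint.2) hat
    have hall : ∀ e' : (ℤ × ℤ) × Bool, ja7At (x, y) e' → ¬ ja7K F ω e' :=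
      fun e' hat' hK' => hw (ja7_wall_of_K hK' hat' hc)
    rw [ja7C_of_not_K F ω χ (hall _ a1), ja7C_of_not_K F ω χ (hall _ a2),
      ja7C_of_not_K F ω χ (hall _ a3), ja7C_of_not_K F ω χ (hall _ a4)]
    simp only [rswCo, if_true, Bool.false_eq_true, if_false]
    ring
  · push Not at hex
    have hz : ∀ e' : (ℤ × ℤ) × Bool, ja7At (x, y) e' → ja7C F ω χ e' = 0 := by
      intro e' hat'
      by_cases hne : χ e'.1 = χ (rswCo e')
      · exact ja7C_of_eq F ω χ hne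
      · exact ja7C_of_K F ω χ (hex e' hat' hne)
    rw [hz _ a1, hz _ a2, hz _ a3, hz _ a4]

end cut

/-! ## 4. The core -/

/-- the edge between two adjacent faces -/
theorem ja7_edge_of_adj {a b : ℤ × ℤ} (h : jdAdj a b) :
    ∃ e : (ℤ × ℤ) × Bool, (a = e.1 ∧ b = rswCo e) ∨ (b = e.1 ∧ a = rswCo e) := by
  obtain ⟨a1, a2⟩ := a
  obtain ⟨b1, b2⟩ := b
  simp only [jdAdj, Prod.mk_sub_mk, Prod.mk.injEq] at h
  rcases h with h | h | h | h
  · refine ⟨((b1, b2), true), Or.inr ⟨rfl, ?_⟩⟩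
    simp only [rswCo, if_true, Prod.mk.injEq]; omega
  · refine ⟨((b1, b2), false), Or.inr ⟨rfl, ?_⟩⟩
    simp only [rswCo, Bool.false_eq_true, if_false, Prod.mk.injEq]; omega
  · refine ⟨((a1, a2), true), Or.inl ⟨rfl, ?_⟩⟩
    simp only [rswCo, if_true, Prod.mk.injEq]; omega
  · refine ⟨((a1, a2), false), Or.inl ⟨rfl, ?_⟩⟩
    simp only [rswCo, Bool.false_eq_true, if_false, Prod.mk.injEq]; omega

/-- **The core.**  `C` is a set of faces between the two boxes; every edge of its boundary which is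
interior to `F` is a good plus edge of `ω`; the complement of `F` is edge-connected and meets the
small box.  Then the seals separate the small box from the outside of the large box. -/
theorem ja7_core (F : Finset (ℤ × ℤ))
    (hco : ∀ f g : ℤ × ℤ, f ∉ F → g ∉ F → Relation.ReflTransGen (fun a b => jdAdj a b ∧ b ∉ F) f g)
    (ω : RswCfg) (C : Set (ℤ × ℤ)) (z : ℤ × ℤ) (n N : ℕ)
    (hC1 : ∀ f ∈ rswBox z n, f ∈ C) (hC2 : ∀ f ∈ C, f ∈ rswBox z N)
    (hgood : ∀ e : (ℤ × ℤ) × Bool, ¬ (e.1 ∈ C ↔ rswCo e ∈ C) → e.1 ∈ F → rswCo e ∈ F →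
      RswGood true ω e)
    (hout : ¬ rswBox z n ⊆ F) :
    RswSepW F ω (F ∩ rswBox z n) (F \ rswBox z N) := by
  classical
  set χ : ℤ × ℤ → ℝ := fun f => if f ∈ C then 1 else 0 with hχ
  have hχ1 : ∀ f, f ∈ C → χ f = 1 := fun f hf => by simp [hχ, hf]
  have hχ0 : ∀ f, f ∉ C → χ f = 0 := fun f hf => by simp [hχ, hf]
  have hχne : ∀ e : (ℤ × ℤ) × Bool, χ e.1 ≠ χ (rswCo e) → ¬ (e.1 ∈ C ↔ rswCo e ∈ C) := by
    intro e hne hiff
    apply hne
    by_cases h : e.1 ∈ C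
    · rw [hχ1 _ h, hχ1 _ (hiff.1 h)]
    · rw [hχ0 _ h, hχ0 _ fun h' => h (hiff.2 h')]
  obtain ⟨u, hu⟩ := ja7_potential (ja7C F ω χ)
    (ja7C_closed F ω χ fun e hne h1 h2 => hgood e (hχne e hne) h1 h2)
  -- `u` is flat on `C` and off `C`
  have hflat1 : ja7Flat u (fun f => f ∈ C) := by
    intro e h1 h2
    have := hu e
    rw [ja7C_of_eq F ω χ (by rw [hχ1 _ h1, hχ1 _ h2])] at this
    linarith
  have hflat0 : ja7Flat u (fun f => f ∉ C) := by
    intro e h1 h2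
    have := hu e
    rw [ja7C_of_eq F ω χ (by rw [hχ0 _ h1, hχ0 _ h2])] at this
    linarith
  -- along a path off `F`
  have hoff : ∀ a b : ℤ × ℤ, a ∉ F →
      Relation.ReflTransGen (fun a b => jdAdj a b ∧ b ∉ F) a b → b ∉ F ∧ u a = u b := by
    intro a b ha hab
    induction hab with
    | refl => exact ⟨ha, rfl⟩
    | @tail b' c' _ hstep ih =>
      obtain ⟨hb', hub'⟩ := ih
      refine ⟨hstep.2, ?_⟩
      obtain ⟨e, he⟩ := ja7_edge_of_adj hstep.1
      have hK : ja7K F ω e := by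
        left
        rcases he with ⟨h1, h2⟩ | ⟨h1, h2⟩
        · exact fun h => hb' (h1 ▸ h.1)
        · exact fun h => hstep.2 (h1 ▸ h.1)
      have h3 := hu e
      rw [ja7C_of_K F ω χ hK] at h3
      rcases he with ⟨h1, h2⟩ | ⟨h1, h2⟩
      · rw [hub', h1, h2]; linarith
      · rw [hub', h1, h2]; linarith
  -- along a path which crosses no seal
  have hpath : ∀ a b : ℤ × ℤ, Relation.ReflTransGen (RswStepW F ω) a b →
      u a - u b = χ a - χ b := by
    intro a b hab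
    induction hab with
    | refl => simp
    | @tail b' c' _ hstep ih =>
      obtain ⟨hb', hc', e, he, hns⟩ := hstep
      have hK : ¬ ja7K F ω e := by
        rintro (h | h)
        · apply h
          rcases he with ⟨h1, h2⟩ | ⟨h1, h2⟩
          · exact ⟨h1 ▸ hb', h2 ▸ hc'⟩
          · exact ⟨h1 ▸ hc', h2 ▸ hb'⟩
        · exact hns h
      have h3 := hu e
      rw [ja7C_of_not_K F ω χ hK] at h3
      rcases he with ⟨rfl, rfl⟩ | ⟨rfl, rfl⟩
      · linarith
      · linarith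
  -- the witnesses
  obtain ⟨g0, hg0, hg0F⟩ := Finset.not_subset.1 hout
  obtain ⟨hfar, hhf⟩ := Infinite.exists_notMem_finset (F ∪ rswBox z N)
  rw [Finset.mem_union, not_or] at hhf
  intro t ht b hb hreach
  rw [Finset.mem_inter] at ht
  rw [Finset.mem_sdiff] at hb
  have e1 := hpath t b hreach
  rw [hχ1 t (hC1 t ht.2), hχ0 b fun h => hb.2 (hC2 b h)] at e1
  have e2 : u t = u g0 := ja7_const_box hflat1 z n hC1 ht.2 hg0
  have e3 : u g0 = u hfar := (hoff g0 hfar hg0F (hco g0 hfar hg0F hhf.1)).2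
  have hPoff : ∀ f, f ∉ rswBox z N → f ∉ C := fun f hf h => hf (hC2 f h)
  have e4 := ja7_const_off_box hflat0 z N hPoff hhf.2
  have e5 := ja7_const_off_box hflat0 z N hPoff hb.2
  linarith

/-! ## 5. From a blocking set of a completion to the seals -/

/-- a face of `Λ` off the layer has its four neighbours in `Λ` -/
theorem ja7_nbr_of_not_layer {Λ : Finset (ℤ × ℤ)} {f f' : ℤ × ℤ} (hf : f ∈ Λ)
    (hl : f ∉ rswLayer Λ) {e : (ℤ × ℤ) × Bool}
    (he : (f = e.1 ∧ f' = rswCo e) ∨ (f' = e.1 ∧ f = rswCo e)) : f' ∈ Λ := by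
  classical
  have hno : ∀ v ∈ ({f, (f.1 + 1, f.2), (f.1, f.2 + 1), (f.1 + 1, f.2 + 1)} : Finset (ℤ × ℤ)),
      ¬ OnPolygon Λ v := by
    intro v hv hp
    apply hl
    simp only [rswLayer, Finset.mem_filter]
    exact ⟨hf, v, hv, hp⟩
  obtain ⟨⟨x, y⟩, b⟩ := e
  rcases he with ⟨rfl, rfl⟩ | ⟨rfl, rfl⟩
  · have h0 := hno (x, y) (by simp)
    unfold OnPolygon at h0
    push Not at h0
    cases b
    · simpa [rswCo] using h0.2.2.1
    · simpa [rswCo] using h0.2.1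
  · cases b
    · have h0 := hno (x, y) (by simp [rswCo])
      unfold OnPolygon at h0
      push Not at h0
      exact h0.1
    · have h0 := hno (x, y) (by simp [rswCo])
      unfold OnPolygon at h0
      push Not at h0
      exact h0.1

theorem ja7_box_mono (z : ℤ × ℤ) {n N : ℕ} (h : n ≤ N) : rswBox z n ⊆ rswBox z N := by
  intro f hf
  rw [ja7_mem_box] at hf ⊢
  have : (n : ℤ) ≤ N := by exact_mod_cast h
  omega

/-- **ATTACHED ARM, the topology.** -/
theorem ja7_arm (F : Finset (ℤ × ℤ))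
    (hco : ∀ f g : ℤ × ℤ, f ∉ F → g ∉ F → Relation.ReflTransGen (fun a b => jdAdj a b ∧ b ∉ F) f g)
    (ω ω' : RswCfg)
    (hcomp : ∀ e : (ℤ × ℤ) × Bool, e.1 ∈ F → rswCo e ∈ F → RswGood true ω' e → RswGood true ω e)
    (z : ℤ × ℤ) (n N : ℕ) (hnN : n ≤ N)
    (hblock : RswSep (rswBox z N) true ω' (rswBox z n) (rswLayer (rswBox z N)))
    (hout : ¬ rswBox z n ⊆ F) :
    RswSepW F ω (F ∩ rswBox z n) (F \ rswBox z N) := by
  set C : Set (ℤ × ℤ) :=
    {f | ∃ a ∈ rswBox z n, Relation.ReflTransGen (RswStep (rswBox z N) true ω') a f} with hC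
  have hC2 : ∀ f ∈ C, f ∈ rswBox z N := by
    rintro f ⟨a, ha, hr⟩
    rcases Relation.ReflTransGen.cases_tail hr with h | ⟨c, _, hstep⟩
    · exact h ▸ ja7_box_mono z hnN ha
    · exact hstep.2.1
  have hstepC : ∀ f f' : ℤ × ℤ, f ∈ C → f' ∉ C → ∀ e : (ℤ × ℤ) × Bool,
      ((f = e.1 ∧ f' = rswCo e) ∨ (f' = e.1 ∧ f = rswCo e)) → RswGood true ω' e := by
    intro f f' hf hf' e he
    by_contra hng
    obtain ⟨a, ha, hr⟩ := hf
    have hfΛ : f ∈ rswBox z N := hC2 f ⟨a, ha, hr⟩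
    have hfl : f ∉ rswLayer (rswBox z N) := fun h => hblock a ha f h hr
    have hf'Λ : f' ∈ rswBox z N := ja7_nbr_of_not_layer hfΛ hfl he
    exact hf' ⟨a, ha, hr.tail ⟨hfΛ, hf'Λ, e, he, hng⟩⟩
  refine ja7_core F hco ω C z n N (fun f hf => ⟨f, hf, Relation.ReflTransGen.refl⟩) hC2 ?_ hout
  intro e hne h1 h2
  refine hcomp e h1 h2 ?_
  by_cases hin : e.1 ∈ C
  · have hco' : rswCo e ∉ C := fun h => hne ⟨fun _ => h, fun _ => hin⟩
    exact hstepC _ _ hin hco' e (Or.inl ⟨rfl, rfl⟩)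
  · have hco' : rswCo e ∈ C := by
      by_contra h
      exact hne ⟨fun h' => absurd h' hin, fun h' => absurd h' h⟩
    exact hstepC _ _ hco' hin e (Or.inr ⟨rfl, rfl⟩)

/-- The same for a simply connected polyomino. -/
theorem ja7_arm_poly {F : Finset (ℤ × ℤ)} (hF : JdPoly F) (ω ω' : RswCfg)
    (hcomp : ∀ e : (ℤ × ℤ) × Bool, e.1 ∈ F → rswCo e ∈ F → RswGood true ω' e → RswGood true ω e)
    (z : ℤ × ℤ) (n N : ℕ) (hnN : n ≤ N)
    (hblock : RswSep (rswBox z N) true ω' (rswBox z n) (rswLayer (rswBox z N)))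
    (hout : ¬ rswBox z n ⊆ F) :
    RswSepW F ω (F ∩ rswBox z n) (F \ rswBox z N) :=
  ja7_arm F hF.coconn ω ω' hcomp z n N hnN hblock hout

/-- Monotonicity of the separation by seals. -/
theorem ja7_sepW_mono {F : Finset (ℤ × ℤ)} {ω : RswCfg} {A A' B B' : Finset (ℤ × ℤ)}
    (h : RswSepW F ω A B) (hA : A' ⊆ A) (hB : B' ⊆ B) : RswSepW F ω A' B' :=
  fun f hf g hg => h f (hA hf) g (hB hg)

/-- The form of `exit_rsw_arm`: one good scale `r ≤ n`, `N ≤ R` is enough. -/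
theorem ja7_arm_scale {F : Finset (ℤ × ℤ)} (hF : JdPoly F) (ω ω' : RswCfg)
    (hcomp : ∀ e : (ℤ × ℤ) × Bool, e.1 ∈ F → rswCo e ∈ F → RswGood true ω' e → RswGood true ω e)
    (z : ℤ × ℤ) (r n N R : ℕ) (hrn : r ≤ n) (hnN : n ≤ N) (hNR : N ≤ R)
    (hblock : RswSep (rswBox z N) true ω' (rswBox z n) (rswLayer (rswBox z N)))
    (hout : ¬ rswBox z r ⊆ F) :
    RswSepW F ω (F ∩ rswBox z r) (F \ rswBox z R) := by
  have hout' : ¬ rswBox z n ⊆ F := fun h => hout ((ja7_box_mono z hrn).trans h)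
  refine ja7_sepW_mono (ja7_arm_poly hF ω ω' hcomp z n N hnN hblock hout') ?_ ?_
  · exact Finset.inter_subset_inter_left (ja7_box_mono z hrn)
  · exact Finset.sdiff_subset_sdiff le_rfl (ja7_box_mono z hNR)

end Claimed.Agent.R292
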