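import Claimed.Agent.R292.Geo.SqGeo19
import Claimed.Agent.R292.Defs.RSW
import Claimed.Agent.R292.Defs.JORDAN

/-!
# Row 292 (S0540), unit JORDAN, Jordan/Scale19 : THE MESH DOES NOT MATTER      (owner helper19; prefix `jd19_`)

Closes the contract `jd_rsw` ([SCALE]) of `Exit/Arch`.
* `jd19_mem_sq_scale`     `x ∈ at30Sq d f ↔ (d' / d) • x ∈ at30Sq d' f`
* `jd19_simple_scale`     `Sq19Simple d F → Sq19Simple d' F` for all positive meshes (homothety of the simple closed curve)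
* `jd19_rswJordan_iff`    `RswJordan F ↔ Sq19Simple d F`
* **`jd19_rsw`**          `IsAdmissibleApprox D δ F → RswJordan (F n)`       = the very type of `jd_rsw`
* **`jd19_poly_of_rsw`**  `RswJordan F → JdPoly F` (nonempty, edge connected, complement edge connected, no pinch): the lattice content of `RswJordan`
-/

set_option autoImplicit false

namespace Claimed.Agent.R292

open Claims Claims.C0468 Set Filter Topology

theorem jd19_mem_sq_scale {d d' : ℝ} (hd : 0 < d) (hd' : 0 < d') (f : ℤ × ℤ) (x : ℝ × ℝ) :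
    (d' / d) • x ∈ at30Sq d' f ↔ x ∈ at30Sq d f := by
  have key : ∀ (a s : ℝ), (d' * a ≤ d' / d * s ↔ d * a ≤ s) ∧ (d' / d * s ≤ d' * a ↔ s ≤ d * a) := by
    intro a s
    have e : d' / d * s = d' * (s / d) := by field_simp
    rw [e, mul_le_mul_iff_right₀ hd', mul_le_mul_iff_right₀ hd', le_div_iff₀ hd, div_le_iff₀ hd, mul_comm a d]
    exact ⟨Iff.rfl, Iff.rfl⟩
  unfold at30Sq
  simp only [Set.mem_prod, Set.mem_Icc, Prod.smul_fst, Prod.smul_snd, smul_eq_mul]
  rw [(key _ _).1, (key _ _).2, (key _ _).1, (key _ _).2]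

theorem jd19_mem_frontier_scale {d d' : ℝ} (hd : 0 < d) (hd' : 0 < d') (F : Finset (ℤ × ℤ)) (x : ℝ × ℝ) :
    (d' / d) • x ∈ frontier (faceRegionSq d' F) ↔ x ∈ frontier (faceRegionSq d F) := by
  rw [sq19_mem_frontier_iff hd', sq19_mem_frontier_iff hd]
  simp only [jd19_mem_sq_scale hd hd']

theorem jd19_simple_scale {d d' : ℝ} (hd : 0 < d) (hd' : 0 < d') {F : Finset (ℤ × ℤ)} (h : Sq19Simple d F) :
    Sq19Simple d' F := by
  obtain ⟨g, hc, hi, hr⟩ := h
  have hne : d' / d ≠ 0 := (div_pos hd' hd).ne'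
  refine ⟨fun z => (d' / d) • g z, by fun_prop, fun a b hab => hi (smul_right_injective _ hne hab), ?_⟩
  ext y
  constructor
  · rintro ⟨z, rfl⟩
    rw [jd19_mem_frontier_scale hd hd', ← hr]
    exact Set.mem_range_self z
  · intro hy
    have e : y = (d' / d) • ((d' / d)⁻¹ • y) := by rw [smul_inv_smul₀ hne]
    rw [e, jd19_mem_frontier_scale hd hd', ← hr] at hy
    obtain ⟨z, hz⟩ := hy
    exact ⟨z, by simp only [hz]; rw [smul_inv_smul₀ hne]⟩

theorem jd19_rswJordan_iff {d : ℝ} (hd : 0 < d) (F : Finset (ℤ × ℤ)) : RswJordan F ↔ Sq19Simple d F :=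
  ⟨fun h => jd19_simple_scale one_pos hd h, fun h => jd19_simple_scale hd one_pos h⟩

/-- **[SCALE]** = the type of `jd_rsw` of `Exit/Arch`. -/
theorem jd19_rsw {D : Set (ℝ × ℝ)} {δ : ℕ → ℝ} {F : ℕ → Finset (ℤ × ℤ)} (h : IsAdmissibleApprox D δ F) (n : ℕ) :
    RswJordan (F n) :=
  (jd19_rswJordan_iff (h.1 n) (F n)).2 (sq19_simple_of_approx h n)

theorem jd19_adj_iff (f g : ℤ × ℤ) : sq19Adj f g ↔ jdAdj f g := by
  obtain ⟨f1, f2⟩ := f
  obtain ⟨g1, g2⟩ := g
  unfold sq19Adj jdAdj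
  simp only [Prod.mk_sub_mk, Prod.mk.injEq]
  constructor
  · intro h
    rcases abs_cases (f1 - g1) with ⟨h1, _⟩ | ⟨h1, _⟩ <;> rcases abs_cases (f2 - g2) with ⟨h2, _⟩ | ⟨h2, _⟩ <;> omega
  · intro h
    rcases abs_cases (f1 - g1) with ⟨h1, _⟩ | ⟨h1, _⟩ <;> rcases abs_cases (f2 - g2) with ⟨h2, _⟩ | ⟨h2, _⟩ <;> omega

/-- the lattice content of `RswJordan`: a simply connected polyomino -/
theorem jd19_poly_of_rsw {F : Finset (ℤ × ℤ)} (h : RswJordan F) : JdPoly F := by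
  have hs : Sq19Simple 1 F := h
  refine ⟨sq19_nonempty one_pos hs, ?_, ?_, ?_⟩
  · intro f g hf hg
    exact Relation.ReflTransGen.mono (r := fun a b => sq19Adj a b ∧ b ∈ F) (p := fun a b => jdAdj a b ∧ b ∈ F)
      (fun a b hab => ⟨(jd19_adj_iff a b).1 hab.1, hab.2⟩) _ _ (sq19_conn_reach one_pos hs hf hg)
  · intro f g hf hg
    exact Relation.ReflTransGen.mono (r := fun a b => sq19Adj a b ∧ b ∉ F) (p := fun a b => jdAdj a b ∧ b ∉ F)
      (fun a b hab => ⟨(jd19_adj_iff a b).1 hab.1, hab.2⟩) _ _ (sq19_compl_reach one_pos hs hf hg)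
  · intro v
    constructor
    · rintro ⟨h1, h2, h3, h4⟩
      exact sq19_no_cross one_pos hs v (by tauto) (by tauto) (by tauto)
    · rintro ⟨h1, h2, h3, h4⟩
      exact sq19_no_cross one_pos hs v (by tauto) (by tauto) (by tauto)

end Claimed.Agent.R292
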