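import Claimed.Agent.R292.Defs.GAUSS
import Claimed.Agent.R292.Defs.RSW
import Claimed.Agent.R292.Defs.JORDAN

/-!
# Row 292 (S0540), Jordan/Depth7 : THE LATTICE SIDE OF THE DEPTH MOMENT      (pen helper7, unit JORDAN, ORDER J-1 post DEPTH MOMENT with 199; prefix `dm7_`, defs `dm7*`)

No probability, no geometry of `F`.  A test `g` carried by the Euclidean disc `wkBall z ρ`, `|g| ≤ M`, is read at mesh `δ` as a smearing in the sense of `RswSm` (Defs/RSW):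
* `dm7Z δ z`      the lattice point `(⌊z₁/δ⌋, ⌊z₂/δ⌋)`;      `dm7A δ ρ = ⌈ρ/δ⌉₊ + 1` the lattice radius;      `dm7W δ z ρ g` the weights `v ↦ δ² g(δ v)` on `rswBox (dm7Z δ z) (dm7A δ ρ)`
* `dm7_mem_box`, `dm7_card_box`          API of `rswBox`
* `dm7_box_of_disc`     `δ v ∈ wkBall z ρ  ⟹  v ∈ rswBox (dm7Z δ z) (dm7A δ ρ)`
* **`dm7_sm`**          `RswSm (dm7Z δ z) (dm7A δ ρ) (4 M (ρ + 2 δ)²) (dm7W δ z ρ g)`
* **`dm7_arr`**         `rswArr (dm7W δ z ρ g) h = δ² ∑ v ∈ cornersOf F, h v * g (δ v)` as soon as the box lies in `cornersOf F`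
* `dm7_box_of_meets`    a face which meets the sup-ball of radius `R` about `z` lies in `rswBox (dm7Z δ z) (⌈R/δ⌉₊ + 2)`          (for J4)
* `dm7_sq_subset`       a face of `rswBox (dm7Z δ z) m` lies in the sup-ball of radius `(m + 1) δ` about `z`                     (for J3)
* **`dm7_ratio`**       `ρ = θ d`, `R ≤ 2 d`, `δ ≤ θ d`, `θ ≤ 1/4`   ⟹   `(⌈R/δ⌉₊ + 2) / dm7A δ ρ ≤ 3 / θ`
* **`dm7_jordan`**      `RswJordan (F n)` for an admissible approximation (dilation by `δ⁻¹`)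
-/

set_option autoImplicit false

namespace Claimed.Agent.R292

open Claims Claims.C0468 Claimed.Agent.R291
open Filter Topology Set

/-- the lattice point under `z` -/
noncomputable def dm7Z (δ : ℝ) (z : ℝ × ℝ) : ℤ × ℤ := (⌊z.1 / δ⌋, ⌊z.2 / δ⌋)

/-- the lattice radius of the disc of radius `ρ` -/
noncomputable def dm7A (δ ρ : ℝ) : ℕ := ⌈ρ / δ⌉₊ + 1

/-- the weights `v ↦ δ² g(δ v)` on the box -/
noncomputable def dm7W (δ : ℝ) (z : ℝ × ℝ) (ρ : ℝ) (g : ℝ × ℝ → ℝ) : (ℤ × ℤ) →₀ ℝ :=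
  Finsupp.indicator (rswBox (dm7Z δ z) (dm7A δ ρ)) (fun v _ => δ ^ 2 * g (δ * v.1, δ * v.2))

theorem dm7_mem_box (z v : ℤ × ℤ) (n : ℕ) :
    v ∈ rswBox z n ↔ (z.1 - n ≤ v.1 ∧ v.1 < z.1 + n) ∧ (z.2 - n ≤ v.2 ∧ v.2 < z.2 + n) := by
  unfold rswBox
  rw [Finset.mem_product, Finset.mem_Ico, Finset.mem_Ico]

theorem dm7_card_box (z : ℤ × ℤ) (n : ℕ) : (rswBox z n).card = (2 * n) * (2 * n) := by
  unfold rswBox
  rw [Finset.card_product, Int.card_Ico, Int.card_Ico]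
  have h1 : z.1 + (n : ℤ) - (z.1 - n) = ((2 * n : ℕ) : ℤ) := by push_cast; ring
  have h2 : z.2 + (n : ℤ) - (z.2 - n) = ((2 * n : ℕ) : ℤ) := by push_cast; ring
  rw [h1, h2, Int.toNat_natCast]

theorem dm7_box_mono (z : ℤ × ℤ) {m n : ℕ} (h : m ≤ n) : rswBox z m ⊆ rswBox z n := by
  intro v hv
  rw [dm7_mem_box] at hv ⊢
  have : (m : ℤ) ≤ n := by exact_mod_cast h
  omega

theorem dm7_W_apply (δ : ℝ) (z : ℝ × ℝ) (ρ : ℝ) (g : ℝ × ℝ → ℝ) (v : ℤ × ℤ) :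
    dm7W δ z ρ g v = if v ∈ rswBox (dm7Z δ z) (dm7A δ ρ) then δ ^ 2 * g (δ * v.1, δ * v.2) else 0 := by
  unfold dm7W
  rw [Finsupp.indicator_apply]
  split_ifs <;> rfl

theorem dm7_W_support (δ : ℝ) (z : ℝ × ℝ) (ρ : ℝ) (g : ℝ × ℝ → ℝ) :
    (dm7W δ z ρ g).support ⊆ rswBox (dm7Z δ z) (dm7A δ ρ) :=
  Finsupp.support_indicator_subset _ _

/-- one coordinate: `|δ k - x| ≤ R` puts `k` in `[⌊x/δ⌋ - ⌈R/δ⌉₊, ⌊x/δ⌋ + ⌈R/δ⌉₊]` -/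
theorem dm7_coord {δ x R : ℝ} (hδ : 0 < δ) {k : ℤ} (h : |δ * k - x| ≤ R) :
    ⌊x / δ⌋ - (⌈R / δ⌉₊ : ℤ) ≤ k ∧ k < ⌊x / δ⌋ + (⌈R / δ⌉₊ : ℤ) + 1 := by
  obtain ⟨h1, h2⟩ := abs_le.1 h
  have hc : R / δ ≤ (⌈R / δ⌉₊ : ℝ) := Nat.le_ceil _
  have hf1 : (⌊x / δ⌋ : ℝ) ≤ x / δ := Int.floor_le _
  have hf2 : x / δ < (⌊x / δ⌋ : ℝ) + 1 := Int.lt_floor_add_one _
  have e1 : (k : ℝ) = (δ * k) / δ := by field_simp
  have a1 : x / δ - R / δ ≤ (k : ℝ) := by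
    rw [e1, ← sub_div]; exact div_le_div_of_nonneg_right (by linarith) hδ.le
  have a2 : (k : ℝ) ≤ x / δ + R / δ := by
    rw [e1, ← add_div]; exact div_le_div_of_nonneg_right (by linarith) hδ.le
  constructor
  · have : ((⌊x / δ⌋ - (⌈R / δ⌉₊ : ℤ) : ℤ) : ℝ) < (k : ℝ) + 1 := by push_cast; linarith
    have := (Int.cast_lt (R := ℝ)).1 (by push_cast at this ⊢; exact this : ((⌊x / δ⌋ - (⌈R / δ⌉₊ : ℤ) : ℤ) : ℝ) < ((k + 1 : ℤ) : ℝ))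
    omega
  · have : (k : ℝ) < ((⌊x / δ⌋ + (⌈R / δ⌉₊ : ℤ) + 1 : ℤ) : ℝ) := by push_cast; linarith
    exact (Int.cast_lt (R := ℝ)).1 this

theorem dm7_abs_of_disc {x z : ℝ × ℝ} {ρ : ℝ} (hρ : 0 ≤ ρ) (h : x ∈ wkBall z ρ) : |x.1 - z.1| ≤ ρ ∧ |x.2 - z.2| ≤ ρ := by
  have h' : (x.1 - z.1) ^ 2 + (x.2 - z.2) ^ 2 ≤ ρ ^ 2 := h
  constructor
  · exact abs_le_of_sq_le_sq (by nlinarith [sq_nonneg (x.2 - z.2)]) hρ
  · exact abs_le_of_sq_le_sq (by nlinarith [sq_nonneg (x.1 - z.1)]) hρ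

/-- lattice points of the disc lie in the box -/
theorem dm7_box_of_disc {δ ρ : ℝ} (hδ : 0 < δ) (hρ : 0 ≤ ρ) {z : ℝ × ℝ} {v : ℤ × ℤ}
    (h : ((δ * v.1, δ * v.2) : ℝ × ℝ) ∈ wkBall z ρ) : v ∈ rswBox (dm7Z δ z) (dm7A δ ρ) := by
  obtain ⟨h1, h2⟩ := dm7_abs_of_disc hρ h
  obtain ⟨a1, a2⟩ := dm7_coord hδ h1
  obtain ⟨b1, b2⟩ := dm7_coord hδ h2
  rw [dm7_mem_box]
  unfold dm7Z dm7A
  push_cast
  refine ⟨⟨?_, ?_⟩, ⟨?_, ?_⟩⟩ <;> omega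

theorem dm7_A_pos (δ ρ : ℝ) : 1 ≤ dm7A δ ρ := by unfold dm7A; omega

/-- `ρ ≤ a δ ≤ ρ + 2 δ` -/
theorem dm7_A_le {δ ρ : ℝ} (hδ : 0 < δ) (hρ : 0 ≤ ρ) : (dm7A δ ρ : ℝ) * δ ≤ ρ + 2 * δ := by
  unfold dm7A
  have h := Nat.ceil_lt_add_one (div_nonneg hρ hδ.le)
  push_cast
  have e : ρ / δ * δ = ρ := by field_simp
  nlinarith

theorem dm7_A_ge {δ ρ : ℝ} (hδ : 0 < δ) : ρ / δ + 1 ≤ (dm7A δ ρ : ℝ) := by
  unfold dm7A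
  push_cast
  have := Nat.le_ceil (ρ / δ)
  linarith

/-- **the smearing** -/
theorem dm7_sm {δ ρ M : ℝ} (hδ : 0 < δ) (hρ : 0 ≤ ρ) (z : ℝ × ℝ) {g : ℝ × ℝ → ℝ} (hg : ∀ y, |g y| ≤ M) :
    RswSm (dm7Z δ z) (dm7A δ ρ) (4 * M * (ρ + 2 * δ) ^ 2) (dm7W δ z ρ g) := by
  have hM : 0 ≤ M := (abs_nonneg _).trans (hg 0)
  have hA := dm7_A_le hδ hρ
  have hA0 : (0 : ℝ) ≤ (dm7A δ ρ : ℝ) * δ := by positivity
  have hsq : ((dm7A δ ρ : ℝ) * δ) ^ 2 ≤ (ρ + 2 * δ) ^ 2 := pow_le_pow_left₀ hA0 hA 2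
  have hw : ∀ u, |dm7W δ z ρ g u| ≤ δ ^ 2 * M := by
    intro u
    rw [dm7_W_apply]
    split_ifs
    · rw [abs_mul, abs_of_nonneg (sq_nonneg δ)]
      exact mul_le_mul_of_nonneg_left (hg _) (sq_nonneg δ)
    · simpa using mul_nonneg (sq_nonneg δ) hM
  refine ⟨dm7_W_support δ z ρ g, ?_, fun u => ?_⟩
  · calc ∑ u ∈ (dm7W δ z ρ g).support, |dm7W δ z ρ g u|
        ≤ ∑ u ∈ rswBox (dm7Z δ z) (dm7A δ ρ), |dm7W δ z ρ g u| :=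
          Finset.sum_le_sum_of_subset_of_nonneg (dm7_W_support δ z ρ g) (fun _ _ _ => abs_nonneg _)
      _ ≤ ∑ _u ∈ rswBox (dm7Z δ z) (dm7A δ ρ), δ ^ 2 * M := Finset.sum_le_sum fun u _ => hw u
      _ = 4 * M * ((dm7A δ ρ : ℝ) * δ) ^ 2 := by
          rw [Finset.sum_const, dm7_card_box, nsmul_eq_mul]; push_cast; ring
      _ ≤ 4 * M * (ρ + 2 * δ) ^ 2 := mul_le_mul_of_nonneg_left hsq (by positivity)
  · calc |dm7W δ z ρ g u| * (dm7A δ ρ : ℝ) ^ 2 ≤ δ ^ 2 * M * (dm7A δ ρ : ℝ) ^ 2 :=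
          mul_le_mul_of_nonneg_right (hw u) (sq_nonneg _)
      _ = M * ((dm7A δ ρ : ℝ) * δ) ^ 2 := by ring
      _ ≤ M * (ρ + 2 * δ) ^ 2 := mul_le_mul_of_nonneg_left hsq hM
      _ ≤ 4 * M * (ρ + 2 * δ) ^ 2 := by nlinarith [mul_nonneg hM (sq_nonneg (ρ + 2 * δ))]

/-- **the statistic is the smeared height** -/
theorem dm7_arr {δ ρ : ℝ} (hδ : 0 < δ) (hρ : 0 ≤ ρ) (z : ℝ × ℝ) {g : ℝ × ℝ → ℝ} (hg : ∀ y, y ∉ wkBall z ρ → g y = 0)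
    {C : Finset (ℤ × ℤ)} (hC : rswBox (dm7Z δ z) (dm7A δ ρ) ⊆ C) (h : ℤ × ℤ → ℝ) :
    rswArr (dm7W δ z ρ g) h = δ ^ 2 * ∑ v ∈ C, h v * g (δ * v.1, δ * v.2) := by
  unfold rswArr
  rw [Finsupp.sum_of_support_subset _ ((dm7_W_support δ z ρ g).trans hC) (fun v x => x * h v) (fun _ _ => zero_mul _),
    Finset.mul_sum]
  refine Finset.sum_congr rfl fun v _ => ?_
  rw [dm7_W_apply]
  split_ifs with hv
  · ring
  · have : g (δ * v.1, δ * v.2) = 0 := hg _ fun hh => hv (dm7_box_of_disc hδ hρ hh)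
    rw [this]; ring

/-- a face which meets the sup-ball of radius `R` about `z` (for J4) -/
theorem dm7_box_of_meets {δ R : ℝ} (hδ : 0 < δ) {z : ℝ × ℝ} {f : ℤ × ℤ}
    (h : (jdSq δ f ∩ Metric.closedBall z R).Nonempty) : f ∈ rswBox (dm7Z δ z) (⌈R / δ⌉₊ + 2) := by
  obtain ⟨p, hp, hpz⟩ := h
  rw [jdSq_eqns_cite] at hp
  obtain ⟨⟨a1, a2⟩, ⟨b1, b2⟩⟩ := hp
  rw [Metric.mem_closedBall, Prod.dist_eq, max_le_iff, Real.dist_eq, Real.dist_eq] at hpz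
  obtain ⟨c1, c2⟩ := hpz
  have key : ∀ (x t : ℝ) (k : ℤ), δ * k ≤ t → t ≤ δ * (k + 1) → |t - x| ≤ R →
      ⌊x / δ⌋ - ((⌈R / δ⌉₊ + 2 : ℕ) : ℤ) ≤ k ∧ k < ⌊x / δ⌋ + ((⌈R / δ⌉₊ + 2 : ℕ) : ℤ) := by
    intro x t k h1 h2 h3
    obtain ⟨h4, h5⟩ := abs_le.1 h3
    have hc : R / δ ≤ (⌈R / δ⌉₊ : ℝ) := Nat.le_ceil _
    have hf1 : (⌊x / δ⌋ : ℝ) ≤ x / δ := Int.floor_le _
    have hf2 : x / δ < (⌊x / δ⌋ : ℝ) + 1 := Int.lt_floor_add_one _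
    have e1 : (k : ℝ) = (δ * k) / δ := by field_simp
    have e2 : (k : ℝ) + 1 = (δ * (k + 1)) / δ := by field_simp
    have a1 : (k : ℝ) ≤ x / δ + R / δ := by
      rw [e1, ← add_div]; exact div_le_div_of_nonneg_right (by linarith) hδ.le
    have a2 : x / δ - R / δ ≤ (k : ℝ) + 1 := by
      rw [e2, ← sub_div]; exact div_le_div_of_nonneg_right (by linarith) hδ.le
    constructor
    · have : ((⌊x / δ⌋ - ((⌈R / δ⌉₊ + 2 : ℕ) : ℤ) : ℤ) : ℝ) < ((k + 1 : ℤ) : ℝ) := by push_cast; linarith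
      have := (Int.cast_lt (R := ℝ)).1 this
      omega
    · have : (k : ℝ) < ((⌊x / δ⌋ + ((⌈R / δ⌉₊ + 2 : ℕ) : ℤ) : ℤ) : ℝ) := by push_cast; linarith
      exact (Int.cast_lt (R := ℝ)).1 this
  rw [dm7_mem_box]
  exact ⟨key z.1 p.1 f.1 a1 a2 c1, key z.2 p.2 f.2 b1 b2 c2⟩

/-- a face of the box lies in the sup-ball of radius `(m + 1) δ` (for J3) -/
theorem dm7_sq_subset {δ : ℝ} (hδ : 0 < δ) (z : ℝ × ℝ) {m : ℕ} {f : ℤ × ℤ} (hf : f ∈ rswBox (dm7Z δ z) m) :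
    jdSq δ f ⊆ Metric.closedBall z (((m : ℝ) + 1) * δ) := by
  rw [dm7_mem_box] at hf
  obtain ⟨⟨a1, a2⟩, ⟨b1, b2⟩⟩ := hf
  have key : ∀ (x t : ℝ) (k : ℤ), ⌊x / δ⌋ - (m : ℤ) ≤ k → k < ⌊x / δ⌋ + (m : ℤ) → δ * k ≤ t → t ≤ δ * (k + 1) →
      |t - x| ≤ ((m : ℝ) + 1) * δ := by
    intro x t k h1 h2 h3 h4
    have hf1 : (⌊x / δ⌋ : ℝ) ≤ x / δ := Int.floor_le _
    have hf2 : x / δ < (⌊x / δ⌋ : ℝ) + 1 := Int.lt_floor_add_one _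
    have ex : x = δ * (x / δ) := by field_simp
    have g1 : ((⌊x / δ⌋ : ℝ) - m) ≤ k := by exact_mod_cast h1
    have g2 : (k : ℝ) + 1 ≤ (⌊x / δ⌋ : ℝ) + m := by exact_mod_cast (Int.add_one_le_iff.2 h2)
    rw [abs_le]
    constructor
    · have : δ * ((x / δ) - 1 - m) ≤ δ * k := mul_le_mul_of_nonneg_left (by linarith) hδ.le
      nlinarith
    · have : δ * ((k : ℝ) + 1) ≤ δ * (x / δ + m) := mul_le_mul_of_nonneg_left (by linarith) hδ.le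
      nlinarith
  intro p hp
  rw [jdSq_eqns_cite] at hp
  obtain ⟨⟨c1, c2⟩, ⟨d1, d2⟩⟩ := hp
  rw [Metric.mem_closedBall, Prod.dist_eq, max_le_iff, Real.dist_eq, Real.dist_eq]
  exact ⟨key z.1 p.1 f.1 a1 a2 c1 c2, key z.2 p.2 f.2 b1 b2 d1 d2⟩

/-- **the ratio of the two lattice radii** -/
theorem dm7_ratio {δ θ d R : ℝ} (hδ : 0 < δ) (hθ : 0 < θ) (hθ4 : θ ≤ 1 / 4) (hd : 0 < d) (hR0 : 0 ≤ R) (hR : R ≤ 2 * d)
    (hδd : δ ≤ θ * d) : (((⌈R / δ⌉₊ + 2 : ℕ) : ℝ)) / (dm7A δ (θ * d) : ℝ) ≤ 3 / θ := by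
  have ha := dm7_A_ge (ρ := θ * d) hδ
  have ha0 : (0 : ℝ) < (dm7A δ (θ * d) : ℝ) := by
    have : 0 ≤ θ * d / δ := by positivity
    linarith
  have hc := Nat.ceil_lt_add_one (div_nonneg hR0 hδ.le)
  rw [div_le_div_iff₀ ha0 hθ]
  push_cast
  have e1 : R / δ ≤ 2 * d / δ := div_le_div_of_nonneg_right hR hδ.le
  have e2 : 1 ≤ θ * d / δ := by rw [le_div_iff₀ hδ]; linarith
  have e3 : θ * (2 * d / δ) = 2 * (θ * d / δ) := by ring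
  nlinarith

/-! ### the dilation -/

theorem dm7_region_scale {δ : ℝ} (hδ : 0 < δ) (F : Finset (ℤ × ℤ)) :
    faceRegionSq δ F = (Homeomorph.smulOfNeZero (δ⁻¹) (inv_ne_zero hδ.ne') : ℝ × ℝ ≃ₜ ℝ × ℝ) ⁻¹' faceRegionSq 1 F := by
  unfold faceRegionSq
  rw [Homeomorph.preimage_interior]
  congr 1
  ext p
  simp only [mem_iUnion, mem_preimage, mem_prod, mem_Icc, Homeomorph.smulOfNeZero_apply, Prod.smul_fst, Prod.smul_snd,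
    smul_eq_mul, one_mul]
  have key : ∀ (t : ℝ) (k : ℤ), (δ * k ≤ t ∧ t ≤ δ * (k + 1)) ↔ ((k : ℝ) ≤ δ⁻¹ * t ∧ δ⁻¹ * t ≤ k + 1) := by
    intro t k
    rw [inv_mul_eq_div, le_div_iff₀ hδ, div_le_iff₀ hδ, mul_comm δ, mul_comm δ]
  constructor
  · rintro ⟨f, hf, h1, h2⟩
    exact ⟨f, hf, (key _ _).1 h1, (key _ _).1 h2⟩
  · rintro ⟨f, hf, h1, h2⟩
    exact ⟨f, hf, (key _ _).2 h1, (key _ _).2 h2⟩

/-- a Jordan polygon at mesh `δ` is a Jordan polygon at mesh one -/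
theorem dm7_jordan_of {δ : ℝ} (hδ : 0 < δ) {F : Finset (ℤ × ℤ)}
    (h : ∃ γ : Circle → ℝ × ℝ, Continuous γ ∧ Function.Injective γ ∧ Set.range γ = frontier (faceRegionSq δ F)) :
    RswJordan F := by
  obtain ⟨γ, h1, h2, h3⟩ := h
  set s : ℝ × ℝ ≃ₜ ℝ × ℝ := Homeomorph.smulOfNeZero (δ⁻¹) (inv_ne_zero hδ.ne') with hs
  refine ⟨s ∘ γ, s.continuous.comp h1, s.injective.comp h2, ?_⟩
  rw [Set.range_comp, h3, dm7_region_scale hδ F, ← hs, ← Homeomorph.preimage_frontier, Set.image_preimage_eq _ s.surjective]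

/-- **every `F n` of an admissible approximation is `RswJordan`** -/
theorem dm7_jordan {D : Set (ℝ × ℝ)} {δ : ℕ → ℝ} {F : ℕ → Finset (ℤ × ℤ)} (h : IsAdmissibleApprox D δ F) (n : ℕ) :
    RswJordan (F n) := by
  obtain ⟨h1, -, -, γ, γs, -, -, -, h4, -⟩ := h
  exact dm7_jordan_of (h1 n) ⟨γs n, h4 n⟩

end Claimed.Agent.R292
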