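import Claimed.Agent.R292.Defs.Arch
import Claimed.Agent.R292.Defs.GaussArch
import Claimed.Agent.R292.Height
import Claimed.Agent.R292.Rsw.Base122
import Claimed.Agent.R292.Rsw.Dict11
import Claimed.Agent.R292.Geo.Sq179
import Claimed.Agent.R292.Gauss.Dict292

/-!
# Row 292 (S0540), Jordan/Arch281 : `GaussArch` FROM THE LATTICE ARM BOUND      (helper281; prefix `ja281_`)      0 sorry

* `ja281_wall_zero`     the height vanishes on the wall cluster (no hypothesis on the weight: if there is no height, `atHeight = 0`)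
* `ja281_seal_good0`    a seal is a blocking edge of Defs/GaussArch;      `ja281_sep`   `RswSepW F ω A' B' → GaussSep0 F ω A B` for `A ⊆ A'`, `B ⊆ B'`
* `ja281_jordan`        `IsAdmissibleApprox D δ F → RswJordan (F n)` (scaling)
* `ja281_arch`          the arm bound with the seals `RswSepW`  ⟹  `GaussArch t D δ F`
* `ja281_sepW_sep`, `ja281_arm_weaken`   `RswSepW ⟹ RswSep .. true`: the arm bound with the PLAIN colour separation is the weaker contract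
* `ja281_arch_plain`    the arm bound with the plain `RswSep F true` (Exit/Arch)  ⟹  `GaussArch t D δ F`      (adapter `at92f_box_P_le` of 292: both sets touch the wall)
-/

set_option autoImplicit false

namespace Claimed.Agent.R292

open Filter Topology Set
open Claims Claims.C0468 Claimed.Agent.R291

/-! ### the height on the wall cluster -/

theorem ja281_link_eq {F : Finset (ℤ × ℤ)} {ω : RswCfg} (hO : ω.O ⊆ rswInt F) {Hf : ℤ × ℤ → ℝ}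
    (hH : IsATHeight (rswTau F ω) (rswTauD F ω) (rswH F ω) Hf) {a b : ℤ × ℤ} (h : RswLink ω a b) :
    rswH F ω a = rswH F ω b := by
  obtain ⟨e, ⟨heO, h1, h2⟩, hab⟩ := h
  have he := rsz_mem_int.1 (hO heO)
  have hH' := (at92h_isHeight_iff.1 hH).2 e.1 he.1
  have c1 : at92hCor e.1 e.1 := ⟨Or.inl rfl, Or.inl rfl⟩
  have c2 : at92hCor e.1 (rswEnd e) := by
    unfold rswEnd at92hCor
    split_ifs <;> simp
  have s1 : atSpin (rswTau F ω) e.1 = 1 := by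
    rw [rswd11_spin ω (rsz_face_corner he.1), if_pos (h1.2 rfl)]
  have s2 : atSpin (rswTau F ω) (rswEnd e) = 1 := by
    rw [rswd11_spin ω (rsz_end_corner he.1), if_pos (h2.2 rfl)]
  have e1 := hH' _ c1
  have e2 := hH' _ c2
  rw [s1] at e1
  rw [s2] at e2
  have : rswH F ω e.1 = rswH F ω (rswEnd e) := by linarith
  rcases hab with ⟨rfl, rfl⟩ | ⟨rfl, rfl⟩
  · exact this
  · exact this.symm

/-- the height vanishes on the wall cluster -/
theorem ja281_wall_zero {F : Finset (ℤ × ℤ)} {ω : RswCfg} (hO : ω.O ⊆ rswInt F) {v : ℤ × ℤ} (h : RswWall F ω v) :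
    rswH F ω v = 0 := by
  by_cases hex : ∃ Hv Hf : ℤ × ℤ → ℝ, IsATHeight (rswTau F ω) (rswTauD F ω) Hv Hf
  · obtain ⟨Hf, hH⟩ := at92h_spec hex
    obtain ⟨w, hw, hp, hc⟩ := h
    induction hc with
    | refl => exact hH.1 w hw hp
    | tail _ hl ih => rw [← ja281_link_eq hO hH hl]; exact ih
  · exact at92h_zero_of_not hex v

theorem ja281_wall_end {F : Finset (ℤ × ℤ)} {ω : RswCfg} {e : (ℤ × ℤ) × Bool} (h : RswSeal F ω e) : RswWall F ω (rswEnd e) := by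
  obtain ⟨hg, w, hw, hp, hc⟩ := h
  exact ⟨w, hw, hp, hc.tail ⟨e, hg, Or.inl ⟨rfl, rfl⟩⟩⟩

theorem ja281_seal_good0 {F : Finset (ℤ × ℤ)} {ω : RswCfg} (hO : ω.O ⊆ rswInt F) {e : (ℤ × ℤ) × Bool} (h : RswSeal F ω e) :
    GaussGood0 F ω e :=
  ⟨h.1.1, ja281_wall_zero hO h.2, ja281_wall_zero hO (ja281_wall_end h)⟩

theorem ja281_step {F : Finset (ℤ × ℤ)} {ω : RswCfg} (hO : ω.O ⊆ rswInt F) {f g : ℤ × ℤ} (h : GaussStep0 F ω f g) :
    RswStepW F ω f g := by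
  obtain ⟨hf, hg, e, he, hn⟩ := h
  exact ⟨hf, hg, e, he, fun hs => hn (ja281_seal_good0 hO hs)⟩

theorem ja281_sep {F : Finset (ℤ × ℤ)} {ω : RswCfg} (hO : ω.O ⊆ rswInt F) {A A' B B' : Finset (ℤ × ℤ)} (hA : A ⊆ A') (hB : B ⊆ B')
    (h : RswSepW F ω A' B') : GaussSep0 F ω A B := by
  intro f hf g hg hc
  exact h f (hA hf) g (hB hg) (hc.lift id (fun _ _ hs => ja281_step hO hs))

/-! ### scaling -/

theorem ja281_sq_scale {δ : ℝ} (hδ : 0 < δ) (f : ℤ × ℤ) (x : ℝ × ℝ) : x ∈ at92hSq δ f ↔ δ⁻¹ • x ∈ at92hSq 1 f := by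
  rw [at92h_mem_sq, at92h_mem_sq]
  simp only [Prod.smul_fst, Prod.smul_snd, smul_eq_mul, one_mul]
  have e : ∀ (a y : ℝ), (δ * a ≤ y ↔ a ≤ δ⁻¹ * y) := fun a y => by
    rw [← div_eq_inv_mul, le_div_iff₀ hδ, mul_comm]
  have e' : ∀ (a y : ℝ), (y ≤ δ * a ↔ δ⁻¹ * y ≤ a) := fun a y => by
    rw [← div_eq_inv_mul, div_le_iff₀ hδ, mul_comm]
  rw [e, e, e', e']

theorem ja281_region_scale {δ : ℝ} (hδ : 0 < δ) (F : Finset (ℤ × ℤ)) :
    faceRegionSq δ F = (fun x : ℝ × ℝ => δ⁻¹ • x) ⁻¹' faceRegionSq 1 F := by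
  rw [at92h_region hδ, at92h_region one_pos]
  ext x
  simp only [mem_ofPred_eq, mem_preimage]
  exact forall_congr' fun f => by rw [ja281_sq_scale hδ]

theorem ja281_jordan_scale {δ : ℝ} (hδ : 0 < δ) {F : Finset (ℤ × ℤ)} {γ : Circle → ℝ × ℝ} (hc : Continuous γ)
    (hi : Function.Injective γ) (hr : Set.range γ = frontier (faceRegionSq δ F)) : RswJordan F := by
  have hne : δ⁻¹ ≠ 0 := (inv_pos.2 hδ).ne'
  let Φ : (ℝ × ℝ) ≃ₜ (ℝ × ℝ) := Homeomorph.smulOfNeZero δ⁻¹ hne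
  have hΦ : ∀ x, Φ x = δ⁻¹ • x := fun _ => rfl
  refine ⟨fun c => Φ (γ c), Φ.continuous.comp hc, Φ.injective.comp hi, ?_⟩
  have e1 : faceRegionSq δ F = Φ ⁻¹' faceRegionSq 1 F := ja281_region_scale hδ F
  rw [e1, ← Φ.preimage_frontier] at hr
  have : Set.range (fun c => Φ (γ c)) = Φ '' Set.range γ := by
    rw [← Set.range_comp]; rfl
  rw [this, hr, Set.image_preimage_eq _ Φ.surjective]

/-- **[SCALE]** -/
theorem ja281_jordan {D : Set (ℝ × ℝ)} {δ : ℕ → ℝ} {F : ℕ → Finset (ℤ × ℤ)} (h : IsAdmissibleApprox D δ F) (n : ℕ) :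
    RswJordan (F n) := by
  obtain ⟨hδ, _, _, γ, γs, _, _, _, hγs, _⟩ := h
  exact ja281_jordan_scale (hδ n) (hγs n).1 (hγs n).2.1 (hγs n).2.2

/-! ### one dimensional arithmetic -/

theorem ja281_1d_in {d p r : ℝ} (hd : 0 < d) {m : ℤ} (h : |d * m - p| < r) :
    ⌊p / d⌋ - (⌈r / d⌉₊ : ℤ) ≤ m ∧ m < ⌊p / d⌋ + (⌈r / d⌉₊ : ℤ) + 1 := by
  obtain ⟨h1, h2⟩ := abs_lt.1 h
  have a1 : (m : ℝ) < p / d + r / d := by rw [← add_div, lt_div_iff₀ hd]; linarith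
  have a2 : p / d - r / d < (m : ℝ) := by rw [← sub_div, div_lt_iff₀ hd]; linarith
  have f1 := Int.floor_le (p / d)
  have f2 := Int.lt_floor_add_one (p / d)
  have c1 := Nat.le_ceil (r / d)
  constructor
  · have : ((⌊p / d⌋ - (⌈r / d⌉₊ : ℤ) : ℤ) : ℝ) < (m : ℝ) := by push_cast; linarith
    exact (Int.cast_lt.1 this).le
  · have : (m : ℝ) < ((⌊p / d⌋ + (⌈r / d⌉₊ : ℤ) + 1 : ℤ) : ℝ) := by push_cast; linarith
    exact Int.cast_lt.1 this

theorem ja281_1d_sq {d p r x : ℝ} (hd : 0 < d) {m : ℤ} (h1 : d * m ≤ x) (h2 : x ≤ d * (m + 1)) (h : |x - p| ≤ r) :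
    ⌊p / d⌋ - (⌈r / d⌉₊ : ℤ) - 1 ≤ m ∧ m < ⌊p / d⌋ + (⌈r / d⌉₊ : ℤ) + 1 := by
  obtain ⟨h3, h4⟩ := abs_le.1 h
  have a1 : (m : ℝ) ≤ p / d + r / d := by rw [← add_div, le_div_iff₀ hd]; linarith
  have a2 : p / d - r / d ≤ (m : ℝ) + 1 := by rw [← sub_div, div_le_iff₀ hd]; linarith
  have f1 := Int.floor_le (p / d)
  have f2 := Int.lt_floor_add_one (p / d)
  have c1 := Nat.le_ceil (r / d)
  constructor
  · have : ((⌊p / d⌋ - (⌈r / d⌉₊ : ℤ) - 1 : ℤ) : ℝ) ≤ (m : ℝ) := by push_cast; linarith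
    exact Int.cast_le.1 this
  · have : (m : ℝ) < ((⌊p / d⌋ + (⌈r / d⌉₊ : ℤ) + 1 : ℤ) : ℝ) := by push_cast; linarith
    exact Int.cast_lt.1 this

theorem ja281_1d_out {d p : ℝ} (hd : 0 < d) {m : ℤ} {N : ℕ} (h1 : ⌊p / d⌋ - (N : ℤ) ≤ m) (h2 : m < ⌊p / d⌋ + (N : ℤ)) :
    |d * m - p| < d * (N + 1) := by
  have f1 := Int.floor_le (p / d)
  have f2 := Int.lt_floor_add_one (p / d)
  have g1 : ((⌊p / d⌋ : ℤ) : ℝ) - N ≤ m := by exact_mod_cast h1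
  have g2 : (m : ℝ) < ((⌊p / d⌋ : ℤ) : ℝ) + N := by exact_mod_cast h2
  have e : d * m - p = d * ((m : ℝ) - p / d) := by field_simp
  rw [e, abs_mul, abs_of_pos hd]
  refine mul_lt_mul_of_pos_left ?_ hd
  rw [abs_lt]
  constructor <;> linarith

theorem ja281_mem_box {z f : ℤ × ℤ} {n : ℕ} :
    f ∈ rswBox z n ↔ (z.1 - (n : ℤ) ≤ f.1 ∧ f.1 < z.1 + (n : ℤ)) ∧ (z.2 - (n : ℤ) ≤ f.2 ∧ f.2 < z.2 + (n : ℤ)) := by
  simp [rswBox, Finset.mem_product, Finset.mem_Ico]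

/-! ### the arch -/

/-- **`GaussArch` from the lattice arm bound** (the hypothesis is `exit_rsw_arm` of Exit/Arch) -/
theorem ja281_arch {t : ℝ} (ht0 : 0 ≤ t) (ht1 : t ≤ 1)
    (harm : ∃ C α : ℝ, 0 < C ∧ 0 < α ∧ ∀ (F : Finset (ℤ × ℤ)) (z : ℤ × ℤ) (r R : ℕ), RswJordan F → 1 ≤ r → r ≤ R → ¬ rswBox z r ⊆ F →
      rswP t F true (fun ω => ¬ RswSepW F ω (F ∩ rswBox z r) (F \ rswBox z R)) ≤ C * ((r : ℝ) / R) ^ α)
    {D : Set (ℝ × ℝ)} {δ : ℕ → ℝ} {F : ℕ → Finset (ℤ × ℤ)} (hF : IsAdmissibleApprox D δ F) : GaussArch t D δ F := by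
  obtain ⟨C, α, hC, hα, H⟩ := harm
  intro p hp R hR ε hε
  -- the ratio
  obtain ⟨ρ, hρ0, hρ1, hρ⟩ : ∃ ρ : ℝ, 0 < ρ ∧ ρ ≤ 1 ∧ C * ρ ^ α ≤ ε := by
    refine ⟨min 1 ((ε / C) ^ α⁻¹), lt_min one_pos (Real.rpow_pos_of_pos (div_pos hε hC) _), min_le_left _ _, ?_⟩
    have h1 : (min 1 ((ε / C) ^ α⁻¹)) ^ α ≤ ((ε / C) ^ α⁻¹) ^ α :=
      Real.rpow_le_rpow (lt_min one_pos (Real.rpow_pos_of_pos (div_pos hε hC) _)).le (min_le_right _ _) hα.le
    rw [← Real.rpow_mul (div_pos hε hC).le, inv_mul_cancel₀ hα.ne', Real.rpow_one] at h1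
    calc C * (min 1 ((ε / C) ^ α⁻¹)) ^ α ≤ C * (ε / C) := by gcongr
      _ = ε := by field_simp
  have hr0 : 0 < ρ * R / 8 := by positivity
  refine ⟨ρ * R / 8, hr0, by nlinarith, ?_⟩
  set r : ℝ := ρ * R / 8 with hr
  have hrR : r ≤ R / 8 := by rw [hr]; nlinarith
  have hδ0 : ∀ᶠ n in atTop, δ n < r / 3 := (tendsto_order.1 hF.2.1).2 _ (by positivity)
  filter_upwards [hδ0, jd179_reach hF hr0] with n hn hreach
  have hd : 0 < δ n := hF.1 n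
  set d : ℝ := δ n with hdd
  set z : ℤ × ℤ := (⌊p.1 / d⌋, ⌊p.2 / d⌋) with hz
  set k : ℕ := ⌈r / d⌉₊ with hk
  set N : ℕ := ⌊R / (2 * d)⌋₊ with hN
  have q1 : 3 < r / d := by rw [lt_div_iff₀ hd]; linarith
  have k1 : r / d ≤ k := Nat.le_ceil _
  have k2 : (k : ℝ) < r / d + 1 := Nat.ceil_lt_add_one (by positivity)
  have N1 : (N : ℝ) ≤ R / (2 * d) := Nat.floor_le (by positivity)
  have N2 : R / (2 * d) < (N : ℝ) + 1 := Nat.lt_floor_add_one _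
  have q2 : R / (2 * d) = 4 * (R / 8 / d) := by field_simp; ring
  have q3 : r / d ≤ R / 8 / d := by gcongr
  have N3 : (1 : ℝ) ≤ N := by
    have : (11 : ℝ) < (N : ℝ) := by linarith
    linarith
  have N3' : 1 ≤ N := by exact_mod_cast N3
  have cN : ((N - 1 : ℕ) : ℝ) = (N : ℝ) - 1 := by rw [Nat.cast_sub N3']; simp
  -- the two radii
  have hrat : ((k + 2 : ℕ) : ℝ) / ((N - 1 : ℕ) : ℝ) ≤ ρ := by
    rw [cN]
    have hpos : (0 : ℝ) < (N : ℝ) - 1 := by linarith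
    rw [div_le_iff₀ hpos]
    push_cast
    have e1 : r / d = ρ * (R / 8 / d) := by rw [hr]; field_simp
    have e2 : (2 : ℝ) * (R / 8 / d) ≤ (N : ℝ) - 1 := by linarith
    calc (k : ℝ) + 2 ≤ 2 * (r / d) := by linarith
      _ = ρ * (2 * (R / 8 / d)) := by rw [e1]; ring
      _ ≤ ρ * ((N : ℝ) - 1) := by gcongr
  have hle : k + 2 ≤ N - 1 := by
    have hpos : (0 : ℝ) < ((N - 1 : ℕ) : ℝ) := by rw [cN]; linarith
    have : ((k + 2 : ℕ) : ℝ) ≤ ((N - 1 : ℕ) : ℝ) := by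
      have := (div_le_iff₀ hpos).1 hrat
      nlinarith
    exact_mod_cast this
  -- a face off `F n` in the small box
  have hbox : ¬ rswBox z (k + 2) ⊆ F n := by
    obtain ⟨g, hg, x, hx1, hx2⟩ := hreach p
    have hdep : jdDep D p = 0 := by rw [jdDep]; exact Metric.infDist_zero_of_mem hp
    rw [hdep, zero_add, Metric.mem_closedBall, Prod.dist_eq, max_le_iff, Real.dist_eq, Real.dist_eq] at hx2
    rw [jdSq, Set.mem_prod, Set.mem_Icc, Set.mem_Icc] at hx1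
    intro hsub
    refine hg (hsub ?_)
    have b1 := ja281_1d_sq hd hx1.1.1 hx1.1.2 hx2.1
    have b2 := ja281_1d_sq hd hx1.2.1 hx1.2.2 hx2.2
    rw [ja281_mem_box]
    simp only [hz]
    push_cast
    refine ⟨⟨?_, ?_⟩, ?_, ?_⟩ <;> omega
  have hmain := H (F n) z (k + 2) (N - 1) (ja281_jordan hF n) (by omega) hle hbox
  have hA : gaussIn d (F n) p r ⊆ F n ∩ rswBox z (k + 2) := by
    intro f hf
    classical
    rw [gaussIn, Finset.mem_filter] at hf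
    obtain ⟨hfF, hfd⟩ := hf
    unfold C0467.sqDist at hfd
    simp only at hfd
    have u1 : |d * (f.1 : ℝ) - p.1| < r := abs_lt_of_sq_lt_sq (by nlinarith [sq_nonneg (d * (f.2 : ℝ) - p.2)]) hr0.le
    have u2 : |d * (f.2 : ℝ) - p.2| < r := abs_lt_of_sq_lt_sq (by nlinarith [sq_nonneg (d * (f.1 : ℝ) - p.1)]) hr0.le
    have b1 := ja281_1d_in hd u1
    have b2 := ja281_1d_in hd u2
    rw [Finset.mem_inter, ja281_mem_box]
    refine ⟨hfF, ?_⟩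
    simp only [hz]
    push_cast
    refine ⟨⟨?_, ?_⟩, ?_, ?_⟩ <;> omega
  have hB : gaussOut d (F n) p R ⊆ F n \ rswBox z (N - 1) := by
    intro f hf
    classical
    rw [gaussOut, Finset.mem_filter] at hf
    obtain ⟨hfF, hfd⟩ := hf
    rw [Finset.mem_sdiff]
    refine ⟨hfF, fun hb => ?_⟩
    rw [ja281_mem_box] at hb
    have u1 := ja281_1d_out hd hb.1.1 hb.1.2
    have u2 := ja281_1d_out hd hb.2.1 hb.2.2
    rw [cN] at u1 u2
    have v : d * ((N : ℝ) - 1 + 1) ≤ R / 2 := by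
      have : d * (R / (2 * d)) = R / 2 := by field_simp
      calc d * ((N : ℝ) - 1 + 1) = d * N := by ring
        _ ≤ d * (R / (2 * d)) := by gcongr
        _ = R / 2 := this
    unfold C0467.sqDist at hfd
    simp only at hfd
    have w1 : (d * (f.1 : ℝ) - p.1) ^ 2 < (R / 2) ^ 2 := sq_lt_sq' (by linarith [(abs_lt.1 u1).1]) (by linarith [(abs_lt.1 u1).2])
    have w2 : (d * (f.2 : ℝ) - p.2) ^ 2 < (R / 2) ^ 2 := sq_lt_sq' (by linarith [(abs_lt.1 u2).1]) (by linarith [(abs_lt.1 u2).2])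
    nlinarith
  calc rswP t (F n) true (fun ω => ¬ GaussSep0 (F n) ω (gaussIn d (F n) p r) (gaussOut d (F n) p R))
      ≤ rswP t (F n) true (fun ω => ¬ RswSepW (F n) ω (F n ∩ rswBox z (k + 2)) (F n \ rswBox z (N - 1))) :=
        rsz_P_mono' ht0 ht1 (F n) true fun ω _ _ hO _ hns hs => hns (ja281_sep hO hA hB hs)
    _ ≤ C * (((k + 2 : ℕ) : ℝ) / ((N - 1 : ℕ) : ℝ)) ^ α := hmain
    _ ≤ C * ρ ^ α := by
        have : (0 : ℝ) ≤ ((k + 2 : ℕ) : ℝ) / ((N - 1 : ℕ) : ℝ) := by positivity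
        gcongr
    _ ≤ ε := hρ

/-! ### the plain colour separation is the weaker contract -/

theorem ja281_sepW_sep {F : Finset (ℤ × ℤ)} {ω : RswCfg} {A B : Finset (ℤ × ℤ)} (h : RswSepW F ω A B) : RswSep F true ω A B := by
  intro f hf g hg hc
  refine h f hf g hg (hc.lift id fun a b hs => ?_)
  obtain ⟨ha, hb, e, he, hn⟩ := hs
  exact ⟨ha, hb, e, he, fun hseal => hn hseal.1⟩

/-- the arm bound with the seals gives the arm bound with the plain colour separation -/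
theorem ja281_arm_weaken {t : ℝ} (ht0 : 0 ≤ t) (ht1 : t ≤ 1)
    (harm : ∃ C α : ℝ, 0 < C ∧ 0 < α ∧ ∀ (F : Finset (ℤ × ℤ)) (z : ℤ × ℤ) (r R : ℕ), RswJordan F → 1 ≤ r → r ≤ R → ¬ rswBox z r ⊆ F →
      rswP t F true (fun ω => ¬ RswSepW F ω (F ∩ rswBox z r) (F \ rswBox z R)) ≤ C * ((r : ℝ) / R) ^ α) :
    ∃ C α : ℝ, 0 < C ∧ 0 < α ∧ ∀ (F : Finset (ℤ × ℤ)) (z : ℤ × ℤ) (r R : ℕ), RswJordan F → 1 ≤ r → r ≤ R → ¬ rswBox z r ⊆ F →
      rswP t F true (fun ω => ¬ RswSep F true ω (F ∩ rswBox z r) (F \ rswBox z R)) ≤ C * ((r : ℝ) / R) ^ α := by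
  obtain ⟨C, α, hC, hα, H⟩ := harm
  refine ⟨C, α, hC, hα, fun F z r R hF h1 h2 h3 => le_trans ?_ (H F z r R hF h1 h2 h3)⟩
  exact rsz_P_mono ht0 ht1 F true fun ω hn hs => hn (ja281_sepW_sep hs)

/-- **`GaussArch` from the lattice arm bound with the plain colour separation** (the hypothesis is `exit_rsw_arm` of Exit/Arch) -/
theorem ja281_arch_plain {t : ℝ} (ht0 : 0 < t) (ht1 : t ≤ 1)
    (harm : ∃ C α : ℝ, 0 < C ∧ 0 < α ∧ ∀ (F : Finset (ℤ × ℤ)) (z : ℤ × ℤ) (r R : ℕ), RswJordan F → 1 ≤ r → r ≤ R → ¬ rswBox z r ⊆ F →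
      rswP t F true (fun ω => ¬ RswSep F true ω (F ∩ rswBox z r) (F \ rswBox z R)) ≤ C * ((r : ℝ) / R) ^ α)
    {D : Set (ℝ × ℝ)} {δ : ℕ → ℝ} {F : ℕ → Finset (ℤ × ℤ)} (hF : IsAdmissibleApprox D δ F) : GaussArch t D δ F := by
  obtain ⟨C, α, hC, hα, H⟩ := harm
  intro p hp R hR ε hε
  -- the ratio
  obtain ⟨ρ, hρ0, hρ1, hρ⟩ : ∃ ρ : ℝ, 0 < ρ ∧ ρ ≤ 1 ∧ C * ρ ^ α ≤ ε := by
    refine ⟨min 1 ((ε / C) ^ α⁻¹), lt_min one_pos (Real.rpow_pos_of_pos (div_pos hε hC) _), min_le_left _ _, ?_⟩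
    have h1 : (min 1 ((ε / C) ^ α⁻¹)) ^ α ≤ ((ε / C) ^ α⁻¹) ^ α :=
      Real.rpow_le_rpow (lt_min one_pos (Real.rpow_pos_of_pos (div_pos hε hC) _)).le (min_le_right _ _) hα.le
    rw [← Real.rpow_mul (div_pos hε hC).le, inv_mul_cancel₀ hα.ne', Real.rpow_one] at h1
    calc C * (min 1 ((ε / C) ^ α⁻¹)) ^ α ≤ C * (ε / C) := by gcongr
      _ = ε := by field_simp
  have hr0 : 0 < ρ * R / 8 := by positivity
  refine ⟨ρ * R / 8, hr0, by nlinarith, ?_⟩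
  set r : ℝ := ρ * R / 8 with hr
  have hrR : r ≤ R / 8 := by rw [hr]; nlinarith
  have hδ0 : ∀ᶠ n in atTop, δ n < r / 3 := (tendsto_order.1 hF.2.1).2 _ (by positivity)
  filter_upwards [hδ0, jd179_reach hF hr0] with n hn hreach
  have hd : 0 < δ n := hF.1 n
  set d : ℝ := δ n with hdd
  set z : ℤ × ℤ := (⌊p.1 / d⌋, ⌊p.2 / d⌋) with hz
  set k : ℕ := ⌈r / d⌉₊ with hk
  set N : ℕ := ⌊R / (2 * d)⌋₊ with hN
  have q1 : 3 < r / d := by rw [lt_div_iff₀ hd]; linarith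
  have k1 : r / d ≤ k := Nat.le_ceil _
  have k2 : (k : ℝ) < r / d + 1 := Nat.ceil_lt_add_one (by positivity)
  have N1 : (N : ℝ) ≤ R / (2 * d) := Nat.floor_le (by positivity)
  have N2 : R / (2 * d) < (N : ℝ) + 1 := Nat.lt_floor_add_one _
  have q2 : R / (2 * d) = 4 * (R / 8 / d) := by field_simp; ring
  have q3 : r / d ≤ R / 8 / d := by gcongr
  have N3 : (1 : ℝ) ≤ N := by
    have : (11 : ℝ) < (N : ℝ) := by linarith
    linarith
  have N3' : 1 ≤ N := by exact_mod_cast N3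
  have cN : ((N - 1 : ℕ) : ℝ) = (N : ℝ) - 1 := by rw [Nat.cast_sub N3']; simp
  -- the two radii
  have hrat : ((k + 2 : ℕ) : ℝ) / ((N - 1 : ℕ) : ℝ) ≤ ρ := by
    rw [cN]
    have hpos : (0 : ℝ) < (N : ℝ) - 1 := by linarith
    rw [div_le_iff₀ hpos]
    push_cast
    have e1 : r / d = ρ * (R / 8 / d) := by rw [hr]; field_simp
    have e2 : (2 : ℝ) * (R / 8 / d) ≤ (N : ℝ) - 1 := by linarith
    calc (k : ℝ) + 2 ≤ 2 * (r / d) := by linarith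
      _ = ρ * (2 * (R / 8 / d)) := by rw [e1]; ring
      _ ≤ ρ * ((N : ℝ) - 1) := by gcongr
  have hle : k + 2 ≤ N - 1 := by
    have hpos : (0 : ℝ) < ((N - 1 : ℕ) : ℝ) := by rw [cN]; linarith
    have : ((k + 2 : ℕ) : ℝ) ≤ ((N - 1 : ℕ) : ℝ) := by
      have := (div_le_iff₀ hpos).1 hrat
      nlinarith
    exact_mod_cast this
  -- a face off `F n` in the small box
  have hbox : ¬ rswBox z (k + 2) ⊆ F n := by
    obtain ⟨g, hg, x, hx1, hx2⟩ := hreach p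
    have hdep : jdDep D p = 0 := by rw [jdDep]; exact Metric.infDist_zero_of_mem hp
    rw [hdep, zero_add, Metric.mem_closedBall, Prod.dist_eq, max_le_iff, Real.dist_eq, Real.dist_eq] at hx2
    rw [jdSq, Set.mem_prod, Set.mem_Icc, Set.mem_Icc] at hx1
    intro hsub
    refine hg (hsub ?_)
    have b1 := ja281_1d_sq hd hx1.1.1 hx1.1.2 hx2.1
    have b2 := ja281_1d_sq hd hx1.2.1 hx1.2.2 hx2.2
    rw [ja281_mem_box]
    simp only [hz]
    push_cast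
    refine ⟨⟨?_, ?_⟩, ?_, ?_⟩ <;> omega
  have hmain := H (F n) z (k + 2) (N - 1) (ja281_jordan hF n) (by omega) hle hbox
  have hA : gaussIn d (F n) p r ⊆ F n ∩ rswBox z (k + 2) := by
    intro f hf
    classical
    rw [gaussIn, Finset.mem_filter] at hf
    obtain ⟨hfF, hfd⟩ := hf
    unfold C0467.sqDist at hfd
    simp only at hfd
    have u1 : |d * (f.1 : ℝ) - p.1| < r := abs_lt_of_sq_lt_sq (by nlinarith [sq_nonneg (d * (f.2 : ℝ) - p.2)]) hr0.le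
    have u2 : |d * (f.2 : ℝ) - p.2| < r := abs_lt_of_sq_lt_sq (by nlinarith [sq_nonneg (d * (f.1 : ℝ) - p.1)]) hr0.le
    have b1 := ja281_1d_in hd u1
    have b2 := ja281_1d_in hd u2
    rw [Finset.mem_inter, ja281_mem_box]
    refine ⟨hfF, ?_⟩
    simp only [hz]
    push_cast
    refine ⟨⟨?_, ?_⟩, ?_, ?_⟩ <;> omega
  have hB : gaussOut d (F n) p R ⊆ F n \ rswBox z (N - 1) := by
    intro f hf
    classical
    rw [gaussOut, Finset.mem_filter] at hf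
    obtain ⟨hfF, hfd⟩ := hf
    rw [Finset.mem_sdiff]
    refine ⟨hfF, fun hb => ?_⟩
    rw [ja281_mem_box] at hb
    have u1 := ja281_1d_out hd hb.1.1 hb.1.2
    have u2 := ja281_1d_out hd hb.2.1 hb.2.2
    rw [cN] at u1 u2
    have v : d * ((N : ℝ) - 1 + 1) ≤ R / 2 := by
      have : d * (R / (2 * d)) = R / 2 := by field_simp
      calc d * ((N : ℝ) - 1 + 1) = d * N := by ring
        _ ≤ d * (R / (2 * d)) := by gcongr
        _ = R / 2 := this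
    unfold C0467.sqDist at hfd
    simp only at hfd
    have w1 : (d * (f.1 : ℝ) - p.1) ^ 2 < (R / 2) ^ 2 := sq_lt_sq' (by linarith [(abs_lt.1 u1).1]) (by linarith [(abs_lt.1 u1).2])
    have w2 : (d * (f.2 : ℝ) - p.2) ^ 2 < (R / 2) ^ 2 := sq_lt_sq' (by linarith [(abs_lt.1 u2).1]) (by linarith [(abs_lt.1 u2).2])
    nlinarith
  calc rswP t (F n) true (fun ω => ¬ GaussSep0 (F n) ω (gaussIn d (F n) p r) (gaussOut d (F n) p R))
      ≤ rswP t (F n) true (fun ω => ¬ GaussSep0 (F n) ω (F n ∩ rswBox z (k + 2)) (F n \ rswBox z (N - 1))) :=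
        rsz_P_mono ht0.le ht1 (F n) true fun ω hns hs => hns (at92f_sep0_mono hA hB hs)
    _ ≤ rswP t (F n) true (fun ω => ¬ RswSep (F n) true ω (F n ∩ rswBox z (k + 2)) (F n \ rswBox z (N - 1))) :=
        at92f_box_P_le ht0 ht1 (at92h_ext_of_approx hF n) z (k + 2) (N - 1) hbox
    _ ≤ C * (((k + 2 : ℕ) : ℝ) / ((N - 1 : ℕ) : ℝ)) ^ α := hmain
    _ ≤ C * ρ ^ α := by
        have : (0 : ℝ) ≤ ((k + 2 : ℕ) : ℝ) / ((N - 1 : ℕ) : ℝ) := by positivity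
        gcongr
    _ ≤ ε := hρ

end Claimed.Agent.R292
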