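import Claimed.Agent.R292.Defs.JORDAN
import Claimed.Agent.R292.JorGeo199

/-!
# Row 292 (S0540), Jordan/Fill199 : PROOFS OF THE GEOMETRY CONTRACTS OF Exit/JORDAN      (owner helper199; prefix `jor199_`)      0 sorry

Same types as the contracts of `Exit/JORDAN.lean` (head helper281):
* `jor199_exit_inside`   = `exit_jordan_inside`  (J3)
* `jor199_exit_reach`    = `exit_jordan_reach`   (J4)
* `jor199_exit_bounded`  = `exit_jordan_bounded` (J5)
-/

set_option autoImplicit false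

namespace Claimed.Agent.R292

open MeasureTheory Filter Topology Set
open Claims Claims.C0468

theorem jor199_jdSq_eq (δ : ℝ) (f : ℤ × ℤ) : jdSq δ f = at30Sq δ f := rfl

/-- **J3.** -/
theorem jor199_exit_inside {D : Set (ℝ × ℝ)} {δ : ℕ → ℝ} {F : ℕ → Finset (ℤ × ℤ)} (h : IsAdmissibleApprox D δ F)
    {K : Set (ℝ × ℝ)} (hK : IsCompact K) (hKD : K ⊆ D) :
    ∀ᶠ n in atTop, ∀ f : ℤ × ℤ, (jdSq (δ n) f ∩ K).Nonempty → f ∈ F n := by
  filter_upwards [h.2.2.1 K hK hKD] with n hn f hf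
  obtain ⟨p, hpf, hpK⟩ := hf
  exact jor199_face_mem_of_meets (h.1 n) (hn hpK) hpf

/-- **J4.** -/
theorem jor199_exit_reach {D : Set (ℝ × ℝ)} {δ : ℕ → ℝ} {F : ℕ → Finset (ℤ × ℤ)} (h : IsAdmissibleApprox D δ F)
    {ε : ℝ} (hε : 0 < ε) :
    ∀ᶠ n in atTop, ∀ z : ℝ × ℝ, ∃ g : ℤ × ℤ, g ∉ F n ∧ (jdSq (δ n) g ∩ Metric.closedBall z (jdDep D z + ε)).Nonempty := by
  filter_upwards [jor199_wall_near h hε] with n hn z
  obtain ⟨v, hv, hvz⟩ := hn z
  obtain ⟨g, hg, hgF⟩ := ((jor199_wall_iff (F n) v).1 hv).2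
  exact ⟨g, hgF, jor199Pt (δ n) v, (jor199_pt_mem_sq_iff (h.1 n) v g).2 hg, Metric.mem_closedBall.2 hvz⟩

/-- finitely many bounded sets lie in one ball -/
theorem jor199_finitely_many (A : ℕ → Set (ℝ × ℝ)) (hA : ∀ n, Bornology.IsBounded (A n)) (N : ℕ) :
    ∃ R : ℝ, 0 < R ∧ ∀ n < N, A n ⊆ Metric.closedBall (0 : ℝ × ℝ) R := by
  induction N with
  | zero => exact ⟨1, one_pos, fun n hn => absurd hn (Nat.not_lt_zero n)⟩
  | succ N ih =>
    obtain ⟨R, hR, H⟩ := ih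
    obtain ⟨R', hR'⟩ := (hA N).subset_closedBall (0 : ℝ × ℝ)
    refine ⟨max R R', lt_max_of_lt_left hR, fun n hn => ?_⟩
    rcases Nat.lt_succ_iff_lt_or_eq.1 hn with h | rfl
    · exact (H n h).trans (Metric.closedBall_subset_closedBall (le_max_left _ _))
    · exact hR'.trans (Metric.closedBall_subset_closedBall (le_max_right _ _))

/-- **J5.** -/
theorem jor199_exit_bounded {D : Set (ℝ × ℝ)} (hb : Bornology.IsBounded D) {δ : ℕ → ℝ} {F : ℕ → Finset (ℤ × ℤ)}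
    (h : IsAdmissibleApprox D δ F) :
    ∃ R : ℝ, 0 < R ∧ ∀ n, ∀ f ∈ F n, jdSq (δ n) f ⊆ Metric.closedBall (0 : ℝ × ℝ) R := by
  obtain ⟨R1, hR1, hev⟩ := jor199_region_in_ball hb h
  obtain ⟨N, hN⟩ := eventually_atTop.1 hev
  obtain ⟨R2, hR2, hfin⟩ := jor199_finitely_many (fun n => closure (faceRegionSq (δ n) (F n)))
    (fun n => (jor199_region_bounded _ _).closure) N
  refine ⟨max R1 R2, lt_max_of_lt_left hR1, fun n f hf => ?_⟩
  refine (jor199_sq_subset_closure (h.1 n) hf).trans ?_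
  rcases le_or_gt N n with hn | hn
  · exact (hN n hn).trans (Metric.closedBall_subset_closedBall (le_max_left _ _))
  · exact (hfin n hn).trans (Metric.closedBall_subset_closedBall (le_max_right _ _))

end Claimed.Agent.R292
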