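import Claimed.Agent.R292.Defs.GaussArch
import Claimed.Agent.R292.Exit.RSW
import Claimed.Agent.R292.Rsw.Dict11
import Claimed.Agent.R292.Rsw.Base122
import Claimed.Agent.R292.Jordan.Fill199

/-!
# Row 292 (S0540), Jordan/Depth199 : THE DEPTH MOMENT      (owner helper199; prefix `jor199_`)      0 sorry of its own

ORDER J-1 of 281.  A bump `g` carried by the disc of radius `θ * depth` about `z ∈ D`, of height `≤ A / depth ^ 2`, has ALL its moments bounded by a constant which depends on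
`(t, p, θ)` only (no logarithm: the wall is at distance comparable with the radius of the bump).  Input of the boundary decay (A3), `gauss_bd`.
* `jor199_region_scale`, **`jor199_rsw_jordan`**    `RswJordan (F n)` (mesh one) from `IsAdmissibleApprox` (mesh `δ n`), by the dilation
* `jor199Fl`, `jor199_mem_box`, `jor199_dist_of_box`   lattice boxes about `⌊z / δ⌋`
* `jor199_box_in`, `jor199_box_out`                    `rswBox z0 (3 a) ⊆ F n` (bulk), `¬ rswBox z0 N ⊆ F n` (the wall is reached)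
* `jor199W`, `jor199_W_sm`, `jor199_W_arr`             the Riemann weights `δ² g (δ v)` are an `RswSm`
* **`jor199_depth_mom`**                               `rswE |X(g)| ^ p ≤ (C A) ^ p` eventually, from the contract `exit_rsw_mom_smear`
* **`jor199_depth_gauss`**                             the same for `gaussM t (δ n) (F n) (replicate (2 m) g)`
* **`jor199_gauss_depth`** : `GaussDepth t D δ F` (Defs/GaussArch of 181);  `jor199_jd_depth_mom`, `jor199_jd_rsw`, `jor199_exit_dict` = the types of `jd_depth_mom`, `jd_rsw`, `exit_rsw_dict` (Exit/Arch of 281)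
-/

set_option autoImplicit false

namespace Claimed.Agent.R292

open MeasureTheory Filter Topology Set
open Claims Claims.C0468 Claimed.Agent.R291

/-! ### the dilation -/

theorem jor199_dil_sq {d : ℝ} (hd : 0 < d) (f : ℤ × ℤ) :
    (fun p : ℝ × ℝ => d • p) '' at30Sq 1 f = at30Sq d f := by
  unfold at30Sq
  ext p
  simp only [Set.mem_image, Set.mem_prod, Set.mem_Icc, one_mul]
  constructor
  · rintro ⟨q, ⟨⟨h1, h2⟩, h3, h4⟩, rfl⟩
    simp only [Prod.smul_fst, Prod.smul_snd, smul_eq_mul]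
    exact ⟨⟨mul_le_mul_of_nonneg_left h1 hd.le, mul_le_mul_of_nonneg_left h2 hd.le⟩,
      mul_le_mul_of_nonneg_left h3 hd.le, mul_le_mul_of_nonneg_left h4 hd.le⟩
  · rintro ⟨⟨h1, h2⟩, h3, h4⟩
    refine ⟨d⁻¹ • p, ⟨⟨?_, ?_⟩, ?_, ?_⟩, ?_⟩
    · simp only [Prod.smul_fst, smul_eq_mul]
      rw [inv_mul_eq_div, le_div_iff₀ hd]; linarith
    · simp only [Prod.smul_fst, smul_eq_mul]
      rw [inv_mul_eq_div, div_le_iff₀ hd]; linarith
    · simp only [Prod.smul_snd, smul_eq_mul]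
      rw [inv_mul_eq_div, le_div_iff₀ hd]; linarith
    · simp only [Prod.smul_snd, smul_eq_mul]
      rw [inv_mul_eq_div, div_le_iff₀ hd]; linarith
    · rw [smul_smul, mul_inv_cancel₀ hd.ne', one_smul]

theorem jor199_region_scale {d : ℝ} (hd : 0 < d) (F : Finset (ℤ × ℤ)) :
    (Homeomorph.smulOfNeZero d hd.ne' : ℝ × ℝ ≃ₜ ℝ × ℝ) '' faceRegionSq 1 F = faceRegionSq d F := by
  have e : ∀ c : ℝ, faceRegionSq c F = interior (⋃ f ∈ F, at30Sq c f) := fun c => rfl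
  rw [e, e, Homeomorph.image_interior, Set.image_iUnion₂]
  congr 1
  refine Set.iUnion_congr fun f => Set.iUnion_congr fun _ => ?_
  exact jor199_dil_sq hd f

/-- a Jordan frontier at mesh `d` is a Jordan frontier at mesh one -/
theorem jor199_rsw_jordan_of {d : ℝ} (hd : 0 < d) {F : Finset (ℤ × ℤ)} {γ : Circle → ℝ × ℝ} (hc : Continuous γ)
    (hi : Function.Injective γ) (hr : Set.range γ = frontier (faceRegionSq d F)) : RswJordan F := by
  set h : ℝ × ℝ ≃ₜ ℝ × ℝ := Homeomorph.smulOfNeZero d hd.ne' with hh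
  refine ⟨h.symm ∘ γ, h.symm.continuous.comp hc, h.symm.injective.comp hi, ?_⟩
  rw [Set.range_comp, hr, ← jor199_region_scale hd F, ← hh, ← Homeomorph.image_frontier, ← Set.image_comp]
  simp

/-- **every `F n` of an admissible approximation is `RswJordan`** -/
theorem jor199_rsw_jordan {D : Set (ℝ × ℝ)} {δ : ℕ → ℝ} {F : ℕ → Finset (ℤ × ℤ)} (happ : IsAdmissibleApprox D δ F)
    (n : ℕ) : RswJordan (F n) := by
  obtain ⟨hpos, -, -, γ, γs, -, -, -, hγs, -⟩ := happ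
  exact jor199_rsw_jordan_of (hpos n) (hγs n).1 (hγs n).2.1 (hγs n).2.2

/-! ### lattice boxes about `⌊z / d⌋` -/

/-- the face which contains `z` at mesh `d` -/
noncomputable def jor199Fl (d : ℝ) (z : ℝ × ℝ) : ℤ × ℤ := (⌊z.1 / d⌋, ⌊z.2 / d⌋)

theorem jor199_mem_box_iff (z0 : ℤ × ℤ) (m : ℕ) (v : ℤ × ℤ) :
    v ∈ rswBox z0 m ↔ (z0.1 - m ≤ v.1 ∧ v.1 < z0.1 + m) ∧ z0.2 - m ≤ v.2 ∧ v.2 < z0.2 + m := by
  unfold rswBox
  rw [Finset.mem_product, Finset.mem_Ico, Finset.mem_Ico]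

/-- one coordinate of `jor199_mem_box` -/
theorem jor199_coord_in {d : ℝ} (hd : 0 < d) {x r : ℝ} {m : ℕ} (hm : r / d + 1 ≤ m) {k : ℤ} (h : |d * k - x| ≤ r) :
    ⌊x / d⌋ - m ≤ k ∧ k < ⌊x / d⌋ + m := by
  obtain ⟨h1, h2⟩ := abs_le.1 h
  have f1 : (⌊x / d⌋ : ℝ) ≤ x / d := Int.floor_le _
  have f2 : x / d < ⌊x / d⌋ + 1 := Int.lt_floor_add_one _
  have e1 : x / d - r / d ≤ k := by
    rw [← sub_div, div_le_iff₀ hd]; linarith
  have e2 : (k : ℝ) ≤ x / d + r / d := by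
    rw [← add_div, le_div_iff₀ hd]; linarith
  constructor
  · have : ((⌊x / d⌋ - m : ℤ) : ℝ) ≤ k := by push_cast; linarith
    exact_mod_cast this
  · have : (k : ℝ) < ((⌊x / d⌋ + m : ℤ) : ℝ) := by push_cast; linarith
    exact_mod_cast this

/-- a lattice point within `r` of `z` lies in the box of radius `m ≥ r / d + 1` -/
theorem jor199_mem_box {d : ℝ} (hd : 0 < d) {z : ℝ × ℝ} {r : ℝ} {m : ℕ} (hm : r / d + 1 ≤ m) {v : ℤ × ℤ}
    (h : dist (jor199Pt d v) z ≤ r) : v ∈ rswBox (jor199Fl d z) m := by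
  rw [Prod.dist_eq, Real.dist_eq, Real.dist_eq] at h
  rw [jor199_mem_box_iff]
  exact ⟨jor199_coord_in hd hm ((le_max_left _ _).trans h), jor199_coord_in hd hm ((le_max_right _ _).trans h)⟩

/-- one coordinate of `jor199_dist_of_box` -/
theorem jor199_coord_out {d : ℝ} (hd : 0 < d) {x : ℝ} {m : ℕ} {k : ℤ} (h1 : ⌊x / d⌋ - m ≤ k) (h2 : k < ⌊x / d⌋ + m) :
    |d * k - x| ≤ d * (m + 1) := by
  have f1 : (⌊x / d⌋ : ℝ) ≤ x / d := Int.floor_le _
  have f2 : x / d < ⌊x / d⌋ + 1 := Int.lt_floor_add_one _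
  have g1 : ((⌊x / d⌋ - m : ℤ) : ℝ) ≤ k := by exact_mod_cast h1
  have g2 : (k : ℝ) < ((⌊x / d⌋ + m : ℤ) : ℝ) := by exact_mod_cast h2
  push_cast at g1 g2
  have ex : x = d * (x / d) := by field_simp
  rw [abs_le]
  constructor
  · have : d * (x / d - 1 - m) ≤ d * k := mul_le_mul_of_nonneg_left (by linarith) hd.le
    nlinarith
  · have : d * k ≤ d * (x / d + m) := mul_le_mul_of_nonneg_left (by linarith) hd.le
    nlinarith

/-- a lattice point of the box of radius `m` is within `d (m + 1)` of `z` -/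
theorem jor199_dist_of_box {d : ℝ} (hd : 0 < d) {z : ℝ × ℝ} {m : ℕ} {v : ℤ × ℤ} (h : v ∈ rswBox (jor199Fl d z) m) :
    dist (jor199Pt d v) z ≤ d * (m + 1) := by
  rw [jor199_mem_box_iff] at h
  rw [Prod.dist_eq, Real.dist_eq, Real.dist_eq]
  exact max_le (jor199_coord_out hd h.1.1 h.1.2) (jor199_coord_out hd h.2.1 h.2.2)

theorem jor199_box_card (z0 : ℤ × ℤ) (m : ℕ) : ((rswBox z0 m).card : ℝ) = (2 * (m : ℝ)) ^ 2 := by
  unfold rswBox
  rw [Finset.card_product, Int.card_Ico, Int.card_Ico]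
  have e1 : (z0.1 + (m : ℤ) - (z0.1 - m)).toNat = 2 * m := by omega
  have e2 : (z0.2 + (m : ℤ) - (z0.2 - m)).toNat = 2 * m := by omega
  rw [e1, e2]; push_cast; ring

/-- **bulk**: a box which stays in a ball contained in the region consists of faces of `F` -/
theorem jor199_box_in {d : ℝ} (hd : 0 < d) {F : Finset (ℤ × ℤ)} {z : ℝ × ℝ} {ρ : ℝ}
    (hball : Metric.ball z ρ ⊆ faceRegionSq d F) {m : ℕ} (hm : d * (m + 1) < ρ) : rswBox (jor199Fl d z) m ⊆ F := by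
  intro f hf
  have h1 : jor199Pt d f ∈ Metric.ball z ρ := lt_of_le_of_lt (jor199_dist_of_box hd hf) hm
  exact jor199_face_mem_of_meets hd (hball h1) ((jor199_pt_mem_sq_iff hd f f).2 (Or.inl rfl))

theorem jor199_inc_dist {d : ℝ} (hd : 0 < d) {v g : ℤ × ℤ} (h : jor199Inc v g) :
    dist (jor199Pt d g) (jor199Pt d v) ≤ d := by
  rw [jor199_dist_pt]
  unfold jor199Pt
  rcases h with rfl | rfl | rfl | rfl <;> push_cast <;> refine max_le ?_ ?_ <;> rw [abs_le] <;> constructor <;> nlinarith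

/-- **the wall is reached**: a wall corner within `r` of `z` gives a face off `F` in the box of radius `m ≥ r / d + 2` -/
theorem jor199_box_out {d : ℝ} (hd : 0 < d) {F : Finset (ℤ × ℤ)} {z : ℝ × ℝ} {r : ℝ} {v : ℤ × ℤ} (hv : v ∈ jor199Wall F)
    (hvz : dist (jor199Pt d v) z ≤ r) {m : ℕ} (hm : r / d + 2 ≤ m) : ¬ rswBox (jor199Fl d z) m ⊆ F := by
  obtain ⟨g, hg, hgF⟩ := ((jor199_wall_iff F v).1 hv).2
  intro hsub
  refine hgF (hsub (jor199_mem_box hd (r := r + d) ?_ ?_))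
  · rw [add_div, div_self hd.ne']; linarith
  · have := dist_triangle (jor199Pt d g) (jor199Pt d v) z
    have := jor199_inc_dist hd hg
    linarith

/-! ### the Riemann weights -/

open Classical in
/-- the Riemann weights `d² g (d v)` of the test `g` at mesh `d`, read in the finite window `B` -/
noncomputable def jor199W (d : ℝ) (g : ℝ × ℝ → ℝ) (B : Finset (ℤ × ℤ)) : (ℤ × ℤ) →₀ ℝ :=
  Finsupp.onFinset B (fun v => if v ∈ B then d ^ 2 * g (jor199Pt d v) else 0) (fun v hv => by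
    by_contra h
    exact hv (if_neg h))

open Classical in
theorem jor199_W_apply (d : ℝ) (g : ℝ × ℝ → ℝ) (B : Finset (ℤ × ℤ)) (v : ℤ × ℤ) :
    jor199W d g B v = if v ∈ B then d ^ 2 * g (jor199Pt d v) else 0 := rfl

theorem jor199_W_abs_le {d M : ℝ} {g : ℝ × ℝ → ℝ} (hM : 0 ≤ M) (hg : ∀ y, |g y| ≤ M) (B : Finset (ℤ × ℤ)) (v : ℤ × ℤ) :
    |jor199W d g B v| ≤ d ^ 2 * M := by
  classical
  rw [jor199_W_apply]
  split_ifs
  · rw [abs_mul, abs_of_nonneg (sq_nonneg d)]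
    exact mul_le_mul_of_nonneg_left (hg _) (sq_nonneg d)
  · rw [abs_zero]; positivity

/-- the statistic of the weights is the smeared height -/
theorem jor199_W_arr (d : ℝ) (g : ℝ × ℝ → ℝ) {B K : Finset (ℤ × ℤ)} (hBK : B ⊆ K)
    (hg : ∀ v, v ∉ B → g (jor199Pt d v) = 0) (h : ℤ × ℤ → ℝ) :
    rswArr (jor199W d g B) h = d ^ 2 * ∑ v ∈ K, h v * g (d * v.1, d * v.2) := by
  classical
  unfold rswArr jor199W
  rw [Finsupp.onFinset_sum _ (fun _ => zero_mul _), Finset.mul_sum]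
  rw [← Finset.sum_subset hBK (fun v _ hv => by
    have := hg v hv
    unfold jor199Pt at this
    rw [this]; ring)]
  refine Finset.sum_congr rfl fun v hv => ?_
  rw [if_pos hv]
  unfold jor199Pt
  ring

/-- the weights are a smearing of radius `a` -/
theorem jor199_W_sm {d M A : ℝ} {g : ℝ × ℝ → ℝ} (hM : 0 ≤ M) (hg : ∀ y, |g y| ≤ M) (z0 : ℤ × ℤ) (a : ℕ)
    (hA : 4 * (d * a) ^ 2 * M ≤ A) : RswSm z0 a A (jor199W d g (rswBox z0 a)) := by
  classical
  have hsupp : (jor199W d g (rswBox z0 a)).support ⊆ rswBox z0 a := Finsupp.support_onFinset_subset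
  refine ⟨hsupp, ?_, fun u => ?_⟩
  · calc ∑ u ∈ (jor199W d g (rswBox z0 a)).support, |jor199W d g (rswBox z0 a) u|
        ≤ ∑ u ∈ rswBox z0 a, |jor199W d g (rswBox z0 a) u| :=
          Finset.sum_le_sum_of_subset_of_nonneg hsupp (fun _ _ _ => abs_nonneg _)
      _ ≤ ∑ _u ∈ rswBox z0 a, d ^ 2 * M := Finset.sum_le_sum fun u _ => jor199_W_abs_le hM hg _ u
      _ = 4 * (d * a) ^ 2 * M := by
          rw [Finset.sum_const, nsmul_eq_mul, jor199_box_card]; ring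
      _ ≤ A := hA
  · calc |jor199W d g (rswBox z0 a) u| * (a : ℝ) ^ 2 ≤ d ^ 2 * M * (a : ℝ) ^ 2 :=
          mul_le_mul_of_nonneg_right (jor199_W_abs_le hM hg _ u) (sq_nonneg _)
      _ = (d * a) ^ 2 * M := by ring
      _ ≤ 4 * (d * a) ^ 2 * M := by nlinarith [mul_nonneg (sq_nonneg (d * a)) hM]
      _ ≤ A := hA

/-! ### the depth moment -/

theorem jor199_dep_pos {D : Set (ℝ × ℝ)} (hDo : IsOpen D) (hne : (frontier D).Nonempty) {z : ℝ × ℝ} (hz : z ∈ D) :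
    0 < limDep D z := by
  unfold limDep
  refine (isClosed_frontier.notMem_iff_infDist_pos hne).1 fun hzf => ?_
  rw [hDo.frontier_eq] at hzf
  exact hzf.2 hz

/-- **ONE MESH**: the deterministic part.  If the ball of radius `7/8 dep` lies in the region, a wall corner is within `2 dep`, and the mesh is `< dep / 56`, the smeared height
of a bump at the scale `θ dep` is the statistic of an `RswSm` with `n / a ≤ 3 / θ`. -/
theorem jor199_depth_one {t : ℝ} {p : ℕ} {C : ℝ} (hC : 0 < C)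
    (H : ∀ (F : Finset (ℤ × ℤ)) (z0 : ℤ × ℤ) (a n : ℕ) (A : ℝ) (w : (ℤ × ℤ) →₀ ℝ),
      RswJordan F → 1 ≤ a → rswBox z0 (3 * a) ⊆ F → ¬ rswBox z0 n ⊆ F → RswSm z0 a A w →
      rswE t F true (fun ω => |rswArr w (rswH F ω)| ^ p) ≤ (C * A * (1 + Real.sqrt (Real.log ((n : ℝ) / a)))) ^ p)
    {θ : ℝ} (hθ : 0 < θ) (hθ' : θ ≤ 1 / 4) {d dep A : ℝ} (hd : 0 < d) (hdd : d < dep / 56) (hA : 0 ≤ A)
    {F : Finset (ℤ × ℤ)} (hJ : RswJordan F) {z : ℝ × ℝ} (hball : Metric.ball z (dep - dep / 8) ⊆ faceRegionSq d F)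
    {v : ℤ × ℤ} (hv : v ∈ jor199Wall F) (hvz : dist (jor199Pt d v) z ≤ dep + dep)
    {g : ℝ × ℝ → ℝ} (hg : ∀ y, |g y| ≤ A / dep ^ 2) (hg0 : ∀ y, y ∉ wkBall z (θ * dep) → g y = 0) :
    rswE t F true (fun ω => |d ^ 2 * ∑ v ∈ cornersOf F, rswH F ω v * g (d * v.1, d * v.2)| ^ p) ≤
      (C * (1 + Real.sqrt (Real.log (3 / θ))) * A) ^ p := by
  have hdep : 0 < dep := by linarith
  set a : ℕ := ⌈θ * dep / d⌉₊ + 1 with ha
  set N : ℕ := ⌈(dep + dep) / d⌉₊ + 2 with hN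
  have hx : 0 < θ * dep / d := by positivity
  have a1 : θ * dep / d + 1 ≤ (a : ℝ) := by
    rw [ha]; push_cast; linarith [Nat.le_ceil (θ * dep / d)]
  have a2 : (a : ℝ) < θ * dep / d + 2 := by
    rw [ha]; push_cast; linarith [Nat.ceil_lt_add_one hx.le]
  have hapos : 0 < (a : ℝ) := by linarith
  have N1 : (dep + dep) / d + 2 ≤ (N : ℝ) := by
    rw [hN]; push_cast; linarith [Nat.le_ceil ((dep + dep) / d)]
  have N2 : (N : ℝ) < (dep + dep) / d + 3 := by
    rw [hN]; push_cast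
    linarith [Nat.ceil_lt_add_one (show 0 ≤ (dep + dep) / d by positivity)]
  have hNpos : 0 < (N : ℝ) := by have : 0 < (dep + dep) / d := by positivity
                                 linarith
  have da : d * a < θ * dep + 2 * d := by
    have : d * a < d * (θ * dep / d + 2) := mul_lt_mul_of_pos_left a2 hd
    have e : d * (θ * dep / d + 2) = θ * dep + 2 * d := by field_simp
    linarith
  have da' : d * a < dep / 2 := by nlinarith
  have da0 : 0 < d * a := by positivity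
  set z0 := jor199Fl d z with hz0
  have hin3 : rswBox z0 (3 * a) ⊆ F := by
    refine jor199_box_in hd hball ?_
    push_cast
    nlinarith
  have hin1 : rswBox z0 a ⊆ cornersOf F := by
    have : rswBox z0 a ⊆ F := jor199_box_in hd hball (by nlinarith)
    exact fun f hf => rswd11_face_corner (this hf)
  have hout : ¬ rswBox z0 N ⊆ F := jor199_box_out hd hv hvz N1
  have hM : 0 ≤ A / dep ^ 2 := by positivity
  have hsm : RswSm z0 a A (jor199W d g (rswBox z0 a)) := by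
    refine jor199_W_sm hM hg z0 a ?_
    have h1 : (d * a) ^ 2 ≤ (dep / 2) ^ 2 := pow_le_pow_left₀ da0.le da'.le 2
    calc 4 * (d * a) ^ 2 * (A / dep ^ 2) ≤ 4 * (dep / 2) ^ 2 * (A / dep ^ 2) := by gcongr
      _ = A := by field_simp; ring
  have hoff : ∀ u, u ∉ rswBox z0 a → g (jor199Pt d u) = 0 := by
    intro u hu
    refine hg0 _ fun hmem => hu ?_
    exact jor199_mem_box hd a1 (Metric.mem_closedBall.1 (wk_ball_subset z (by positivity) hmem))
  have key := H F z0 a N A _ hJ (by rw [ha]; omega) hin3 hout hsm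
  have e : (fun ω => |rswArr (jor199W d g (rswBox z0 a)) (rswH F ω)| ^ p) =
      fun ω => |d ^ 2 * ∑ v ∈ cornersOf F, rswH F ω v * g (d * v.1, d * v.2)| ^ p := by
    funext ω
    rw [jor199_W_arr d g hin1 hoff]
  rw [e] at key
  refine key.trans (pow_le_pow_left₀ (by positivity) ?_ p)
  have hratio : (N : ℝ) / a ≤ 3 / θ := by
    rw [div_le_div_iff₀ hapos hθ]
    have e1 : (dep + dep) / d * θ = 2 * (θ * dep / d) := by field_simp; ring
    nlinarith
  have hlog : Real.log ((N : ℝ) / a) ≤ Real.log (3 / θ) := Real.log_le_log (by positivity) hratio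
  have hsq := Real.sqrt_le_sqrt hlog
  calc C * A * (1 + Real.sqrt (Real.log ((N : ℝ) / a))) ≤ C * A * (1 + Real.sqrt (Real.log (3 / θ))) := by gcongr
    _ = C * (1 + Real.sqrt (Real.log (3 / θ))) * A := by ring

/-- **THE DEPTH MOMENT** (`(S, D, O)` model).  The constant depends on `(t, p, θ)` only. -/
theorem jor199_depth_mom (t : ℝ) (ht1 : 1 / 2 ≤ t) (ht2 : t < 1) (p : ℕ) (θ : ℝ) (hθ : 0 < θ) (hθ' : θ ≤ 1 / 4) :
    ∃ C : ℝ, 0 < C ∧ ∀ D : Set (ℝ × ℝ), IsOpen D → Bornology.IsBounded D → ∀ (δ : ℕ → ℝ) (F : ℕ → Finset (ℤ × ℤ)),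
      IsAdmissibleApprox D δ F → ∀ A : ℝ, 0 ≤ A → ∀ z ∈ D, ∀ g : ℝ × ℝ → ℝ, (∀ y, |g y| ≤ A / limDep D z ^ 2) →
      (∀ y, y ∉ wkBall z (θ * limDep D z) → g y = 0) →
      ∀ᶠ n in atTop, rswE t (F n) true
        (fun ω => |δ n ^ 2 * ∑ v ∈ cornersOf (F n), rswH (F n) ω v * g (δ n * v.1, δ n * v.2)| ^ p) ≤ (C * A) ^ p := by
  obtain ⟨C, hC, H⟩ := exit_rsw_mom_smear t ht1 ht2 p
  refine ⟨C * (1 + Real.sqrt (Real.log (3 / θ))), by positivity, ?_⟩
  intro D hDo hDb δ F happ A hA z hz g hg hg0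
  have hdep : 0 < limDep D z := jor199_dep_pos hDo (jor199_frontier_nonempty happ) hz
  filter_upwards [jor199_deep hDo hDb happ (show 0 < limDep D z / 8 by positivity), jor199_wall_near happ hdep,
    jor199_mesh_small happ (show 0 < limDep D z / 56 by positivity)] with n h1 h2 h3
  obtain ⟨v, hv, hvz⟩ := h2 z
  exact jor199_depth_one hC H hθ hθ' h3.1 h3.2 hA (jor199_rsw_jordan happ n)
    (h1 z hz (by show limDep D z / 8 ≤ limDep D z; linarith)).1 hv hvz hg hg0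

/-- the dictionary: an even moment of the smeared height in the frozen model is a moment of the `(S, D, O)` model -/
theorem jor199_lmE_eq (t δ : ℝ) (F : Finset (ℤ × ℤ)) (g : ℝ × ℝ → ℝ) {p : ℕ} (hp : Even p) :
    lmE (at92Adm F) (at92W t) (fun h => at92X δ g h ^ p) =
      rswE t F true (fun ω => |δ ^ 2 * ∑ v ∈ cornersOf F, rswH F ω v * g (δ * v.1, δ * v.2)| ^ p) := by
  have h := rswd11_E t F (fun q => at92X δ g q ^ p)
  unfold lmE
  rw [← h]
  congr 1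
  funext ω
  rw [hp.pow_abs]
  rfl

/-- **THE DEPTH MOMENT** in the form which `lm_M_holder` of R291 consumes -/
theorem jor199_depth_lmE (t : ℝ) (ht1 : 1 / 2 ≤ t) (ht2 : t < 1) (p : ℕ) (hp : Even p) (θ : ℝ) (hθ : 0 < θ) (hθ' : θ ≤ 1 / 4) :
    ∃ C : ℝ, 0 < C ∧ ∀ D : Set (ℝ × ℝ), IsOpen D → Bornology.IsBounded D → ∀ (δ : ℕ → ℝ) (F : ℕ → Finset (ℤ × ℤ)),
      IsAdmissibleApprox D δ F → ∀ A : ℝ, 0 ≤ A → ∀ z ∈ D, ∀ g : ℝ × ℝ → ℝ, (∀ y, |g y| ≤ A / limDep D z ^ 2) →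
      (∀ y, y ∉ wkBall z (θ * limDep D z) → g y = 0) →
      ∀ᶠ n in atTop, lmE (at92Adm (F n)) (at92W t) (fun h => at92X (δ n) g h ^ p) ≤ (C * A) ^ p := by
  obtain ⟨C, hC, H⟩ := jor199_depth_mom t ht1 ht2 p θ hθ hθ'
  refine ⟨C, hC, fun D hDo hDb δ F happ A hA z hz g hg hg0 => ?_⟩
  filter_upwards [H D hDo hDb δ F happ A hA z hz g hg hg0] with n hn
  rwa [jor199_lmE_eq t (δ n) (F n) g hp]

theorem jor199_gaussM_replicate (t δ : ℝ) (F : Finset (ℤ × ℤ)) (g : ℝ × ℝ → ℝ) (p : ℕ) :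
    gaussM t δ F (Multiset.replicate p g) = lmE (at92Adm F) (at92W t) (fun h => at92X δ g h ^ p) := by
  unfold gaussM lmM
  simp only [Multiset.map_replicate, Multiset.prod_replicate]

/-- **THE DEPTH MOMENT** in the words of Defs/GAUSS -/
theorem jor199_depth_gauss (t : ℝ) (ht1 : 1 / 2 ≤ t) (ht2 : t < 1) (m : ℕ) (θ : ℝ) (hθ : 0 < θ) (hθ' : θ ≤ 1 / 4) :
    ∃ C : ℝ, 0 < C ∧ ∀ D : Set (ℝ × ℝ), GaussDom D → ∀ (δ : ℕ → ℝ) (F : ℕ → Finset (ℤ × ℤ)),
      IsAdmissibleApprox D δ F → ∀ A : ℝ, 0 ≤ A → ∀ z ∈ D, ∀ g : ℝ × ℝ → ℝ, (∀ y, |g y| ≤ A / limDep D z ^ 2) →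
      (∀ y, y ∉ wkBall z (θ * limDep D z) → g y = 0) →
      ∀ᶠ n in atTop, gaussM t (δ n) (F n) (Multiset.replicate (2 * m) g) ≤ (C * A) ^ (2 * m) := by
  obtain ⟨C, hC, H⟩ := jor199_depth_lmE t ht1 ht2 (2 * m) (even_two_mul m) θ hθ hθ'
  refine ⟨C, hC, fun D hD δ F happ A hA z hz g hg hg0 => ?_⟩
  filter_upwards [H D hD.1 hD.2.1 δ F happ A hA z hz g hg hg0] with n hn
  rwa [jor199_gaussM_replicate]

/-! ### the contracts of Defs/GaussArch (181) and Exit/Arch (281) -/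

/-- **[DEPTH] of Defs/GaussArch** -/
theorem jor199_gauss_depth (t : ℝ) (ht1 : 1 / 2 ≤ t) (ht2 : t < 1) (D : Set (ℝ × ℝ)) (hD : GaussDom D) (δ : ℕ → ℝ)
    (F : ℕ → Finset (ℤ × ℤ)) (hF : IsAdmissibleApprox D δ F) : GaussDepth t D δ F := by
  obtain ⟨C, hC, H⟩ := jor199_depth_gauss t ht1 ht2 2 (1 / 4) (by norm_num) le_rfl
  refine ⟨1 / 4, C ^ 4, by norm_num, le_rfl, by positivity, fun z hz A g hA _ hg0 hgA hsupp => ?_⟩
  filter_upwards [H D hD δ F hF A hA.le z hz g (fun y => by rw [abs_of_nonneg (hg0 y)]; exact hgA y) hsupp] with n hn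
  calc gaussM t (δ n) (F n) (Multiset.replicate 4 g) ≤ (C * A) ^ (2 * 2) := hn
    _ = C ^ 4 * A ^ 4 := by ring

/-- the type of `jd_depth_mom` (Exit/Arch) -/
theorem jor199_jd_depth_mom (t : ℝ) (ht1 : 1 / 2 ≤ t) (ht2 : t < 1) (D : Set (ℝ × ℝ)) (hD : GaussDom D) (δ : ℕ → ℝ)
    (F : ℕ → Finset (ℤ × ℤ)) (hF : IsAdmissibleApprox D δ F) (θ : ℝ) (hθ : 0 < θ) (hθ' : θ ≤ 1 / 4) (A : ℝ) (hA : 0 < A) :
    ∃ C : ℝ, 0 < C ∧ ∀ z ∈ D, ∀ g : ℝ × ℝ → ℝ, (∀ y, |g y| ≤ A / limDep D z ^ 2) →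
      (∀ y, y ∉ wkBall z (θ * limDep D z) → g y = 0) →
      ∀ᶠ n in atTop, gaussM t (δ n) (F n) (Multiset.replicate 4 g) ≤ C := by
  obtain ⟨C, hC, H⟩ := jor199_depth_gauss t ht1 ht2 2 θ hθ hθ'
  exact ⟨(C * A) ^ (2 * 2), by positivity, fun z hz g hg hsupp => H D hD δ F hF A hA.le z hz g hg hsupp⟩

/-- the type of `jd_rsw` (Exit/Arch) -/
theorem jor199_jd_rsw {D : Set (ℝ × ℝ)} {δ : ℕ → ℝ} {F : ℕ → Finset (ℤ × ℤ)} (h : IsAdmissibleApprox D δ F) (n : ℕ) :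
    RswJordan (F n) := jor199_rsw_jordan h n

/-- the type of `exit_rsw_dict` (Exit/Arch): the frozen law of the height is the `(S, D, O)` law -/
theorem jor199_exit_dict (t : ℝ) (F : Finset (ℤ × ℤ)) (G : (ℤ × ℤ → ℝ) → ℝ) :
    lmE (at92Adm F) (at92W t) (fun p => G (atHeight p.1 p.2)) = rswE t F true (fun ω => G (rswH F ω)) :=
  (rswd11_E t F (fun p => G (atHeight p.1 p.2))).symm

end Claimed.Agent.R292
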