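-- KEEP
import Claimed.Prelude.Def_0468

/-!
# Row 292 (S0540), unit JORDAN, file Jordan/Index197 (pen 197, prefix `jx7_`)

The plane topology which `IsAdmissibleApprox` forces on every route: the frozen definition has no
clause "region inside `D`", and neither Mathlib nor the team library has a Jordan curve theorem
of the continuum.  Route: the index of Eilenberg and Borsuk by continuous logarithms.

* sec. 1  continuous logarithms (`jx7_HasLog`), on compact star-shaped sets
* sec. 2  the index of a zero-free continuous function on `Circle`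
* sec. 3  the pasting lemma of Borsuk
* sec. 4  bounded domains whose frontier lies on a simple closed curve
* sec. 5  the frozen form
-/

set_option autoImplicit false

namespace Claimed.Agent.R292

open Set Metric Filter Topology

/-! ## 1. Continuous logarithms -/

/-- `f` has a continuous logarithm on `S`. -/
def jx7_HasLog {α : Type*} [TopologicalSpace α] (S : Set α) (f : α → ℂ) : Prop :=
  ∃ L : α → ℂ, ContinuousOn L S ∧ ∀ x ∈ S, f x = Complex.exp (L x)

section logs

variable {α β : Type*} [TopologicalSpace α] [TopologicalSpace β]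

theorem jx7_hasLog_const (S : Set α) {c : ℂ} (hc : c ≠ 0) : jx7_HasLog S fun _ => c :=
  ⟨fun _ => Complex.log c, continuousOn_const, fun _ _ => (Complex.exp_log hc).symm⟩

theorem jx7_HasLog.mono {S T : Set α} {f : α → ℂ} (h : jx7_HasLog T f) (hST : S ⊆ T) :
    jx7_HasLog S f := by
  obtain ⟨L, hL, hf⟩ := h
  exact ⟨L, hL.mono hST, fun x hx => hf x (hST hx)⟩

theorem jx7_HasLog.congr {S : Set α} {f g : α → ℂ} (h : jx7_HasLog S f)
    (hfg : ∀ x ∈ S, g x = f x) : jx7_HasLog S g := by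
  obtain ⟨L, hL, hf⟩ := h
  exact ⟨L, hL, fun x hx => (hfg x hx).trans (hf x hx)⟩

theorem jx7_HasLog.mul {S : Set α} {f g : α → ℂ} (hf : jx7_HasLog S f) (hg : jx7_HasLog S g) :
    jx7_HasLog S fun x => f x * g x := by
  obtain ⟨L, hL, hf⟩ := hf
  obtain ⟨M, hM, hg⟩ := hg
  exact ⟨fun x => L x + M x, hL.add hM, fun x hx => by
    show f x * g x = Complex.exp (L x + M x)
    rw [hf x hx, hg x hx, Complex.exp_add]⟩

theorem jx7_HasLog.inv {S : Set α} {f : α → ℂ} (hf : jx7_HasLog S f) :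
    jx7_HasLog S fun x => (f x)⁻¹ := by
  obtain ⟨L, hL, hf⟩ := hf
  exact ⟨fun x => -L x, hL.neg, fun x hx => by
    show (f x)⁻¹ = Complex.exp (-L x)
    rw [hf x hx, Complex.exp_neg]⟩

theorem jx7_HasLog.div {S : Set α} {f g : α → ℂ} (hf : jx7_HasLog S f) (hg : jx7_HasLog S g) :
    jx7_HasLog S fun x => f x / g x := by
  simpa only [div_eq_mul_inv] using hf.mul hg.inv

theorem jx7_HasLog.zpow {S : Set α} {f : α → ℂ} (hf : jx7_HasLog S f) (n : ℤ) :
    jx7_HasLog S fun x => f x ^ n := by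
  obtain ⟨L, hL, hf⟩ := hf
  refine ⟨fun x => n * L x, continuousOn_const.mul hL, fun x hx => ?_⟩
  show f x ^ n = Complex.exp (n * L x)
  rw [hf x hx, ← Complex.exp_int_mul]

theorem jx7_HasLog.comp {S : Set α} {T : Set β} {f : α → ℂ} (hf : jx7_HasLog S f) {g : β → α}
    (hg : ContinuousOn g T) (hm : MapsTo g T S) : jx7_HasLog T fun y => f (g y) := by
  obtain ⟨L, hL, hf⟩ := hf
  exact ⟨fun y => L (g y), hL.comp hg hm, fun y hy => hf _ (hm hy)⟩

theorem jx7_HasLog.ne_zero {S : Set α} {f : α → ℂ} (hf : jx7_HasLog S f) {x : α} (hx : x ∈ S) :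
    f x ≠ 0 := by
  obtain ⟨L, _, hf⟩ := hf
  rw [hf x hx]; exact Complex.exp_ne_zero _

/-- A function within distance `< 1` of `1` has a continuous logarithm. -/
theorem jx7_hasLog_of_near_one {S : Set α} {f : α → ℂ} (hc : ContinuousOn f S)
    (h : ∀ x ∈ S, ‖f x - 1‖ < 1) : jx7_HasLog S f := by
  have hs : ∀ x ∈ S, f x ∈ Complex.slitPlane := by
    intro x hx
    have := Complex.mem_slitPlane_of_norm_lt_one (h x hx)
    simpa using this
  refine ⟨fun x => Complex.log (f x), hc.clog hs, fun x hx => ?_⟩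
  exact (Complex.exp_log (Complex.slitPlane_ne_zero (hs x hx))).symm

/-- Two zero-free functions that are relatively close: one has a logarithm iff the other has. -/
theorem jx7_hasLog_of_close {S : Set α} {f g : α → ℂ} (hf : ContinuousOn f S)
    (hg : ContinuousOn g S) (h : ∀ x ∈ S, ‖g x - f x‖ < ‖f x‖) :
    jx7_HasLog S fun x => g x / f x := by
  have hf0 : ∀ x ∈ S, f x ≠ 0 := by
    intro x hx h0
    have := h x hx
    rw [h0, norm_zero] at this
    exact absurd this (not_lt.2 (norm_nonneg _))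
  refine jx7_hasLog_of_near_one (hg.div hf hf0) fun x hx => ?_
  have h1 : g x / f x - 1 = (g x - f x) / f x := by
    field_simp [hf0 x hx]
  rw [h1, norm_div, div_lt_one (norm_pos_iff.2 (hf0 x hx))]
  exact h x hx

end logs

/-- **Continuous logarithm on a compact star-shaped set.** -/
theorem jx7_hasLog_starConvex {E : Type*} [NormedAddCommGroup E] [NormedSpace ℝ E] {K : Set E}
    {c : E} (hK : IsCompact K) (hs : StarConvex ℝ c K) (hc : c ∈ K) {f : E → ℂ}
    (hf : ContinuousOn f K) (h0 : ∀ x ∈ K, f x ≠ 0) : jx7_HasLog K f := by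
  -- lower bound of `‖f‖`
  obtain ⟨x0, hx0, hmin⟩ := hK.exists_isMinOn ⟨c, hc⟩ hf.norm
  set m : ℝ := ‖f x0‖ with hm
  have hmpos : 0 < m := norm_pos_iff.2 (h0 x0 hx0)
  have hmle : ∀ x ∈ K, m ≤ ‖f x‖ := fun x hx => hmin hx
  -- uniform continuity
  have huc : UniformContinuousOn f K := hK.uniformContinuousOn_of_continuous hf
  rw [Metric.uniformContinuousOn_iff] at huc
  obtain ⟨δ, hδ, hδf⟩ := huc m hmpos
  -- bound of `K`
  obtain ⟨R, hR⟩ := hK.isBounded.subset_closedBall c
  obtain ⟨n, hn⟩ := exists_nat_gt (max R 0 / δ)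
  have hnpos : (0 : ℝ) < n := lt_of_le_of_lt (div_nonneg (le_max_right _ _) hδ.le) hn
  -- the points `p k x`
  set p : ℕ → E → E := fun k x => c + ((k : ℝ) / n) • (x - c) with hp
  have hpK : ∀ k ≤ n, ∀ x ∈ K, p k x ∈ K := by
    intro k hk x hx
    have h1 : (0 : ℝ) ≤ (k : ℝ) / n := by positivity
    have h2 : (k : ℝ) / n ≤ 1 := by
      rw [div_le_one hnpos]; exact_mod_cast hk
    exact hs.add_smul_sub_mem hx h1 h2
  have hpc : ∀ k, Continuous (p k) := by
    intro k
    exact continuous_const.add ((continuous_id.sub continuous_const).const_smul _)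
  have hstep : ∀ k, ∀ x ∈ K, dist (p (k + 1) x) (p k x) < δ := by
    intro k x hx
    have h1 : p (k + 1) x - p k x = ((1 : ℝ) / n) • (x - c) := by
      simp only [hp, Nat.cast_add, Nat.cast_one, add_div, add_smul]
      abel
    rw [dist_eq_norm, h1, norm_smul, Real.norm_eq_abs, abs_of_pos (by positivity)]
    have h2 : ‖x - c‖ ≤ max R 0 := by
      have := hR hx
      rw [mem_closedBall, dist_eq_norm] at this
      exact this.trans (le_max_left _ _)
    have h3 : max R 0 < n * δ := by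
      rwa [div_lt_iff₀ hδ] at hn
    calc 1 / (n : ℝ) * ‖x - c‖ ≤ 1 / (n : ℝ) * max R 0 := by gcongr
      _ < 1 / (n : ℝ) * (n * δ) := by gcongr
      _ = δ := by field_simp
  have key : ∀ k ≤ n, jx7_HasLog K fun x => f (p k x) := by
    intro k
    induction k with
    | zero =>
      intro _
      refine (jx7_hasLog_const K (h0 c hc)).congr fun x _ => ?_
      simp [hp]
    | succ k ih =>
      intro hk
      have hk' : k ≤ n := Nat.le_of_succ_le hk
      have h1 := ih hk'
      have hc1 : ContinuousOn (fun x => f (p k x)) K :=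
        hf.comp (hpc k).continuousOn fun x hx => hpK k hk' x hx
      have hc2 : ContinuousOn (fun x => f (p (k + 1) x)) K :=
        hf.comp (hpc (k + 1)).continuousOn fun x hx => hpK (k + 1) hk x hx
      have h2 : jx7_HasLog K fun x => f (p (k + 1) x) / f (p k x) := by
        refine jx7_hasLog_of_close hc1 hc2 fun x hx => ?_
        have := hδf _ (hpK (k + 1) hk x hx) _ (hpK k hk' x hx) (hstep k x hx)
        rw [dist_eq_norm] at this
        exact lt_of_lt_of_le this (hmle _ (hpK k hk' x hx))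
      refine (h1.mul h2).congr fun x hx => ?_
      have := h0 _ (hpK k hk' x hx)
      field_simp
  refine (key n le_rfl).congr fun x _ => ?_
  have : p n x = x := by
    simp only [hp, div_self hnpos.ne', one_smul]; abel
  rw [this]

/-! ## 2. The index on the circle -/

/-- A continuous integer-valued function on the line is constant. -/
theorem jx7_int_valued_const {ψ : ℝ → ℝ} (hc : Continuous ψ) (hint : ∀ t, ∃ n : ℤ, ψ t = n)
    (s t : ℝ) : ψ s = ψ t := by
  obtain ⟨n, hn⟩ := hint s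
  obtain ⟨m, hm⟩ := hint t
  by_contra hne
  have hnm : n ≠ m := by
    rintro rfl
    exact hne (hn.trans hm.symm)
  have hy : ((min n m : ℤ) : ℝ) + 1 / 2 ∈ uIcc (ψ s) (ψ t) := by
    rw [hn, hm, mem_uIcc]
    rcases lt_or_gt_of_ne hnm with h | h
    · left
      rw [min_eq_left h.le]
      have : (n : ℝ) + 1 ≤ m := by exact_mod_cast h
      constructor <;> linarith
    · right
      rw [min_eq_right h.le]
      have : (m : ℝ) + 1 ≤ n := by exact_mod_cast h
      constructor <;> linarith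
  obtain ⟨r, _, hr⟩ := intermediate_value_uIcc hc.continuousOn hy
  obtain ⟨k, hk⟩ := hint r
  rw [hk] at hr
  have h2 : (2 * k : ℤ) = 2 * min n m + 1 := by
    have : (2 : ℝ) * k = 2 * ((min n m : ℤ) : ℝ) + 1 := by linarith
    exact_mod_cast this
  omega

/-- A nonzero power of the coordinate has no continuous logarithm on the circle. -/
theorem jx7_circle_zpow_log {a : ℤ}
    (h : jx7_HasLog (univ : Set Circle) fun c : Circle => (c : ℂ) ^ a) : a = 0 := by
  obtain ⟨L, hL, hf⟩ := h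
  have hLc : Continuous L := continuousOn_univ.1 hL
  set φ : ℝ → ℂ := fun t => L (Circle.exp t) - a * t * Complex.I with hφ
  have hφc : Continuous φ := by
    refine (hLc.comp Circle.exp.continuous).sub ?_
    exact (continuous_const.mul Complex.continuous_ofReal).mul continuous_const
  have hexp : ∀ t, Complex.exp (φ t) = 1 := by
    intro t
    have h1 := hf (Circle.exp t) (mem_univ _)
    simp only [Circle.coe_exp] at h1
    rw [hφ]
    simp only
    rw [Complex.exp_sub, ← h1, ← Complex.exp_int_mul]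
    have : (a : ℂ) * (t * Complex.I) = a * t * Complex.I := by ring
    rw [this, div_self (Complex.exp_ne_zero _)]
  set ψ : ℝ → ℝ := fun t => (φ t).im / (2 * Real.pi) with hψ
  have hψc : Continuous ψ := (Complex.continuous_im.comp hφc).div_const _
  have hint : ∀ t, ∃ n : ℤ, ψ t = n := by
    intro t
    obtain ⟨n, hn⟩ := Complex.exp_eq_one_iff.1 (hexp t)
    refine ⟨n, ?_⟩
    rw [hψ]
    simp only
    rw [hn]
    have : ((n : ℂ) * (2 * (Real.pi : ℂ) * Complex.I)).im = n * (2 * Real.pi) := by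
      simp
    rw [this]
    field_simp
  have h0 := jx7_int_valued_const hψc hint 0 (2 * Real.pi)
  rw [hψ] at h0
  simp only [hφ, Circle.exp_zero, Circle.exp_two_pi] at h0
  have hpi := Real.pi_pos
  have h1 : (L 1 - (a : ℂ) * ((0 : ℝ) : ℂ) * Complex.I).im = (L 1).im := by simp
  have h2 : (L 1 - (a : ℂ) * ((2 * Real.pi : ℝ) : ℂ) * Complex.I).im
      = (L 1).im - a * (2 * Real.pi) := by
    simp
  rw [h1, h2] at h0
  have h3 : (a : ℝ) * (2 * Real.pi) = 0 := by
    field_simp at h0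
    linarith
  have h4 : (a : ℝ) = 0 := by
    rcases mul_eq_zero.1 h3 with h | h
    · exact h
    · exfalso; linarith
  exact_mod_cast h4

/-- `a` is the index of the zero-free function `g` on the circle. -/
def jx7_Ind (g : Circle → ℂ) (a : ℤ) : Prop :=
  jx7_HasLog (univ : Set Circle) fun c => g c / (c : ℂ) ^ a

theorem jx7_Ind.ne_zero {g : Circle → ℂ} {a : ℤ} (h : jx7_Ind g a) (c : Circle) : g c ≠ 0 := by
  have := jx7_HasLog.ne_zero h (mem_univ c)
  intro h0
  rw [h0, zero_div] at this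
  exact this rfl

theorem jx7_ind_zero_iff {g : Circle → ℂ} : jx7_Ind g 0 ↔ jx7_HasLog (univ : Set Circle) g := by
  unfold jx7_Ind
  simp

theorem jx7_Ind.unique {g : Circle → ℂ} {a b : ℤ} (ha : jx7_Ind g a) (hb : jx7_Ind g b) :
    a = b := by
  have h := jx7_HasLog.div hb ha
  have h2 : jx7_HasLog (univ : Set Circle) fun c : Circle => (c : ℂ) ^ (a - b) := by
    refine h.congr fun c _ => ?_
    have hc : (c : ℂ) ≠ 0 := Circle.coe_ne_zero c
    have hg := ha.ne_zero c
    rw [zpow_sub₀ hc]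
    field_simp
  have := jx7_circle_zpow_log h2
  omega

theorem jx7_Ind.mul {g h : Circle → ℂ} {a b : ℤ} (hg : jx7_Ind g a) (hh : jx7_Ind h b) :
    jx7_Ind (fun c => g c * h c) (a + b) := by
  refine (jx7_HasLog.mul hg hh).congr fun c _ => ?_
  have hc : (c : ℂ) ≠ 0 := Circle.coe_ne_zero c
  rw [zpow_add₀ hc]
  field_simp

theorem jx7_Ind.zpow {g : Circle → ℂ} {a : ℤ} (hg : jx7_Ind g a) (n : ℤ) :
    jx7_Ind (fun c => g c ^ n) (a * n) := by
  refine (jx7_HasLog.zpow hg n).congr fun c _ => ?_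
  rw [div_zpow, zpow_mul]

theorem jx7_Ind.of_log {g h : Circle → ℂ} {a : ℤ} (hg : jx7_Ind g a)
    (hh : jx7_HasLog (univ : Set Circle) fun c => h c / g c) : jx7_Ind h a := by
  refine (jx7_HasLog.mul hg hh).congr fun c _ => ?_
  have hg0 := hg.ne_zero c
  field_simp

/-- Stability of the index. -/
theorem jx7_Ind.of_close {g h : Circle → ℂ} {a : ℤ} (hg : jx7_Ind g a) (hgc : Continuous g)
    (hhc : Continuous h) (hclose : ∀ c, ‖h c - g c‖ < ‖g c‖) : jx7_Ind h a :=
  hg.of_log (jx7_hasLog_of_close hgc.continuousOn hhc.continuousOn fun c _ => hclose c)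

/-- Existence of the index. -/
theorem jx7_ind_exists {g : Circle → ℂ} (hg : Continuous g) (h0 : ∀ c, g c ≠ 0) :
    ∃ a : ℤ, jx7_Ind g a := by
  have hpi := Real.two_pi_pos
  have : Fact (0 < 2 * Real.pi) := ⟨hpi⟩
  have hK : jx7_HasLog (Icc (0 : ℝ) (2 * Real.pi)) fun t => g (Circle.exp t) := by
    refine jx7_hasLog_starConvex (c := (0 : ℝ)) isCompact_Icc
      ((convex_Icc _ _).starConvex ⟨le_rfl, hpi.le⟩) ⟨le_rfl, hpi.le⟩
      (hg.comp Circle.exp.continuous).continuousOn fun t _ => h0 _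
  obtain ⟨ℓ, hℓc, hℓ⟩ := hK
  have e0 := hℓ 0 ⟨le_rfl, hpi.le⟩
  have e1 := hℓ (2 * Real.pi) ⟨hpi.le, le_rfl⟩
  simp only [Circle.exp_zero, Circle.exp_two_pi] at e0 e1
  obtain ⟨a, ha⟩ := Complex.exp_eq_exp_iff_exists_int.1 (e1.symm.trans e0)
  refine ⟨a, ?_⟩
  set m : ℝ → ℂ := fun t => ℓ t - a * t * Complex.I with hm
  have hmc : ContinuousOn m (Icc (0 : ℝ) (0 + 2 * Real.pi)) := by
    rw [zero_add]
    refine hℓc.sub ?_
    exact ((continuous_const.mul Complex.continuous_ofReal).mul continuous_const).continuousOn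
  have hm0 : m 0 = m (0 + 2 * Real.pi) := by
    rw [zero_add, hm]
    simp only
    rw [ha]
    push_cast
    ring
  have hLc := AddCircle.liftIco_continuous (p := 2 * Real.pi) (a := (0 : ℝ)) hm0 hmc
  refine ⟨fun c => AddCircle.liftIco (2 * Real.pi) 0 m (AddCircle.homeomorphCircle'.symm c),
    (hLc.comp AddCircle.homeomorphCircle'.symm.continuous).continuousOn, fun c _ => ?_⟩
  set x := AddCircle.homeomorphCircle'.symm c with hx
  set t : ℝ := (AddCircle.equivIco (2 * Real.pi) 0 x : ℝ) with ht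
  have htm : t ∈ Ico (0 : ℝ) (0 + 2 * Real.pi) := (AddCircle.equivIco (2 * Real.pi) 0 x).2
  have hxt : (t : AddCircle (2 * Real.pi)) = x :=
    (AddCircle.equivIco (2 * Real.pi) 0).symm_apply_apply x
  have hct : c = Circle.exp t := by
    have : AddCircle.homeomorphCircle' x = c := AddCircle.homeomorphCircle'.apply_symm_apply c
    rw [← this, ← hxt, AddCircle.homeomorphCircle'_apply_mk]
  show g c / (c : ℂ) ^ a = Complex.exp (AddCircle.liftIco (2 * Real.pi) 0 m x)
  rw [← hxt, AddCircle.liftIco_coe_apply htm, hct, Circle.coe_exp]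
  have htm' : t ∈ Icc (0 : ℝ) (2 * Real.pi) := by
    rw [zero_add] at htm
    exact ⟨htm.1, htm.2.le⟩
  have hℓt : g (Circle.exp t) = Complex.exp (ℓ t) := hℓ t htm'
  rw [hℓt, hm]
  simp only
  rw [Complex.exp_sub, ← Complex.exp_int_mul]
  congr 2
  ring

/-! ## 3. The pasting lemma of Borsuk -/

/-- **Borsuk.** On the closure of a bounded open set `U ∋ z` no zero-free continuous function
agrees on the frontier with a nonzero power of `w - z`. -/
theorem jx7_borsuk {U : Set ℂ} (hU : IsOpen U) (hb : Bornology.IsBounded U) {z : ℂ} (hz : z ∈ U)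
    {b : ℤ} {g : ℂ → ℂ} (hg : ContinuousOn g (closure U)) (hg0 : ∀ w ∈ closure U, g w ≠ 0)
    (hfr : ∀ w ∈ frontier U, g w = (w - z) ^ b) : b = 0 := by
  classical
  obtain ⟨M, hM0, hM⟩ := hb.closure.subset_ball_lt 0 z
  set G : ℂ → ℂ := fun w => if w ∈ U then g w else (w - z) ^ b with hG
  have hne : ∀ w, w ∉ U → w - z ≠ 0 := by
    intro w hw h0
    exact hw ((sub_eq_zero.1 h0) ▸ hz)
  have hGc : ContinuousOn G (closedBall z M) := by
    refine ContinuousOn.if ?_ ?_ ?_
    · intro w hw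
      exact hfr w hw.2
    · exact hg.mono inter_subset_right
    · have hcl : closure {a | ¬ a ∈ U} = Uᶜ := hU.isClosed_compl.closure_eq
      rw [hcl]
      refine ContinuousOn.mono ?_ inter_subset_right
      exact (continuousOn_id.sub continuousOn_const).zpow₀ b fun w hw => Or.inl (hne w hw)
  have hG0 : ∀ w ∈ closedBall z M, G w ≠ 0 := by
    intro w _
    by_cases hw : w ∈ U
    · simp only [hG, hw, if_true]
      exact hg0 w (subset_closure hw)
    · simp only [hG, hw, if_false]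
      exact zpow_ne_zero _ (hne w hw)
  have hlog : jx7_HasLog (closedBall z M) G :=
    jx7_hasLog_starConvex (isCompact_closedBall z M)
      ((convex_closedBall z M).starConvex (mem_closedBall_self hM0.le))
      (mem_closedBall_self hM0.le) hGc hG0
  have hmap : MapsTo (fun c : Circle => z + (M : ℂ) * (c : ℂ)) univ (closedBall z M) := by
    intro c _
    rw [mem_closedBall, dist_eq_norm]
    simp [abs_of_pos hM0, Circle.norm_coe]
  have hcomp := hlog.comp (T := (univ : Set Circle))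
    (g := fun c : Circle => z + (M : ℂ) * (c : ℂ))
    (continuous_const.add (continuous_const.mul continuous_subtype_val)).continuousOn hmap
  have hMc : (M : ℂ) ≠ 0 := by exact_mod_cast hM0.ne'
  have hfin : jx7_HasLog (univ : Set Circle) fun c : Circle => (c : ℂ) ^ b := by
    refine (hcomp.div (jx7_hasLog_const univ (zpow_ne_zero b hMc))).congr fun c _ => ?_
    have hnot : z + (M : ℂ) * (c : ℂ) ∉ U := by
      intro hmem
      have := hM (subset_closure hmem)
      rw [mem_ball, dist_eq_norm] at this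
      simp [abs_of_pos hM0, Circle.norm_coe] at this
    simp only [hG, hnot, if_false, add_sub_cancel_left, mul_zpow]
    field_simp
  exact jx7_circle_zpow_log hfin

/-! ## 4. Bounded open sets whose frontier lies on a simple closed curve -/

/-- Tietze: a continuous function on the circle is the restriction, along a simple closed curve,
of a continuous function on the plane. -/
theorem jx7_tietze {γ : Circle → ℂ} (hγ : Continuous γ) (hinj : Function.Injective γ)
    {L : Circle → ℂ} (hL : ContinuousOn L univ) :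
    ∃ Λ : ℂ → ℂ, Continuous Λ ∧ ∀ c, Λ (γ c) = L c := by
  obtain ⟨Λ, hΛ⟩ := ContinuousMap.exists_extension' (hγ.isClosedEmbedding hinj)
    (⟨L, continuousOn_univ.1 hL⟩ : C(Circle, ℂ))
  exact ⟨Λ, Λ.continuous, fun c => congrFun hΛ c⟩

/-- Inside a bounded open set bounded by (part of) the curve the index does not vanish. -/
theorem jx7_ind_ne_zero {γ : Circle → ℂ} (hγ : Continuous γ) (hinj : Function.Injective γ)
    {U : Set ℂ} (hU : IsOpen U) (hb : Bornology.IsBounded U) (hfr : frontier U ⊆ range γ)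
    {z : ℂ} (hz : z ∈ U) {a : ℤ} (ha : jx7_Ind (fun c => γ c - z) a) : a ≠ 0 := by
  rintro rfl
  obtain ⟨L, hL, hf⟩ := jx7_ind_zero_iff.1 ha
  obtain ⟨Λ, hΛc, hΛ⟩ := jx7_tietze hγ hinj hL
  have : (1 : ℤ) = 0 := by
    refine jx7_borsuk hU hb hz (g := fun w => Complex.exp (Λ w))
      (Complex.continuous_exp.comp hΛc).continuousOn (fun w _ => Complex.exp_ne_zero _) ?_
    intro w hw
    obtain ⟨c, rfl⟩ := hfr hw
    rw [hΛ c, ← hf c (mem_univ c), zpow_one]
  exact one_ne_zero this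

/-- Off the closure of a nonempty bounded open set bounded by (part of) the curve the index
vanishes. -/
theorem jx7_ind_eq_zero {γ : Circle → ℂ} (hγ : Continuous γ) (hinj : Function.Injective γ)
    {U : Set ℂ} (hU : IsOpen U) (hb : Bornology.IsBounded U) (hfr : frontier U ⊆ range γ)
    {z₁ z₂ : ℂ} (hz₁ : z₁ ∈ U) (hz₂ : z₂ ∉ closure U) {a b : ℤ}
    (ha : jx7_Ind (fun c => γ c - z₁) a) (hb' : jx7_Ind (fun c => γ c - z₂) b) : b = 0 := by
  have h1 := (ha.zpow b).mul (hb'.zpow (-a))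
  have h2 : a * b + b * -a = 0 := by ring
  rw [h2] at h1
  obtain ⟨L, hL, hf⟩ := jx7_ind_zero_iff.1 h1
  obtain ⟨Λ, hΛc, hΛ⟩ := jx7_tietze hγ hinj hL
  have hne : ∀ w ∈ closure U, w - z₂ ≠ 0 := by
    intro w hw h0
    exact hz₂ ((sub_eq_zero.1 h0) ▸ hw)
  refine jx7_borsuk hU hb hz₁ (g := fun w => Complex.exp (Λ w) * (w - z₂) ^ a) ?_ ?_ ?_
  · refine (Complex.continuous_exp.comp hΛc).continuousOn.mul ?_
    exact (continuousOn_id.sub continuousOn_const).zpow₀ a fun w hw => Or.inl (hne w hw)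
  · intro w hw
    exact mul_ne_zero (Complex.exp_ne_zero _) (zpow_ne_zero _ (hne w hw))
  · intro w hw
    obtain ⟨c, rfl⟩ := hfr hw
    have h3 := hf c (mem_univ c)
    simp only at h3
    rw [hΛ c, ← h3, mul_assoc, ← zpow_add₀ (hne _ (frontier_subset_closure hw))]
    simp

/-- **The inside of a simple closed curve is where the index does not vanish.** -/
theorem jx7_mem_iff_ind {γ : Circle → ℂ} (hγ : Continuous γ) (hinj : Function.Injective γ)
    {D : Set ℂ} (hD : IsOpen D) (hb : Bornology.IsBounded D) (hfr : frontier D = range γ)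
    {z : ℂ} {a : ℤ} (ha : jx7_Ind (fun c => γ c - z) a) : z ∈ D ↔ a ≠ 0 := by
  constructor
  · intro hz
    exact jx7_ind_ne_zero hγ hinj hD hb hfr.le hz ha
  · intro ha0
    by_contra hz
    have hzγ : z ∉ range γ := by
      rintro ⟨c, rfl⟩
      exact ha.ne_zero c (sub_self _)
    have hzcl : z ∉ closure D := by
      rw [closure_eq_self_union_frontier, hfr]
      exact fun h => h.elim hz hzγ
    have hne : D.Nonempty := by
      rw [nonempty_iff_ne_empty]
      rintro rfl
      rw [frontier_empty] at hfr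
      exact (range_nonempty γ).ne_empty hfr.symm
    obtain ⟨z₁, hz₁⟩ := hne
    have hz₁γ : ∀ c, γ c - z₁ ≠ 0 := by
      intro c h0
      have h1 : z₁ ∈ frontier D := by
        rw [hfr]; exact ⟨c, sub_eq_zero.1 h0⟩
      exact (hD.inter_frontier_eq ▸ (⟨hz₁, h1⟩ : z₁ ∈ D ∩ frontier D) : z₁ ∈ (∅ : Set ℂ))
    obtain ⟨a₁, ha₁⟩ := jx7_ind_exists (g := fun c => γ c - z₁) (hγ.sub continuous_const) hz₁γ
    exact ha0 (jx7_ind_eq_zero hγ hinj hD hb hfr.le hz₁ hzcl ha₁ ha)

/-- **Two Jordan domains with uniformly close parametrised boundaries agree away from the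
boundary.** -/
theorem jx7_mem_iff_mem {γ γ' : Circle → ℂ} (hγ : Continuous γ) (hinj : Function.Injective γ)
    (hγ' : Continuous γ') (hinj' : Function.Injective γ')
    {D R : Set ℂ} (hD : IsOpen D) (hDb : Bornology.IsBounded D) (hDfr : frontier D = range γ)
    (hR : IsOpen R) (hRb : Bornology.IsBounded R) (hRfr : frontier R = range γ')
    {z : ℂ} (hz : ∀ c, ‖γ' c - γ c‖ < ‖γ c - z‖) : z ∈ D ↔ z ∈ R := by
  have h0 : ∀ c, γ c - z ≠ 0 := by
    intro c h
    have := hz c
    rw [h, norm_zero] at this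
    exact absurd this (not_lt.2 (norm_nonneg _))
  obtain ⟨a, ha⟩ := jx7_ind_exists (g := fun c => γ c - z) (hγ.sub continuous_const) h0
  have ha' : jx7_Ind (fun c => γ' c - z) a := by
    refine ha.of_close (hγ.sub continuous_const) (hγ'.sub continuous_const) fun c => ?_
    have : γ' c - z - (γ c - z) = γ' c - γ c := by ring
    rw [this]
    exact hz c
  rw [jx7_mem_iff_ind hγ hinj hD hDb hDfr ha, jx7_mem_iff_ind hγ' hinj' hR hRb hRfr ha']

/-- A clopen piece of an open set has its frontier in the frontier of the whole. -/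
theorem jx7_frontier_piece {X : Type*} [TopologicalSpace X] {W u v : Set X} (hW : IsOpen W)
    (hu : IsOpen u) (hv : IsOpen v) (hsub : W ⊆ u ∪ v) (hdis : W ∩ (u ∩ v) = ∅) :
    frontier (W ∩ u) ⊆ frontier W ∧ ∀ y ∈ W ∩ v, y ∉ closure (W ∩ u) := by
  have hout : ∀ y ∈ W ∩ v, y ∉ closure (W ∩ u) := by
    intro y hy hcl
    obtain ⟨p, hp1, hp2⟩ := mem_closure_iff.1 hcl (W ∩ v) (hW.inter hv) hy
    have : p ∈ W ∩ (u ∩ v) := ⟨hp1.1, hp2.2, hp1.2⟩
    rw [hdis] at this
    exact this
  refine ⟨?_, hout⟩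
  intro p hp
  have hpcl : p ∈ closure (W ∩ u) := frontier_subset_closure hp
  have hpW : p ∈ closure W := closure_mono inter_subset_left hpcl
  rw [frontier, hW.interior_eq]
  refine ⟨hpW, fun hpin => ?_⟩
  rcases hsub hpin with h | h
  · have hnot : p ∉ interior (W ∩ u) := hp.2
    rw [(hW.inter hu).interior_eq] at hnot
    exact hnot ⟨hpin, h⟩
  · exact hout p ⟨hpin, h⟩ hpcl

/-- **A bounded open set whose frontier is a simple closed curve is connected.** -/
theorem jx7_isPreconnected {γ : Circle → ℂ} (hγ : Continuous γ) (hinj : Function.Injective γ)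
    {D : Set ℂ} (hD : IsOpen D) (hb : Bornology.IsBounded D) (hfr : frontier D = range γ) :
    IsPreconnected D := by
  intro u v hu hv hsub hxu hyv
  by_contra hemp
  rw [not_nonempty_iff_eq_empty] at hemp
  obtain ⟨x, hx⟩ := hxu
  obtain ⟨y, hy⟩ := hyv
  obtain ⟨hf1, ho1⟩ := jx7_frontier_piece hD hu hv hsub hemp
  have hsub' : D ⊆ v ∪ u := by rwa [union_comm]
  have hemp' : D ∩ (v ∩ u) = ∅ := by rwa [inter_comm v u]
  obtain ⟨hf2, _⟩ := jx7_frontier_piece hD hv hu hsub' hemp'
  have hoff : ∀ p ∈ D, ∀ c, γ c - p ≠ 0 := by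
    intro p hp c h0
    have h1 : p ∈ frontier D := by
      rw [hfr]; exact ⟨c, sub_eq_zero.1 h0⟩
    exact (hD.inter_frontier_eq ▸ (⟨hp, h1⟩ : p ∈ D ∩ frontier D) : p ∈ (∅ : Set ℂ))
  obtain ⟨a, ha⟩ := jx7_ind_exists (g := fun c => γ c - x) (hγ.sub continuous_const)
    (hoff x hx.1)
  obtain ⟨b, hb'⟩ := jx7_ind_exists (g := fun c => γ c - y) (hγ.sub continuous_const)
    (hoff y hy.1)
  have h0 : b = 0 := jx7_ind_eq_zero hγ hinj (hD.inter hu) (hb.subset inter_subset_left)
    (hf1.trans hfr.le) hx (ho1 y hy) ha hb'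
  exact jx7_ind_ne_zero hγ hinj (hD.inter hv) (hb.subset inter_subset_left)
    (hf2.trans hfr.le) hy hb' h0

/-- The complement of a ball of the plane is connected. -/
theorem jx7_compl_ball_preconnected (M : ℝ) : IsPreconnected (ball (0 : ℂ) M)ᶜ := by
  have himg : (ball (0 : ℂ) M)ᶜ = (fun p : ℝ × ℝ => (p.1 : ℂ) * Complex.exp (p.2 * Complex.I)) ''
      ((Ici (max M 0)) ×ˢ (univ : Set ℝ)) := by
    ext w
    simp only [mem_compl_iff, mem_ball, dist_zero_right, not_lt, mem_image, mem_prod, mem_Ici,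
      mem_univ, and_true, Prod.exists]
    constructor
    · intro hw
      exact ⟨‖w‖, Complex.arg w, max_le hw (norm_nonneg _), Complex.norm_mul_exp_arg_mul_I w⟩
    · rintro ⟨r, t, hr, rfl⟩
      have hr0 : 0 ≤ r := (le_max_right _ _).trans hr
      rw [norm_mul, Complex.norm_exp_ofReal_mul_I, mul_one, Complex.norm_real, Real.norm_eq_abs,
        abs_of_nonneg hr0]
      exact (le_max_left _ _).trans hr
  rw [himg]
  refine (isPreconnected_Ici.prod isPreconnected_univ).image _ ?_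
  refine Continuous.continuousOn ?_
  exact (Complex.continuous_ofReal.comp continuous_fst).mul
    (Complex.continuous_exp.comp
      ((Complex.continuous_ofReal.comp continuous_snd).mul continuous_const))

/-- **The exterior of a bounded open set whose frontier is a simple closed curve is connected**
(the set has no holes). -/
theorem jx7_ext_isPreconnected {γ : Circle → ℂ} (hγ : Continuous γ)
    (hinj : Function.Injective γ) {D : Set ℂ} (hD : IsOpen D) (hb : Bornology.IsBounded D)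
    (hfr : frontier D = range γ) : IsPreconnected (closure D)ᶜ := by
  have hE : IsOpen (closure D)ᶜ := isClosed_closure.isOpen_compl
  have hEfr : frontier (closure D)ᶜ ⊆ range γ := by
    rw [frontier_compl, ← hfr]
    exact frontier_closure_subset
  obtain ⟨M, -, hM⟩ := hb.closure.subset_ball_lt 0 0
  have hA : (ball (0 : ℂ) M)ᶜ ⊆ (closure D)ᶜ := compl_subset_compl.2 hM
  have hne : D.Nonempty := by
    rw [nonempty_iff_ne_empty]
    rintro rfl
    rw [frontier_empty] at hfr
    exact (range_nonempty γ).ne_empty hfr.symm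
  obtain ⟨z₁, hz₁⟩ := hne
  have hz₁γ : ∀ c, γ c - z₁ ≠ 0 := by
    intro c h0
    have h1 : z₁ ∈ frontier D := by
      rw [hfr]; exact ⟨c, sub_eq_zero.1 h0⟩
    exact (hD.inter_frontier_eq ▸ (⟨hz₁, h1⟩ : z₁ ∈ D ∩ frontier D) : z₁ ∈ (∅ : Set ℂ))
  obtain ⟨a₁, ha₁⟩ := jx7_ind_exists (g := fun c => γ c - z₁) (hγ.sub continuous_const) hz₁γ
  -- a bounded clopen piece of the exterior is impossible
  have key : ∀ u v : Set ℂ, IsOpen u → IsOpen v → (closure D)ᶜ ⊆ u ∪ v →
      (closure D)ᶜ ∩ (u ∩ v) = ∅ → (ball (0 : ℂ) M)ᶜ ⊆ (closure D)ᶜ ∩ v →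
      ¬ ((closure D)ᶜ ∩ u).Nonempty := by
    intro u v hu hv hsub hemp hAv ⟨x, hx⟩
    obtain ⟨hf1, _⟩ := jx7_frontier_piece hE hu hv hsub hemp
    have hbd : Bornology.IsBounded ((closure D)ᶜ ∩ u) := by
      refine (isBounded_ball (x := (0 : ℂ)) (r := M)).subset fun p hp => ?_
      by_contra hpb
      have h1 := hAv hpb
      have : p ∈ (closure D)ᶜ ∩ (u ∩ v) := ⟨hp.1, hp.2, h1.2⟩
      rw [hemp] at this
      exact this
    have hxγ : ∀ c, γ c - x ≠ 0 := by
      intro c h0
      have h1 : x ∈ frontier D := by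
        rw [hfr]; exact ⟨c, sub_eq_zero.1 h0⟩
      exact hx.1 (frontier_subset_closure h1)
    obtain ⟨a, ha⟩ := jx7_ind_exists (g := fun c => γ c - x) (hγ.sub continuous_const) hxγ
    have h0 : a = 0 := jx7_ind_eq_zero hγ hinj hD hb hfr.le hz₁ hx.1 ha₁ ha
    exact jx7_ind_ne_zero hγ hinj (hE.inter hu) hbd (hf1.trans hEfr) hx ha h0
  intro u v hu hv hsub hxu hyv
  by_contra hemp
  rw [not_nonempty_iff_eq_empty] at hemp
  have hdisj : Disjoint ((closure D)ᶜ ∩ u) ((closure D)ᶜ ∩ v) := by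
    rw [disjoint_iff_inter_eq_empty, ← hemp]
    ext p
    simp only [mem_inter_iff]
    tauto
  have hcov : (ball (0 : ℂ) M)ᶜ ⊆ ((closure D)ᶜ ∩ u) ∪ ((closure D)ᶜ ∩ v) := by
    intro p hp
    rcases hsub (hA hp) with h | h
    · exact Or.inl ⟨hA hp, h⟩
    · exact Or.inr ⟨hA hp, h⟩
  rcases (jx7_compl_ball_preconnected M).subset_or_subset (hE.inter hu) (hE.inter hv) hdisj hcov
    with h | h
  · have hsub' : (closure D)ᶜ ⊆ v ∪ u := by rwa [union_comm]
    have hemp' : (closure D)ᶜ ∩ (v ∩ u) = ∅ := by rwa [inter_comm v u]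
    exact key v u hv hu hsub' hemp' h hyv
  · exact key u v hu hv hsub hemp h hxu

/-! ## 5. The same in `ℝ × ℝ`, and the frozen form -/

/-- The identification of `ℝ × ℝ` with `ℂ`. -/
noncomputable def jx7_e : ℝ × ℝ ≃ₜ ℂ := Complex.equivRealProdCLM.symm.toHomeomorph

theorem jx7_e_re (p : ℝ × ℝ) : (jx7_e p).re = p.1 := rfl

theorem jx7_e_im (p : ℝ × ℝ) : (jx7_e p).im = p.2 := rfl

theorem jx7_e_norm_sq (p q : ℝ × ℝ) :
    ‖jx7_e p - jx7_e q‖ ^ 2 = (p.1 - q.1) ^ 2 + (p.2 - q.2) ^ 2 := by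
  rw [Complex.sq_norm, Complex.normSq_apply, Complex.sub_re, Complex.sub_im, jx7_e_re, jx7_e_re,
    jx7_e_im, jx7_e_im]
  ring

theorem jx7_e_bounded {S : Set (ℝ × ℝ)} (hS : Bornology.IsBounded S) :
    Bornology.IsBounded (jx7_e '' S) :=
  Complex.equivRealProdCLM.symm.lipschitz.isBounded_image hS

/-- A Jordan datum in `ℝ × ℝ`, as in the frozen statements: a bounded open set whose frontier is
the range of a continuous injective map of the circle. -/
structure jx7_Dom (D : Set (ℝ × ℝ)) (γ : Circle → ℝ × ℝ) : Prop where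
  isOpen : IsOpen D
  bdd : Bornology.IsBounded D
  cont : Continuous γ
  inj : Function.Injective γ
  range_eq : range γ = frontier D

theorem jx7_Dom.frontier_image {D : Set (ℝ × ℝ)} {γ : Circle → ℝ × ℝ} (h : jx7_Dom D γ) :
    frontier (jx7_e '' D) = range fun c => jx7_e (γ c) := by
  rw [← jx7_e.image_frontier, ← h.range_eq, ← range_comp]
  rfl

/-- **Two Jordan domains with close parametrised boundaries agree away from the boundary.** -/
theorem jx7_Dom.mem_iff_mem {D R : Set (ℝ × ℝ)} {γ γ' : Circle → ℝ × ℝ} (hD : jx7_Dom D γ)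
    (hR : jx7_Dom R γ') {z : ℝ × ℝ}
    (hz : ∀ c, ((γ' c).1 - (γ c).1) ^ 2 + ((γ' c).2 - (γ c).2) ^ 2
      < ((γ c).1 - z.1) ^ 2 + ((γ c).2 - z.2) ^ 2) : z ∈ D ↔ z ∈ R := by
  have key := jx7_mem_iff_mem (γ := fun c => jx7_e (γ c)) (γ' := fun c => jx7_e (γ' c))
    (jx7_e.continuous.comp hD.cont) (jx7_e.injective.comp hD.inj)
    (jx7_e.continuous.comp hR.cont) (jx7_e.injective.comp hR.inj)
    (jx7_e.isOpen_image.2 hD.isOpen) (jx7_e_bounded hD.bdd) hD.frontier_image
    (jx7_e.isOpen_image.2 hR.isOpen) (jx7_e_bounded hR.bdd) hR.frontier_image (z := jx7_e z) ?_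
  · rwa [jx7_e.injective.mem_set_image, jx7_e.injective.mem_set_image] at key
  · intro c
    have h := hz c
    rw [← jx7_e_norm_sq, ← jx7_e_norm_sq] at h
    exact lt_of_pow_lt_pow_left₀ 2 (norm_nonneg _) h

theorem jx7_Dom.isPreconnected {D : Set (ℝ × ℝ)} {γ : Circle → ℝ × ℝ} (hD : jx7_Dom D γ) :
    IsPreconnected D :=
  jx7_e.isPreconnected_image.1 (jx7_isPreconnected (jx7_e.continuous.comp hD.cont)
    (jx7_e.injective.comp hD.inj) (jx7_e.isOpen_image.2 hD.isOpen) (jx7_e_bounded hD.bdd)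
    hD.frontier_image)

theorem jx7_Dom.nonempty {D : Set (ℝ × ℝ)} {γ : Circle → ℝ × ℝ} (hD : jx7_Dom D γ) :
    D.Nonempty := by
  rw [nonempty_iff_ne_empty]
  rintro rfl
  have := hD.range_eq
  rw [frontier_empty] at this
  exact (range_nonempty γ).ne_empty this

theorem jx7_Dom.isConnected {D : Set (ℝ × ℝ)} {γ : Circle → ℝ × ℝ} (hD : jx7_Dom D γ) :
    IsConnected D := ⟨hD.nonempty, hD.isPreconnected⟩

theorem jx7_Dom.ext_isPreconnected {D : Set (ℝ × ℝ)} {γ : Circle → ℝ × ℝ} (hD : jx7_Dom D γ) :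
    IsPreconnected (closure D)ᶜ := by
  have h := jx7_ext_isPreconnected (jx7_e.continuous.comp hD.cont)
    (jx7_e.injective.comp hD.inj) (jx7_e.isOpen_image.2 hD.isOpen) (jx7_e_bounded hD.bdd)
    hD.frontier_image
  rw [← jx7_e.image_closure, ← jx7_e.image_compl] at h
  exact jx7_e.isPreconnected_image.1 h

open Claims.C0468

theorem jx7_faceRegion_isOpen (δ : ℝ) (F : Finset (ℤ × ℤ)) : IsOpen (faceRegionSq δ F) :=
  isOpen_interior

theorem jx7_faceRegion_bdd (δ : ℝ) (F : Finset (ℤ × ℤ)) :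
    Bornology.IsBounded (faceRegionSq δ F) := by
  refine Bornology.IsBounded.subset ?_ interior_subset
  rw [Bornology.isBounded_biUnion_finset]
  intro f _
  exact (isBounded_Icc _ _).prod (isBounded_Icc _ _)

/-- The data hidden in `IsAdmissibleApprox`. -/
theorem jx7_adm_data {D : Set (ℝ × ℝ)} {δ : ℕ → ℝ} {F : ℕ → Finset (ℤ × ℤ)} (hDo : IsOpen D)
    (hDb : Bornology.IsBounded D) (h : IsAdmissibleApprox D δ F) :
    ∃ (γ : Circle → ℝ × ℝ) (γs : ℕ → Circle → ℝ × ℝ), jx7_Dom D γ ∧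
      (∀ n, jx7_Dom (faceRegionSq (δ n) (F n)) (γs n)) ∧
      ∀ ε : ℝ, 0 < ε → ∀ᶠ n in atTop, ∀ c,
        ((γs n c).1 - (γ c).1) ^ 2 + ((γs n c).2 - (γ c).2) ^ 2 < ε ^ 2 := by
  obtain ⟨_, _, _, γ, γs, h1, h2, h3, h4, h5⟩ := h
  exact ⟨γ, γs, ⟨hDo, hDb, h1, h2, h3⟩,
    fun n => ⟨jx7_faceRegion_isOpen _ _, jx7_faceRegion_bdd _ _, (h4 n).1, (h4 n).2.1,
      (h4 n).2.2⟩, h5⟩

/-- **FROZEN FORM.** Away from the `ε`-collar of `frontier D` the discrete regions are eventually
equal to `D` (Euclidean distance). -/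
theorem jx7_adm_agree {D : Set (ℝ × ℝ)} {δ : ℕ → ℝ} {F : ℕ → Finset (ℤ × ℤ)} (hDo : IsOpen D)
    (hDb : Bornology.IsBounded D) (h : IsAdmissibleApprox D δ F) {ε : ℝ} (hε : 0 < ε) :
    ∀ᶠ n in atTop, ∀ z : ℝ × ℝ,
      (∀ p ∈ frontier D, ε ^ 2 ≤ (p.1 - z.1) ^ 2 + (p.2 - z.2) ^ 2) →
        (z ∈ D ↔ z ∈ faceRegionSq (δ n) (F n)) := by
  obtain ⟨γ, γs, hD, hR, hclose⟩ := jx7_adm_data hDo hDb h
  filter_upwards [hclose ε hε] with n hn z hz
  refine hD.mem_iff_mem (hR n) fun c => lt_of_lt_of_le (hn c) (hz _ ?_)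
  rw [← hD.range_eq]
  exact mem_range_self c

/-- The same with the distance of `ℝ × ℝ` (the sup distance). -/
theorem jx7_adm_agree_dist {D : Set (ℝ × ℝ)} {δ : ℕ → ℝ} {F : ℕ → Finset (ℤ × ℤ)}
    (hDo : IsOpen D) (hDb : Bornology.IsBounded D) (h : IsAdmissibleApprox D δ F) {ε : ℝ}
    (hε : 0 < ε) :
    ∀ᶠ n in atTop, ∀ z : ℝ × ℝ, (∀ p ∈ frontier D, ε ≤ dist p z) →
        (z ∈ D ↔ z ∈ faceRegionSq (δ n) (F n)) := by
  filter_upwards [jx7_adm_agree hDo hDb h hε] with n hn z hz
  refine hn z fun p hp => ?_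
  have h1 := hz p hp
  rw [Prod.dist_eq, le_max_iff, Real.dist_eq, Real.dist_eq] at h1
  rcases h1 with h1 | h1
  · have : ε ^ 2 ≤ (p.1 - z.1) ^ 2 := by
      rw [← sq_abs (p.1 - z.1)]
      exact pow_le_pow_left₀ hε.le h1 2
    nlinarith [sq_nonneg (p.2 - z.2)]
  · have : ε ^ 2 ≤ (p.2 - z.2) ^ 2 := by
      rw [← sq_abs (p.2 - z.2)]
      exact pow_le_pow_left₀ hε.le h1 2
    nlinarith [sq_nonneg (p.1 - z.1)]

/-- The discrete regions lie eventually in the `ε`-neighbourhood of `D`: the clause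
"region inside `D`" that `IsAdmissibleApprox` does not have, up to `ε`. -/
theorem jx7_adm_region_subset {D : Set (ℝ × ℝ)} {δ : ℕ → ℝ} {F : ℕ → Finset (ℤ × ℤ)}
    (hDo : IsOpen D) (hDb : Bornology.IsBounded D) (h : IsAdmissibleApprox D δ F) {ε : ℝ}
    (hε : 0 < ε) :
    ∀ᶠ n in atTop, faceRegionSq (δ n) (F n) ⊆ D ∪ thickening ε (frontier D) := by
  filter_upwards [jx7_adm_agree_dist hDo hDb h hε] with n hn z hz
  by_cases hfar : ∀ p ∈ frontier D, ε ≤ dist p z
  · exact Or.inl ((hn z hfar).2 hz)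
  · push Not at hfar
    obtain ⟨p, hp, hpz⟩ := hfar
    refine Or.inr ?_
    rw [mem_thickening_iff]
    exact ⟨p, hp, by rwa [dist_comm]⟩

/-- `D` minus the `ε`-collar lies eventually in the discrete regions, uniformly. -/
theorem jx7_adm_subset_region {D : Set (ℝ × ℝ)} {δ : ℕ → ℝ} {F : ℕ → Finset (ℤ × ℤ)}
    (hDo : IsOpen D) (hDb : Bornology.IsBounded D) (h : IsAdmissibleApprox D δ F) {ε : ℝ}
    (hε : 0 < ε) :
    ∀ᶠ n in atTop, D \ thickening ε (frontier D) ⊆ faceRegionSq (δ n) (F n) := by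
  filter_upwards [jx7_adm_agree_dist hDo hDb h hε] with n hn z hz
  refine (hn z fun p hp => ?_).1 hz.1
  by_contra hlt
  push Not at hlt
  refine hz.2 ?_
  rw [mem_thickening_iff]
  exact ⟨p, hp, by rwa [dist_comm]⟩

/-- The discrete regions are eventually uniformly bounded. -/
theorem jx7_adm_region_bdd {D : Set (ℝ × ℝ)} {δ : ℕ → ℝ} {F : ℕ → Finset (ℤ × ℤ)}
    (hDo : IsOpen D) (hDb : Bornology.IsBounded D) (h : IsAdmissibleApprox D δ F) :
    ∃ B : Set (ℝ × ℝ), Bornology.IsBounded B ∧ ∀ᶠ n in atTop, faceRegionSq (δ n) (F n) ⊆ B := by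
  refine ⟨D ∪ thickening 1 (frontier D), hDb.union ?_,
    jx7_adm_region_subset hDo hDb h one_pos⟩
  exact (hDb.closure.subset frontier_subset_closure).thickening

theorem jx7_adm_region_connected {D : Set (ℝ × ℝ)} {δ : ℕ → ℝ} {F : ℕ → Finset (ℤ × ℤ)}
    (hDo : IsOpen D) (hDb : Bornology.IsBounded D) (h : IsAdmissibleApprox D δ F) (n : ℕ) :
    IsConnected (faceRegionSq (δ n) (F n)) ∧
      IsPreconnected (closure (faceRegionSq (δ n) (F n)))ᶜ := by
  obtain ⟨γ, γs, _, hR, _⟩ := jx7_adm_data hDo hDb h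
  exact ⟨(hR n).isConnected, (hR n).ext_isPreconnected⟩

theorem jx7_adm_domain_connected {D : Set (ℝ × ℝ)} {δ : ℕ → ℝ} {F : ℕ → Finset (ℤ × ℤ)}
    (hDo : IsOpen D) (hDb : Bornology.IsBounded D) (h : IsAdmissibleApprox D δ F) :
    IsConnected D ∧ IsPreconnected (closure D)ᶜ := by
  obtain ⟨γ, γs, hD, _, _⟩ := jx7_adm_data hDo hDb h
  exact ⟨hD.isConnected, hD.ext_isPreconnected⟩

end Claimed.Agent.R292
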