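import Claimed.Agent.R292.AtConn
import Claimed.Agent.R292.Defs.JORDAN

/-!
# Row 292 (S0540), Jordan/Poly99 : J2 = EVERY `F n` IS A SIMPLY CONNECTED POLYOMINO      (helper99, unit JORDAN; prefix `jp99_`)

No Jordan curve theorem.
1. `jp99_cross`     CROSS-POINT LEMMA: a simple closed curve has no point at which three pairwise disjoint connected subsets accumulate
                    (arguments of the arms are disjoint intervals of `(-π, π)` accumulating at `±π`: at most two).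
2. square geometry on top of `AtConn` (helper30): `jp99_mem_frontier`, `jp99_closure_region`, `jp99_frontier_eq`.
3. `jp99_nopinch`   a pinch corner is the end of four frontier segments: excluded by 1.
4. `jp99_F_conn`    connected frontier ⟹ `F` is 8-connected (the complement: `at30_compl_conn`).
5. `jp99_reach`     8-connected + no pinch ⟹ edge-connected.
6. **`jp99_poly`**  = the statement of `exit_jordan_poly`, 0 sorry.
-/

set_option autoImplicit false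

namespace Claimed.Agent.R292

open Set Filter Topology

/-! ### 1. the cross-point lemma -/

/-- two order connected sets of reals below `b` which both come arbitrarily close to `b` meet -/
theorem jp99_top_meet {C₁ C₂ : Set ℝ} {b : ℝ} (o₁ : C₁.OrdConnected) (o₂ : C₂.OrdConnected)
    (l₁ : ∀ c ∈ C₁, c < b) (l₂ : ∀ c ∈ C₂, c < b)
    (a₁ : ∀ ε : ℝ, 0 < ε → ∃ c ∈ C₁, b - ε < c) (a₂ : ∀ ε : ℝ, 0 < ε → ∃ c ∈ C₂, b - ε < c) :
    (C₁ ∩ C₂).Nonempty := by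
  obtain ⟨c₁, hc₁, -⟩ := a₁ 1 one_pos
  obtain ⟨c₂, hc₂, -⟩ := a₂ 1 one_pos
  have hm : max c₁ c₂ < b := max_lt (l₁ c₁ hc₁) (l₂ c₂ hc₂)
  obtain ⟨d₁, hd₁, e₁⟩ := a₁ (b - max c₁ c₂) (by linarith)
  obtain ⟨d₂, hd₂, e₂⟩ := a₂ (b - max c₁ c₂) (by linarith)
  have f₁ : max c₁ c₂ < d₁ := by linarith
  have f₂ : max c₁ c₂ < d₂ := by linarith
  refine ⟨min d₁ d₂, o₁.out hc₁ hd₁ ⟨?_, min_le_left _ _⟩, o₂.out hc₂ hd₂ ⟨?_, min_le_right _ _⟩⟩
  · exact (le_max_left _ _).trans (le_min f₁.le f₂.le)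
  · exact (le_max_right _ _).trans (le_min f₁.le f₂.le)

/-- the mirror image of `jp99_top_meet` -/
theorem jp99_bot_meet {C₁ C₂ : Set ℝ} {b : ℝ} (o₁ : C₁.OrdConnected) (o₂ : C₂.OrdConnected)
    (l₁ : ∀ c ∈ C₁, b < c) (l₂ : ∀ c ∈ C₂, b < c)
    (a₁ : ∀ ε : ℝ, 0 < ε → ∃ c ∈ C₁, c < b + ε) (a₂ : ∀ ε : ℝ, 0 < ε → ∃ c ∈ C₂, c < b + ε) :
    (C₁ ∩ C₂).Nonempty := by
  obtain ⟨c₁, hc₁, -⟩ := a₁ 1 one_pos
  obtain ⟨c₂, hc₂, -⟩ := a₂ 1 one_pos
  have hm : b < min c₁ c₂ := lt_min (l₁ c₁ hc₁) (l₂ c₂ hc₂)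
  obtain ⟨d₁, hd₁, e₁⟩ := a₁ (min c₁ c₂ - b) (by linarith)
  obtain ⟨d₂, hd₂, e₂⟩ := a₂ (min c₁ c₂ - b) (by linarith)
  have f₁ : d₁ < min c₁ c₂ := by linarith
  have f₂ : d₂ < min c₁ c₂ := by linarith
  refine ⟨max d₁ d₂, o₁.out hd₁ hc₁ ⟨le_max_left _ _, ?_⟩, o₂.out hd₂ hc₂ ⟨le_max_right _ _, ?_⟩⟩
  · exact (max_le f₁.le f₂.le).trans (min_le_left _ _)
  · exact (max_le f₁.le f₂.le).trans (min_le_right _ _)

/-- an arm at the point `p` of the curve `h` -/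
structure Jp99Arm {E : Type*} [TopologicalSpace E] (h : Circle → E) (p : E) (A : Set E) : Prop where
  sub : A ⊆ range h
  conn : IsPreconnected A
  np : p ∉ A
  cl : p ∈ closure A

/-- the set of arguments of an arm -/
noncomputable def jp99Args {E : Type*} (h : Circle → E) (A : Set E) : Set ℝ :=
  (fun z : Circle => Complex.arg (z : ℂ)) '' (h ⁻¹' A)

theorem jp99_arg_ne_pi {z : Circle} (hz : z ≠ Circle.exp Real.pi) : Complex.arg (z : ℂ) ≠ Real.pi := by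
  intro h
  apply hz
  rw [← Circle.exp_arg z, h]

theorem jp99_arm_data {E : Type*} [TopologicalSpace E] [T2Space E] {h : Circle → E} (hc : Continuous h)
    (hi : Function.Injective h) {A : Set E} (H : Jp99Arm h (h (Circle.exp Real.pi)) A) :
    (jp99Args h A).OrdConnected ∧ (∀ c ∈ jp99Args h A, -Real.pi < c ∧ c < Real.pi) ∧
      ((∀ ε : ℝ, 0 < ε → ∃ c ∈ jp99Args h A, Real.pi - ε < c) ∨
        (∀ ε : ℝ, 0 < ε → ∃ c ∈ jp99Args h A, c < -Real.pi + ε)) := by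
  have hemb : IsClosedEmbedding h := hc.isClosedEmbedding hi
  have himg : h '' (h ⁻¹' A) = A := image_preimage_eq_of_subset H.sub
  have hB : IsPreconnected (h ⁻¹' A) := by
    rw [← hemb.isInducing.isPreconnected_image, himg]; exact H.conn
  have hne : ∀ z ∈ h ⁻¹' A, z ≠ Circle.exp Real.pi := by
    rintro z hz rfl
    exact H.np hz
  have hcl : Circle.exp Real.pi ∈ closure (h ⁻¹' A) := by
    rw [hemb.isInducing.closure_eq_preimage_closure_image, himg]; exact H.cl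
  have hrange : ∀ c ∈ jp99Args h A, -Real.pi < c ∧ c < Real.pi := by
    rintro c ⟨z, hz, rfl⟩
    exact ⟨Complex.neg_pi_lt_arg _, lt_of_le_of_ne (Complex.arg_le_pi _) (jp99_arg_ne_pi (hne z hz))⟩
  refine ⟨?_, hrange, ?_⟩
  · apply IsPreconnected.ordConnected
    refine hB.image _ ?_
    intro z hz
    have hs : (z : ℂ) ∈ Complex.slitPlane := by
      rw [Complex.mem_slitPlane_iff_arg]
      exact ⟨jp99_arg_ne_pi (hne z hz), Circle.coe_ne_zero z⟩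
    exact ((Complex.continuousAt_arg hs).comp continuous_subtype_val.continuousAt).continuousWithinAt
  · by_contra hcon
    push Not at hcon
    obtain ⟨⟨ε₁, h₁, b₁⟩, ⟨ε₂, h₂, b₂⟩⟩ := hcon
    set ε := min (min ε₁ ε₂) Real.pi with hε
    have hε0 : 0 < ε := lt_min (lt_min h₁ h₂) Real.pi_pos
    have hsub : h ⁻¹' A ⊆ Circle.exp '' Icc (-(Real.pi - ε)) (Real.pi - ε) := by
      intro z hz
      refine ⟨Complex.arg (z : ℂ), ⟨?_, ?_⟩, Circle.exp_arg z⟩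
      · have := b₂ _ ⟨z, hz, rfl⟩
        have e : ε ≤ ε₂ := (min_le_left _ _).trans (min_le_right _ _)
        linarith
      · have := b₁ _ ⟨z, hz, rfl⟩
        have e : ε ≤ ε₁ := (min_le_left _ _).trans (min_le_left _ _)
        linarith
    have hK : IsClosed (Circle.exp '' Icc (-(Real.pi - ε)) (Real.pi - ε)) :=
      (isCompact_Icc.image Circle.exp.continuous).isClosed
    obtain ⟨t, ⟨t1, t2⟩, ht⟩ := closure_minimal hsub hK hcl
    have e1 := Circle.arg_exp (x := t) (by linarith) (by linarith)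
    have e2 := Circle.arg_exp (x := Real.pi) (by linarith [Real.pi_pos]) le_rfl
    rw [ht, e2] at e1
    linarith

/-- **cross-point lemma**, special position -/
theorem jp99_cross_aux {E : Type*} [TopologicalSpace E] [T2Space E] {h : Circle → E} (hc : Continuous h)
    (hi : Function.Injective h) {A B C : Set E} (HA : Jp99Arm h (h (Circle.exp Real.pi)) A)
    (HB : Jp99Arm h (h (Circle.exp Real.pi)) B) (HC : Jp99Arm h (h (Circle.exp Real.pi)) C)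
    (hAB : Disjoint A B) (hAC : Disjoint A C) (hBC : Disjoint B C) : False := by
  have key : ∀ {X Y : Set E}, Disjoint X Y → ¬ (jp99Args h X ∩ jp99Args h Y).Nonempty := by
    rintro X Y hXY ⟨c, ⟨z, hz, rfl⟩, ⟨w, hw, hwz⟩⟩
    have : w = z := Circle.injective_arg hwz
    subst this
    exact disjoint_left.1 hXY hz hw
  obtain ⟨oA, rA, tA⟩ := jp99_arm_data hc hi HA
  obtain ⟨oB, rB, tB⟩ := jp99_arm_data hc hi HB
  obtain ⟨oC, rC, tC⟩ := jp99_arm_data hc hi HC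
  rcases tA with tA | tA <;> rcases tB with tB | tB <;> rcases tC with tC | tC
  · exact key hAB (jp99_top_meet oA oB (fun c h => (rA c h).2) (fun c h => (rB c h).2) tA tB)
  · exact key hAB (jp99_top_meet oA oB (fun c h => (rA c h).2) (fun c h => (rB c h).2) tA tB)
  · exact key hAC (jp99_top_meet oA oC (fun c h => (rA c h).2) (fun c h => (rC c h).2) tA tC)
  · exact key hBC (jp99_bot_meet oB oC (fun c h => (rB c h).1) (fun c h => (rC c h).1) tB tC)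
  · exact key hBC (jp99_top_meet oB oC (fun c h => (rB c h).2) (fun c h => (rC c h).2) tB tC)
  · exact key hAC (jp99_bot_meet oA oC (fun c h => (rA c h).1) (fun c h => (rC c h).1) tA tC)
  · exact key hAB (jp99_bot_meet oA oB (fun c h => (rA c h).1) (fun c h => (rB c h).1) tA tB)
  · exact key hAB (jp99_bot_meet oA oB (fun c h => (rA c h).1) (fun c h => (rB c h).1) tA tB)

/-- **CROSS-POINT LEMMA.**  A simple closed curve has no point at which three pairwise disjoint connected subsets of the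
curve (not containing the point) accumulate. -/
theorem jp99_cross {E : Type*} [TopologicalSpace E] [T2Space E] {h : Circle → E} (hc : Continuous h)
    (hi : Function.Injective h) {p : E} (hp : p ∈ range h) {A B C : Set E} (HA : Jp99Arm h p A)
    (HB : Jp99Arm h p B) (HC : Jp99Arm h p C)
    (hAB : Disjoint A B) (hAC : Disjoint A C) (hBC : Disjoint B C) : False := by
  obtain ⟨θ, rfl⟩ := hp
  set g : Circle → E := fun z => h (θ * (Circle.exp Real.pi)⁻¹ * z) with hg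
  have hgc : Continuous g := hc.comp (continuous_const.mul continuous_id)
  have hgi : Function.Injective g := fun z w hzw => mul_left_cancel (hi hzw)
  have hgp : g (Circle.exp Real.pi) = h θ := by simp [hg]
  have hgr : range g = range h := by
    apply subset_antisymm
    · rintro _ ⟨z, rfl⟩; exact ⟨_, rfl⟩
    · rintro _ ⟨z, rfl⟩
      exact ⟨(θ * (Circle.exp Real.pi)⁻¹)⁻¹ * z, by simp only [hg, mul_inv_cancel_left]⟩
  have tr : ∀ {X : Set E}, Jp99Arm h (h θ) X → Jp99Arm g (g (Circle.exp Real.pi)) X := fun H =>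
    ⟨hgr ▸ H.sub, H.conn, hgp ▸ H.np, hgp ▸ H.cl⟩
  exact jp99_cross_aux hgc hgi (tr HA) (tr HB) (tr HC) hAB hAC hBC


/-! ### 2. square geometry -/

open Claims Claims.C0468

theorem jp99_sq_eq (d : ℝ) (f : ℤ × ℤ) : jdSq d f = at30Sq d f := rfl

theorem jp99_osq_subset (d : ℝ) (F : Finset (ℤ × ℤ)) {f : ℤ × ℤ} (hf : f ∈ F) : at30Osq d f ⊆ faceRegionSq d F := by
  rw [at30_region_eq]
  apply interior_maximal _ (isOpen_Ioo.prod isOpen_Ioo)
  intro x hx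
  exact mem_biUnion hf ⟨⟨hx.1.1.le, hx.1.2.le⟩, ⟨hx.2.1.le, hx.2.2.le⟩⟩

theorem jp99_sq_subset_closure {d : ℝ} (hd : 0 < d) (F : Finset (ℤ × ℤ)) {f : ℤ × ℤ} (hf : f ∈ F) :
    at30Sq d f ⊆ closure (faceRegionSq d F) :=
  (at30_sq_subset_closure hd f).trans (closure_mono (jp99_osq_subset d F hf))

theorem jp99_isOpen_region (d : ℝ) (F : Finset (ℤ × ℤ)) : IsOpen (faceRegionSq d F) := isOpen_interior

theorem jp99_closure_region {d : ℝ} (hd : 0 < d) (F : Finset (ℤ × ℤ)) :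
    closure (faceRegionSq d F) = ⋃ f ∈ {f : ℤ × ℤ | f ∈ F}, at30Sq d f := by
  apply subset_antisymm
  · refine closure_minimal ?_ (at30_isClosed_union hd _)
    rw [at30_region_eq]
    exact interior_subset
  · intro x hx
    simp only [mem_iUnion, mem_ofPred_eq, exists_prop] at hx
    obtain ⟨f, hf, hx⟩ := hx
    exact jp99_sq_subset_closure hd F hf hx

/-- the frontier of the region is the frontier of the closed union of the squares of `F` -/
theorem jp99_frontier_eq {d : ℝ} (hd : 0 < d) (F : Finset (ℤ × ℤ)) :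
    frontier (faceRegionSq d F) = frontier (⋃ f ∈ {f : ℤ × ℤ | f ∈ F}, at30Sq d f) := by
  rw [(jp99_isOpen_region d F).frontier_eq, (at30_isClosed_union hd _).frontier_eq, jp99_closure_region hd]
  rfl

/-- one of the two faces is in `F`, the other is not -/
def Jp99Sep (F : Finset (ℤ × ℤ)) (f g : ℤ × ℤ) : Prop := (f ∈ F ∧ g ∉ F) ∨ (f ∉ F ∧ g ∈ F)

theorem jp99_mem_frontier {d : ℝ} (hd : 0 < d) (F : Finset (ℤ × ℤ)) {f g : ℤ × ℤ} (h : Jp99Sep F f g) {z : ℝ × ℝ}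
    (hzf : z ∈ at30Sq d f) (hzg : z ∈ at30Sq d g) : z ∈ frontier (faceRegionSq d F) := by
  have key : ∀ {f g : ℤ × ℤ}, f ∈ F → g ∉ F → z ∈ at30Sq d f → z ∈ at30Sq d g → z ∈ frontier (faceRegionSq d F) := by
    intro f g hf hg hzf hzg
    rw [(jp99_isOpen_region d F).frontier_eq]
    refine ⟨jp99_sq_subset_closure hd F hf hzf, ?_⟩
    have : z ∈ (faceRegionSq d F)ᶜ := by
      rw [at30_compl_region hd]
      exact mem_biUnion (show g ∈ {f : ℤ × ℤ | f ∉ F} from hg) hzg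
    exact this
  rcases h with ⟨h1, h2⟩ | ⟨h1, h2⟩
  · exact key h1 h2 hzf hzg
  · exact key h2 h1 hzg hzf

/-! ### 3. no pinch -/

theorem jp99_nopinch_aux {d : ℝ} (hd : 0 < d) (F : Finset (ℤ × ℤ)) {γ : Circle → ℝ × ℝ} (hγc : Continuous γ)
    (hγi : Function.Injective γ) (hγr : range γ = frontier (faceRegionSq d F)) (v : ℤ × ℤ)
    (hE : Jp99Sep F v (v.1, v.2 - 1)) (hN : Jp99Sep F v (v.1 - 1, v.2))
    (hW : Jp99Sep F (v.1 - 1, v.2) (v.1 - 1, v.2 - 1)) : False := by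
  have hx : d * (v.1 : ℝ) < d * ((v.1 : ℝ) + 1) := by nlinarith
  have hx' : d * ((v.1 : ℝ) - 1) < d * (v.1 : ℝ) := by nlinarith
  have hy : d * (v.2 : ℝ) < d * ((v.2 : ℝ) + 1) := by nlinarith
  have hy' : d * ((v.2 : ℝ) - 1) < d * (v.2 : ℝ) := by nlinarith
  have hp : ((d * (v.1 : ℝ), d * (v.2 : ℝ)) : ℝ × ℝ) ∈ range γ := by
    rw [hγr]
    refine jp99_mem_frontier hd F hE ⟨⟨le_rfl, hx.le⟩, ⟨le_rfl, hy.le⟩⟩ ⟨⟨le_rfl, hx.le⟩, ⟨?_, ?_⟩⟩
    · push_cast; exact hy'.le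
    · push_cast; simp
  have aE : Jp99Arm γ (d * (v.1 : ℝ), d * (v.2 : ℝ)) (Ioo (d * (v.1 : ℝ)) (d * ((v.1 : ℝ) + 1)) ×ˢ {d * (v.2 : ℝ)}) := by
    refine ⟨?_, isPreconnected_Ioo.prod isPreconnected_singleton, fun h => lt_irrefl _ h.1.1, ?_⟩
    · rintro ⟨z1, z2⟩ ⟨⟨h1, h2⟩, h3⟩
      simp only [mem_singleton_iff] at h3
      subst h3
      rw [hγr]
      refine jp99_mem_frontier hd F hE ⟨⟨h1.le, h2.le⟩, ⟨le_rfl, hy.le⟩⟩ ⟨⟨h1.le, h2.le⟩, ⟨?_, ?_⟩⟩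
      · push_cast; exact hy'.le
      · push_cast; simp
    · rw [closure_prod_eq, closure_Ioo hx.ne, closure_singleton]
      exact ⟨⟨le_rfl, hx.le⟩, rfl⟩
  have aN : Jp99Arm γ (d * (v.1 : ℝ), d * (v.2 : ℝ)) ({d * (v.1 : ℝ)} ×ˢ Ioo (d * (v.2 : ℝ)) (d * ((v.2 : ℝ) + 1))) := by
    refine ⟨?_, isPreconnected_singleton.prod isPreconnected_Ioo, fun h => lt_irrefl _ h.2.1, ?_⟩
    · rintro ⟨z1, z2⟩ ⟨h3, ⟨h1, h2⟩⟩
      simp only [mem_singleton_iff] at h3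
      subst h3
      rw [hγr]
      refine jp99_mem_frontier hd F hN ⟨⟨le_rfl, hx.le⟩, ⟨h1.le, h2.le⟩⟩ ⟨⟨?_, ?_⟩, ⟨h1.le, h2.le⟩⟩
      · push_cast; exact hx'.le
      · push_cast; simp
    · rw [closure_prod_eq, closure_Ioo hy.ne, closure_singleton]
      exact ⟨rfl, ⟨le_rfl, hy.le⟩⟩
  have aW : Jp99Arm γ (d * (v.1 : ℝ), d * (v.2 : ℝ)) (Ioo (d * ((v.1 : ℝ) - 1)) (d * (v.1 : ℝ)) ×ˢ {d * (v.2 : ℝ)}) := by
    refine ⟨?_, isPreconnected_Ioo.prod isPreconnected_singleton, fun h => lt_irrefl _ h.1.2, ?_⟩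
    · rintro ⟨z1, z2⟩ ⟨⟨h1, h2⟩, h3⟩
      simp only [mem_singleton_iff] at h3
      subst h3
      rw [hγr]
      refine jp99_mem_frontier hd F hW ⟨⟨?_, ?_⟩, ⟨le_rfl, hy.le⟩⟩ ⟨⟨?_, ?_⟩, ⟨?_, ?_⟩⟩
      · push_cast; exact h1.le
      · push_cast; simpa using h2.le
      · push_cast; exact h1.le
      · push_cast; simpa using h2.le
      · push_cast; exact hy'.le
      · push_cast; simp
    · rw [closure_prod_eq, closure_Ioo hx'.ne, closure_singleton]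
      exact ⟨⟨hx'.le, le_rfl⟩, rfl⟩
  refine jp99_cross hγc hγi hp aE aN aW ?_ ?_ ?_
  · rw [disjoint_left]
    rintro z ⟨⟨h1, -⟩, -⟩ ⟨h2, -⟩
    simp only [mem_singleton_iff] at h2
    exact absurd h1 (by rw [h2]; exact lt_irrefl _)
  · rw [disjoint_left]
    rintro z ⟨⟨h1, -⟩, -⟩ ⟨⟨-, h2⟩, -⟩
    exact lt_asymm h1 h2
  · rw [disjoint_left]
    rintro z ⟨h2, -⟩ ⟨⟨-, h1⟩, -⟩
    simp only [mem_singleton_iff] at h2
    exact absurd h1 (by rw [h2]; exact lt_irrefl _)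

/-- **no pinch** -/
theorem jp99_nopinch {d : ℝ} (hd : 0 < d) (F : Finset (ℤ × ℤ)) {γ : Circle → ℝ × ℝ} (hγc : Continuous γ)
    (hγi : Function.Injective γ) (hγr : range γ = frontier (faceRegionSq d F)) (v : ℤ × ℤ) :
    ¬ (v ∈ F ∧ (v.1 - 1, v.2 - 1) ∈ F ∧ (v.1 - 1, v.2) ∉ F ∧ (v.1, v.2 - 1) ∉ F) ∧
    ¬ (v ∉ F ∧ (v.1 - 1, v.2 - 1) ∉ F ∧ (v.1 - 1, v.2) ∈ F ∧ (v.1, v.2 - 1) ∈ F) := by
  constructor
  · rintro ⟨h1, h2, h3, h4⟩
    exact jp99_nopinch_aux hd F hγc hγi hγr v (Or.inl ⟨h1, h4⟩) (Or.inl ⟨h1, h3⟩) (Or.inr ⟨h3, h2⟩)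
  · rintro ⟨h1, h2, h3, h4⟩
    exact jp99_nopinch_aux hd F hγc hγi hγr v (Or.inr ⟨h1, h4⟩) (Or.inr ⟨h1, h3⟩) (Or.inl ⟨h3, h2⟩)

/-! ### 4. `F` is 8-connected -/

theorem jp99_F_conn {d : ℝ} (hd : 0 < d) (F : Finset (ℤ × ℤ))
    (hc : IsPreconnected (frontier (faceRegionSq d F))) (S : Set (ℤ × ℤ)) (f0 : ℤ × ℤ) (h0 : f0 ∈ F)
    (h0S : f0 ∈ S) (hS : ∀ f g, f ∈ F → g ∈ F → at30Adj f g → f ∈ S → g ∈ S) :
    ∀ g, g ∈ F → g ∈ S := by
  intro g0 hg0
  by_contra hg0S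
  have hset : {f : ℤ × ℤ | f ∈ F} = {f : ℤ × ℤ | f ∈ F ∧ f ∈ S} ∪ {f : ℤ × ℤ | f ∈ F ∧ f ∉ S} := by
    ext f
    simp only [mem_ofPred_eq, mem_union]
    tauto
  rw [jp99_frontier_eq hd, hset, biUnion_union] at hc
  refine at30_false_of_pieces (at30_isClosed_union hd _) (at30_isClosed_union hd _) ?_ ?_ ?_ hc
  · rw [disjoint_left]
    intro x hx1 hx2
    simp only [mem_iUnion, mem_ofPred_eq, exists_prop] at hx1 hx2
    obtain ⟨f, ⟨hfF, hfS⟩, hxf⟩ := hx1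
    obtain ⟨g, ⟨hgF, hgS⟩, hxg⟩ := hx2
    exact hgS (hS f g hfF hgF (at30_adj_of_mem hd hxf hxg) hfS)
  · obtain ⟨x, hx⟩ := at30_sq_nonempty hd f0
    exact ⟨x, mem_biUnion (show f0 ∈ {f : ℤ × ℤ | f ∈ F ∧ f ∈ S} from ⟨h0, h0S⟩) hx⟩
  · obtain ⟨x, hx⟩ := at30_sq_nonempty hd g0
    exact ⟨x, mem_biUnion (show g0 ∈ {f : ℤ × ℤ | f ∈ F ∧ f ∉ S} from ⟨hg0, hg0S⟩) hx⟩

/-! ### 5. from 8-connected to edge-connected -/

theorem jp99_adj_h {a b : ℤ × ℤ} (h2 : b.2 = a.2) (h1 : b.1 = a.1 + 1 ∨ b.1 = a.1 - 1) : jdAdj a b := by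
  obtain ⟨a1, a2⟩ := a
  obtain ⟨b1, b2⟩ := b
  simp only at h1 h2
  subst h2
  unfold jdAdj
  rcases h1 with rfl | rfl
  · left; ext <;> simp
  · right; right; left; ext <;> simp

theorem jp99_adj_v {a b : ℤ × ℤ} (h1 : b.1 = a.1) (h2 : b.2 = a.2 + 1 ∨ b.2 = a.2 - 1) : jdAdj a b := by
  obtain ⟨a1, a2⟩ := a
  obtain ⟨b1, b2⟩ := b
  simp only at h1 h2
  subst h1
  unfold jdAdj
  rcases h2 with rfl | rfl
  · right; left; ext <;> simp
  · right; right; right; ext <;> simp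

/-- one 8-step is a chain of edge steps, if diagonal steps can be filled -/
theorem jp99_step (P : ℤ × ℤ → Prop)
    (hfill : ∀ a b : ℤ × ℤ, P a → P b → (b.1 = a.1 + 1 ∨ b.1 = a.1 - 1) → (b.2 = a.2 + 1 ∨ b.2 = a.2 - 1) →
      P (a.1, b.2) ∨ P (b.1, a.2))
    {a b : ℤ × ℤ} (hab : at30Adj a b) (ha : P a) (hb : P b) :
    Relation.ReflTransGen (fun x y => jdAdj x y ∧ P y) a b := by
  obtain ⟨h1, h2⟩ := hab
  rw [abs_le] at h1 h2
  have c1 : b.1 = a.1 ∨ (b.1 = a.1 + 1 ∨ b.1 = a.1 - 1) := by omega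
  have c2 : b.2 = a.2 ∨ (b.2 = a.2 + 1 ∨ b.2 = a.2 - 1) := by omega
  rcases c1 with c1 | c1 <;> rcases c2 with c2 | c2
  · have : b = a := Prod.ext c1 c2
    rw [this]
  · exact Relation.ReflTransGen.single ⟨jp99_adj_v c1 c2, hb⟩
  · exact Relation.ReflTransGen.single ⟨jp99_adj_h c2 c1, hb⟩
  · rcases hfill a b ha hb c1 c2 with h | h
    · exact (Relation.ReflTransGen.single ⟨jp99_adj_v (a := a) (b := (a.1, b.2)) rfl c2, h⟩).tail
        ⟨jp99_adj_h (a := (a.1, b.2)) (b := b) rfl c1, hb⟩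
    · exact (Relation.ReflTransGen.single ⟨jp99_adj_h (a := a) (b := (b.1, a.2)) rfl c1, h⟩).tail
        ⟨jp99_adj_v (a := (b.1, a.2)) (b := b) rfl c2, hb⟩

theorem jp99_fill_in {F : Finset (ℤ × ℤ)}
    (hnp : ∀ v : ℤ × ℤ,
      ¬ (v ∈ F ∧ (v.1 - 1, v.2 - 1) ∈ F ∧ (v.1 - 1, v.2) ∉ F ∧ (v.1, v.2 - 1) ∉ F) ∧
      ¬ (v ∉ F ∧ (v.1 - 1, v.2 - 1) ∉ F ∧ (v.1 - 1, v.2) ∈ F ∧ (v.1, v.2 - 1) ∈ F))
    (a b : ℤ × ℤ) (ha : a ∈ F) (hb : b ∈ F) (c1 : b.1 = a.1 + 1 ∨ b.1 = a.1 - 1) (c2 : b.2 = a.2 + 1 ∨ b.2 = a.2 - 1) :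
    (a.1, b.2) ∈ F ∨ (b.1, a.2) ∈ F := by
  obtain ⟨a1, a2⟩ := a
  obtain ⟨b1, b2⟩ := b
  simp only at c1 c2 ⊢
  rcases c1 with rfl | rfl <;> rcases c2 with rfl | rfl
  · have := (hnp (a1 + 1, a2 + 1)).1
    simp only [add_sub_cancel_right] at this
    tauto
  · have := (hnp (a1 + 1, a2)).2
    simp only [add_sub_cancel_right] at this
    tauto
  · have := (hnp (a1, a2 + 1)).2
    simp only [add_sub_cancel_right] at this
    tauto
  · have := (hnp (a1, a2)).1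
    tauto

theorem jp99_fill_out {F : Finset (ℤ × ℤ)}
    (hnp : ∀ v : ℤ × ℤ,
      ¬ (v ∈ F ∧ (v.1 - 1, v.2 - 1) ∈ F ∧ (v.1 - 1, v.2) ∉ F ∧ (v.1, v.2 - 1) ∉ F) ∧
      ¬ (v ∉ F ∧ (v.1 - 1, v.2 - 1) ∉ F ∧ (v.1 - 1, v.2) ∈ F ∧ (v.1, v.2 - 1) ∈ F))
    (a b : ℤ × ℤ) (ha : a ∉ F) (hb : b ∉ F) (c1 : b.1 = a.1 + 1 ∨ b.1 = a.1 - 1) (c2 : b.2 = a.2 + 1 ∨ b.2 = a.2 - 1) :
    (a.1, b.2) ∉ F ∨ (b.1, a.2) ∉ F := by
  obtain ⟨a1, a2⟩ := a
  obtain ⟨b1, b2⟩ := b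
  simp only at c1 c2 ⊢
  rcases c1 with rfl | rfl <;> rcases c2 with rfl | rfl
  · have := (hnp (a1 + 1, a2 + 1)).2
    simp only [add_sub_cancel_right] at this
    tauto
  · have := (hnp (a1 + 1, a2)).1
    simp only [add_sub_cancel_right] at this
    tauto
  · have := (hnp (a1, a2 + 1)).1
    simp only [add_sub_cancel_right] at this
    tauto
  · have := (hnp (a1, a2)).2
    tauto

/-! ### 6. the polyomino -/

/-- a finite set of faces whose region has a simple closed curve as frontier is a simply connected polyomino -/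
theorem jp99_poly_of_curve {d : ℝ} (hd : 0 < d) (F : Finset (ℤ × ℤ)) {γ : Circle → ℝ × ℝ} (hγc : Continuous γ)
    (hγi : Function.Injective γ) (hγr : range γ = frontier (faceRegionSq d F)) : JdPoly F := by
  have hconn : IsPreconnected (frontier (faceRegionSq d F)) := by
    rw [← hγr]; exact isPreconnected_range hγc
  have hnp := jp99_nopinch hd F hγc hγi hγr
  refine ⟨?_, ?_, ?_, hnp⟩
  · by_contra hne
    rw [Finset.not_nonempty_iff_eq_empty] at hne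
    have : frontier (faceRegionSq d F) = ∅ := by
      rw [hne]; simp [faceRegionSq]
    rw [this] at hγr
    exact (range_nonempty γ).ne_empty hγr
  · intro f g hf hg
    refine jp99_F_conn hd F hconn {w | Relation.ReflTransGen (fun a b => jdAdj a b ∧ b ∈ F) f w} f hf
      Relation.ReflTransGen.refl ?_ g hg
    intro a b ha hb hab haS
    exact Relation.ReflTransGen.trans haS (jp99_step (· ∈ F) (jp99_fill_in hnp) hab ha hb)
  · intro f g hf hg
    refine at30_compl_conn hd F hconn {w | Relation.ReflTransGen (fun a b => jdAdj a b ∧ b ∉ F) f w} f hf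
      Relation.ReflTransGen.refl ?_ g hg
    intro a b ha hb hab haS
    exact Relation.ReflTransGen.trans haS (jp99_step (· ∉ F) (jp99_fill_out hnp) hab ha hb)

/-- **J2** (the statement of `exit_jordan_poly`). -/
theorem jp99_poly {D : Set (ℝ × ℝ)} {δ : ℕ → ℝ} {F : ℕ → Finset (ℤ × ℤ)} (h : IsAdmissibleApprox D δ F) (n : ℕ) :
    JdPoly (F n) := by
  obtain ⟨hpos, -, -, γ, γs, -, -, -, hγs, -⟩ := h
  obtain ⟨hc, hi, hr⟩ := hγs n
  exact jp99_poly_of_curve (hpos n) (F n) hc hi hr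

end Claimed.Agent.R292
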