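import Mathlib
import Claimed.Agent.R292.Height

/-!
# Row 292 (S0540), unit JORDAN : THE WALL OF AN ADMISSIBLE APPROXIMATION      (owner helper299; prefix `jw299_`, defs `jw299*`)      0 sorry

No Jordan curve theorem, no winding number: only the CONNECTEDNESS of the frontier of the polygonal region and the uniform
convergence of the boundary curves are used.
* `jw299Edge F v w`      oriented wall edge: `w = v + (1,0)` or `w = v + (0,1)` and exactly one of the two faces along the edge is in `F`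
* `jw299Adj F`           its symmetrisation;  `jw299Seg δ v w` the closed segment
* `jw299_edge_wall`      both ends of a wall edge are corners of `F` and `OnPolygon`
* **`jw299_frontier`**   `frontier (faceRegionSq δ F) = ⋃ wall edges, segment`
* **`jw299_conn`**       frontier preconnected ⟹ any two frontier points lie on wall edges joined by a chain of wall edges
* **`jw299_cross`**      `∃ R₀ > 0, ∀ r > 0, ∀ᶠ n, ∀ p ∈ frontier D` : a chain of wall edges from within `r` of `p` to distance `≥ R₀` of `p`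
* `jw299_inner`          corners in a compact `K ⊆ D` are eventually interior corners; `jw299_clear` : the wall keeps a fixed distance from `K`
* `jw299_bdd`            all corners of all `F n` lie in one bounded box
-/

set_option autoImplicit false
open Claims Claims.C0468 Set Topology Filter

namespace Claimed.Agent.R292

/-- oriented wall edge -/
def jw299Edge (F : Finset (ℤ × ℤ)) (v w : ℤ × ℤ) : Prop :=
  (w = (v.1 + 1, v.2) ∧ ((v ∈ F ∧ (v.1, v.2 - 1) ∉ F) ∨ (v ∉ F ∧ (v.1, v.2 - 1) ∈ F))) ∨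
  (w = (v.1, v.2 + 1) ∧ ((v ∈ F ∧ (v.1 - 1, v.2) ∉ F) ∨ (v ∉ F ∧ (v.1 - 1, v.2) ∈ F)))

/-- wall adjacency of corners -/
def jw299Adj (F : Finset (ℤ × ℤ)) (v w : ℤ × ℤ) : Prop := jw299Edge F v w ∨ jw299Edge F w v

theorem jw299_adj_symm {F : Finset (ℤ × ℤ)} {v w : ℤ × ℤ} (h : jw299Adj F v w) : jw299Adj F w v := h.symm

/-- the closed segment (box) between two corners `v ≤ w` -/
def jw299Seg (δ : ℝ) (v w : ℤ × ℤ) : Set (ℝ × ℝ) :=
  Set.Icc (δ * v.1) (δ * w.1) ×ˢ Set.Icc (δ * v.2) (δ * w.2)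

theorem jw299_mem_seg (δ : ℝ) (v w : ℤ × ℤ) (x : ℝ × ℝ) :
    x ∈ jw299Seg δ v w ↔ (δ * v.1 ≤ x.1 ∧ x.1 ≤ δ * w.1) ∧ (δ * v.2 ≤ x.2 ∧ x.2 ≤ δ * w.2) := by
  simp only [jw299Seg, Set.mem_prod, Set.mem_Icc]

theorem jw299_seg_closed (δ : ℝ) (v w : ℤ × ℤ) : IsClosed (jw299Seg δ v w) :=
  isClosed_Icc.prod isClosed_Icc

/-- the position of a corner -/
def jw299Pos (δ : ℝ) (v : ℤ × ℤ) : ℝ × ℝ := (δ * v.1, δ * v.2)

/-- a wall edge is a nearest neighbour edge -/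
theorem jw299_edge_unit {F : Finset (ℤ × ℤ)} {v w : ℤ × ℤ} (h : jw299Edge F v w) :
    w = (v.1 + 1, v.2) ∨ w = (v.1, v.2 + 1) := by
  rcases h with ⟨h, _⟩ | ⟨h, _⟩
  · exact Or.inl h
  · exact Or.inr h

/-- the two faces along a wall edge -/
theorem jw299_edge_faces {F : Finset (ℤ × ℤ)} {v w : ℤ × ℤ} (h : jw299Edge F v w) :
    ∃ f g : ℤ × ℤ, f ∈ F ∧ g ∉ F ∧ at92hCor f v ∧ at92hCor f w ∧ at92hCor g v ∧ at92hCor g w := by
  obtain ⟨a, b⟩ := v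
  rcases h with ⟨rfl, ⟨h1, h2⟩ | ⟨h1, h2⟩⟩ | ⟨rfl, ⟨h1, h2⟩ | ⟨h1, h2⟩⟩
  · exact ⟨_, _, h1, h2, by simp [at92hCor], by simp [at92hCor], by simp [at92hCor], by simp [at92hCor]⟩
  · exact ⟨_, _, h2, h1, by simp [at92hCor], by simp [at92hCor], by simp [at92hCor], by simp [at92hCor]⟩
  · exact ⟨_, _, h1, h2, by simp [at92hCor], by simp [at92hCor], by simp [at92hCor], by simp [at92hCor]⟩
  · exact ⟨_, _, h2, h1, by simp [at92hCor], by simp [at92hCor], by simp [at92hCor], by simp [at92hCor]⟩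

/-- both ends of a wall edge are corners of `F` on the polygon -/
theorem jw299_edge_wall {F : Finset (ℤ × ℤ)} {v w : ℤ × ℤ} (h : jw299Edge F v w) :
    (v ∈ cornersOf F ∧ OnPolygon F v) ∧ (w ∈ cornersOf F ∧ OnPolygon F w) := by
  obtain ⟨f, g, hf, hg, h1, h2, h3, h4⟩ := jw299_edge_faces h
  exact ⟨⟨at92h_mem_corners.2 ⟨f, hf, h1⟩, at92h_onPolygon hg h3⟩,
    ⟨at92h_mem_corners.2 ⟨f, hf, h2⟩, at92h_onPolygon hg h4⟩⟩

theorem jw299_adj_wall {F : Finset (ℤ × ℤ)} {v w : ℤ × ℤ} (h : jw299Adj F v w) :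
    (v ∈ cornersOf F ∧ OnPolygon F v) ∧ (w ∈ cornersOf F ∧ OnPolygon F w) := by
  rcases h with h | h
  · exact jw299_edge_wall h
  · exact (jw299_edge_wall h).symm

/-- a chain of wall edges stays on the wall -/
theorem jw299_chain_wall {F : Finset (ℤ × ℤ)} {v w : ℤ × ℤ} (hv : v ∈ cornersOf F ∧ OnPolygon F v)
    (h : Relation.ReflTransGen (jw299Adj F) v w) : w ∈ cornersOf F ∧ OnPolygon F w := by
  induction h with
  | refl => exact hv
  | tail _ h2 _ => exact (jw299_adj_wall h2).2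

theorem jw299_int_le {δ : ℝ} (hδ : 0 < δ) {m n : ℤ} {y : ℝ} (h1 : δ * m ≤ y) (h2 : y ≤ δ * n) : m ≤ n := by
  have : (m : ℝ) ≤ n := le_of_mul_le_mul_left (h1.trans h2) hδ
  exact_mod_cast this

/-- a point of the segment of a wall edge lies in the squares of both faces -/
theorem jw299_seg_sq {δ : ℝ} (hδ : 0 < δ) {v w f : ℤ × ℤ} {x : ℝ × ℝ} (hx : x ∈ jw299Seg δ v w)
    (h1 : at92hCor f v) (h2 : at92hCor f w) : x ∈ at92hSq δ f := by
  rw [jw299_mem_seg] at hx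
  rw [at92h_mem_sq]
  obtain ⟨⟨a1, a2⟩, a3, a4⟩ := hx
  obtain ⟨p1, p2⟩ := h1
  obtain ⟨q1, q2⟩ := h2
  have c1 : (f.1 : ℝ) ≤ v.1 := by exact_mod_cast (by omega : f.1 ≤ v.1)
  have c2 : (w.1 : ℝ) ≤ f.1 + 1 := by exact_mod_cast (by omega : w.1 ≤ f.1 + 1)
  have c3 : (f.2 : ℝ) ≤ v.2 := by exact_mod_cast (by omega : f.2 ≤ v.2)
  have c4 : (w.2 : ℝ) ≤ f.2 + 1 := by exact_mod_cast (by omega : w.2 ≤ f.2 + 1)
  refine ⟨⟨?_, ?_⟩, ?_, ?_⟩
  · exact (mul_le_mul_of_nonneg_left c1 hδ.le).trans a1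
  · exact a2.trans (mul_le_mul_of_nonneg_left c2 hδ.le)
  · exact (mul_le_mul_of_nonneg_left c3 hδ.le).trans a3
  · exact a4.trans (mul_le_mul_of_nonneg_left c4 hδ.le)

/-- the region lies in the union of the squares of `F` -/
theorem jw299_region_sub {δ : ℝ} (hδ : 0 < δ) (F : Finset (ℤ × ℤ)) :
    faceRegionSq δ F ⊆ at92hK δ (F : Set (ℤ × ℤ)) := by
  intro y hy
  obtain ⟨f, hf⟩ := at92h_cover hδ y
  rw [at92h_region hδ] at hy
  exact ⟨f, hy f hf, hf⟩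

/-- the squares of `F` lie in the closure of the region -/
theorem jw299_sq_closure {δ : ℝ} (hδ : 0 < δ) {F : Finset (ℤ × ℤ)} {f : ℤ × ℤ} (hf : f ∈ F) :
    at92hSq δ f ⊆ closure (faceRegionSq δ F) := by
  intro x hx
  rw [Metric.mem_closure_iff]
  intro ε hε
  obtain ⟨y, hy1, _, hy3⟩ := at92h_approach hδ hx hε
  refine ⟨y, ?_, by rw [dist_comm]; exact hy1⟩
  rw [at92h_region hδ]
  intro g hg
  rw [hy3 g hg]; exact hf

/-- a frontier point lies in a square of `F` and in a square outside `F` -/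
theorem jw299_frontier_iff {δ : ℝ} (hδ : 0 < δ) (F : Finset (ℤ × ℤ)) (x : ℝ × ℝ) :
    x ∈ frontier (faceRegionSq δ F) ↔ (∃ f ∈ F, x ∈ at92hSq δ f) ∧ ∃ g, g ∉ F ∧ x ∈ at92hSq δ g := by
  have hopen : IsOpen (faceRegionSq δ F) := isOpen_interior
  rw [hopen.frontier_eq]
  constructor
  · rintro ⟨h1, h2⟩
    constructor
    · have := closure_minimal (jw299_region_sub hδ F) (at92h_K_closed hδ _) h1
      obtain ⟨f, hf, hx⟩ := this
      exact ⟨f, hf, hx⟩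
    · rw [at92h_region hδ] at h2
      simp only [mem_ofPred_eq, not_forall] at h2
      obtain ⟨g, hg, hgF⟩ := h2
      exact ⟨g, hgF, hg⟩
  · rintro ⟨⟨f, hf, hx⟩, g, hg, hxg⟩
    refine ⟨jw299_sq_closure hδ hf hx, ?_⟩
    rw [at92h_region hδ]
    intro h
    exact hg (h g hxg)

/-- **every frontier point lies on a wall edge** -/
theorem jw299_frontier_cover {δ : ℝ} (hδ : 0 < δ) (F : Finset (ℤ × ℤ)) {x : ℝ × ℝ}
    (hx : x ∈ frontier (faceRegionSq δ F)) : ∃ v w, jw299Edge F v w ∧ x ∈ jw299Seg δ v w := by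
  obtain ⟨⟨f, hf, hxf⟩, g, hg, hxg⟩ := (jw299_frontier_iff hδ F x).1 hx
  have hadj := at92h_adj_of_mem hδ hxf hxg
  obtain ⟨f1, f2⟩ := f
  obtain ⟨g1, g2⟩ := g
  rw [at92h_mem_sq] at hxf hxg
  simp only [at92hAdj, abs_le] at hadj
  simp only at hxf hxg
  obtain ⟨⟨a1, a2⟩, a3, a4⟩ := hxf
  obtain ⟨⟨b1, b2⟩, b3, b4⟩ := hxg
  by_cases hh : (g1, f2) ∈ F
  · have hne : f2 ≠ g2 := by rintro rfl; exact hg hh
    have hcase : g2 = f2 + 1 ∨ g2 = f2 - 1 := by omega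
    rcases hcase with rfl | rfl
    · refine ⟨(g1, f2 + 1), (g1 + 1, f2 + 1), Or.inl ⟨rfl, Or.inr ⟨hg, by simpa using hh⟩⟩, ?_⟩
      rw [jw299_mem_seg]
      push_cast at b1 b2 b3 b4 ⊢
      exact ⟨⟨b1, b2⟩, b3, a4⟩
    · refine ⟨(g1, f2), (g1 + 1, f2), Or.inl ⟨rfl, Or.inl ⟨hh, hg⟩⟩, ?_⟩
      rw [jw299_mem_seg]
      push_cast at b1 b2 b3 b4 ⊢
      exact ⟨⟨b1, b2⟩, a3, by linarith⟩
  · have hne : f1 ≠ g1 := by rintro rfl; exact hh hf
    have hcase : g1 = f1 + 1 ∨ g1 = f1 - 1 := by omega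
    rcases hcase with rfl | rfl
    · refine ⟨(f1 + 1, f2), (f1 + 1, f2 + 1), Or.inr ⟨rfl, Or.inr ⟨hh, by simpa using hf⟩⟩, ?_⟩
      rw [jw299_mem_seg]
      push_cast at b1 b2 b3 b4 ⊢
      exact ⟨⟨b1, a2⟩, a3, a4⟩
    · refine ⟨(f1, f2), (f1, f2 + 1), Or.inr ⟨rfl, Or.inl ⟨hf, hh⟩⟩, ?_⟩
      rw [jw299_mem_seg]
      push_cast at b1 b2 b3 b4 ⊢
      exact ⟨⟨a1, by linarith⟩, a3, a4⟩

/-- the segment of a wall edge lies in the frontier -/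
theorem jw299_seg_frontier {δ : ℝ} (hδ : 0 < δ) {F : Finset (ℤ × ℤ)} {v w : ℤ × ℤ} (h : jw299Edge F v w) :
    jw299Seg δ v w ⊆ frontier (faceRegionSq δ F) := by
  intro x hx
  obtain ⟨f, g, hf, hg, h1, h2, h3, h4⟩ := jw299_edge_faces h
  exact (jw299_frontier_iff hδ F x).2 ⟨⟨f, hf, jw299_seg_sq hδ hx h1 h2⟩, g, hg, jw299_seg_sq hδ hx h3 h4⟩

/-- **the frontier of the region is the union of the wall edges** -/
theorem jw299_frontier {δ : ℝ} (hδ : 0 < δ) (F : Finset (ℤ × ℤ)) :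
    frontier (faceRegionSq δ F) = {x | ∃ v w, jw299Edge F v w ∧ x ∈ jw299Seg δ v w} := by
  ext x
  constructor
  · exact jw299_frontier_cover hδ F
  · rintro ⟨v, w, h, hx⟩
    exact jw299_seg_frontier hδ h hx

/-- the ends of a wall edge lie on its segment -/
theorem jw299_pos_mem_seg {δ : ℝ} (hδ : 0 < δ) {v w : ℤ × ℤ} (h : w = (v.1 + 1, v.2) ∨ w = (v.1, v.2 + 1)) :
    jw299Pos δ v ∈ jw299Seg δ v w ∧ jw299Pos δ w ∈ jw299Seg δ v w := by
  simp only [jw299_mem_seg, jw299Pos]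
  rcases h with rfl | rfl <;> push_cast <;> refine ⟨⟨⟨?_, ?_⟩, ?_, ?_⟩, ⟨?_, ?_⟩, ?_, ?_⟩ <;> nlinarith

/-- two nearest neighbour edges with a common point have a common end -/
theorem jw299_seg_inter {δ : ℝ} (hδ : 0 < δ) {v w v' w' : ℤ × ℤ} {x : ℝ × ℝ}
    (h : w = (v.1 + 1, v.2) ∨ w = (v.1, v.2 + 1)) (h' : w' = (v'.1 + 1, v'.2) ∨ w' = (v'.1, v'.2 + 1))
    (hx : x ∈ jw299Seg δ v w) (hx' : x ∈ jw299Seg δ v' w') : v = v' ∨ v = w' ∨ w = v' ∨ w = w' := by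
  rw [jw299_mem_seg] at hx hx'
  obtain ⟨⟨a1, a2⟩, a3, a4⟩ := hx
  obtain ⟨⟨b1, b2⟩, b3, b4⟩ := hx'
  have c1 := jw299_int_le hδ a1 b2
  have c2 := jw299_int_le hδ b1 a2
  have c3 := jw299_int_le hδ a3 b4
  have c4 := jw299_int_le hδ b3 a4
  obtain ⟨p, q⟩ := v
  obtain ⟨p', q'⟩ := v'
  rcases h with rfl | rfl <;> rcases h' with rfl | rfl <;> simp only [Prod.mk.injEq] at * <;> omega

/-- **connectedness of the wall** -/
theorem jw299_conn {δ : ℝ} (hδ : 0 < δ) (F : Finset (ℤ × ℤ))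
    (hfr : IsPreconnected (frontier (faceRegionSq δ F))) {x₀ x₁ : ℝ × ℝ} {v₀ w₀ : ℤ × ℤ}
    (h₀ : jw299Edge F v₀ w₀) (hx₀ : x₀ ∈ jw299Seg δ v₀ w₀) (hx₁ : x₁ ∈ frontier (faceRegionSq δ F)) :
    ∃ v₁ w₁, jw299Edge F v₁ w₁ ∧ x₁ ∈ jw299Seg δ v₁ w₁ ∧ Relation.ReflTransGen (jw299Adj F) v₀ v₁ := by
  classical
  set C : Set (ℤ × ℤ) := {v | Relation.ReflTransGen (jw299Adj F) v₀ v} with hC
  set I : Set ((ℤ × ℤ) × (ℤ × ℤ)) := {p | jw299Edge F p.1 p.2 ∧ p.1 ∈ C} with hI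
  set I' : Set ((ℤ × ℤ) × (ℤ × ℤ)) := {p | jw299Edge F p.1 p.2 ∧ p.1 ∉ C} with hI'
  have hfin : ∀ J : Set ((ℤ × ℤ) × (ℤ × ℤ)), (∀ p ∈ J, jw299Edge F p.1 p.2) → J.Finite := by
    intro J hJ
    refine (Finset.finite_toSet (cornersOf F ×ˢ cornersOf F)).subset fun p hp => ?_
    have := jw299_edge_wall (hJ p hp)
    simp only [Finset.coe_product, Set.mem_prod, Finset.mem_coe]
    exact ⟨this.1.1, this.2.1⟩
  set T : Set (ℝ × ℝ) := ⋃ p ∈ I, jw299Seg δ p.1 p.2 with hT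
  set T' : Set (ℝ × ℝ) := ⋃ p ∈ I', jw299Seg δ p.1 p.2 with hT'
  have hTc : IsClosed T := (hfin I fun p hp => hp.1).isClosed_biUnion fun p _ => jw299_seg_closed δ _ _
  have hTc' : IsClosed T' := (hfin I' fun p hp => hp.1).isClosed_biUnion fun p _ => jw299_seg_closed δ _ _
  have hstep : ∀ a b, a ∈ C → jw299Adj F a b → b ∈ C := fun a b ha hab => Relation.ReflTransGen.tail ha hab
  have hdisj : ∀ x, x ∈ T → x ∈ T' → False := by
    intro x hx hx'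
    simp only [hT, hT', mem_iUnion, exists_prop] at hx hx'
    obtain ⟨⟨v, w⟩, ⟨he, hv⟩, hxs⟩ := hx
    obtain ⟨⟨v', w'⟩, ⟨he', hv'⟩, hxs'⟩ := hx'
    simp only at he hv hxs he' hv' hxs'
    rcases jw299_seg_inter hδ (jw299_edge_unit he) (jw299_edge_unit he') hxs hxs' with h | h | h | h
    · exact hv' (h ▸ hv)
    · exact hv' (hstep w' v' (h ▸ hv) (Or.inr he'))
    · exact hv' (h ▸ hstep v w hv (Or.inl he))
    · exact hv' (hstep w' v' (h ▸ hstep v w hv (Or.inl he)) (Or.inr he'))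
  have hcov : frontier (faceRegionSq δ F) ⊆ T ∪ T' := by
    intro x hx
    obtain ⟨v, w, he, hxs⟩ := jw299_frontier_cover hδ F hx
    by_cases hv : v ∈ C
    · left
      simp only [hT, mem_iUnion, exists_prop]
      exact ⟨(v, w), ⟨he, hv⟩, hxs⟩
    · right
      simp only [hT', mem_iUnion, exists_prop]
      exact ⟨(v, w), ⟨he, hv⟩, hxs⟩
  have hx₀T : x₀ ∈ T := by
    simp only [hT, mem_iUnion, exists_prop]
    exact ⟨(v₀, w₀), ⟨h₀, Relation.ReflTransGen.refl⟩, hx₀⟩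
  have hx₁T : x₁ ∈ T := by
    rcases hcov hx₁ with h | h
    · exact h
    · exfalso
      obtain ⟨x, _, hxT, hxT'⟩ := (isPreconnected_closed_iff.1 hfr) T T' hTc hTc' hcov
        ⟨x₀, jw299_seg_frontier hδ h₀ hx₀, hx₀T⟩ ⟨x₁, hx₁, h⟩
      exact hdisj x hxT hxT'
  simp only [hT, mem_iUnion, exists_prop] at hx₁T
  obtain ⟨⟨v, w⟩, ⟨he, hv⟩, hxs⟩ := hx₁T
  exact ⟨v, w, he, hxs, hv⟩

/-! ### metric lemmas (the sup metric of `ℝ × ℝ`) -/

theorem jw299_dist_lt_of_sq {a b : ℝ × ℝ} {ε : ℝ} (hε : 0 < ε)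
    (h : (a.1 - b.1) ^ 2 + (a.2 - b.2) ^ 2 < ε ^ 2) : dist a b < ε := by
  rw [Prod.dist_eq, max_lt_iff, Real.dist_eq, Real.dist_eq]
  constructor
  · exact abs_lt_of_sq_lt_sq (by nlinarith [sq_nonneg (a.2 - b.2)]) hε.le
  · exact abs_lt_of_sq_lt_sq (by nlinarith [sq_nonneg (a.1 - b.1)]) hε.le

theorem jw299_sq_lt_of_dist {a b : ℝ × ℝ} {ε : ℝ} (h : dist a b < ε / 2) :
    (a.1 - b.1) ^ 2 + (a.2 - b.2) ^ 2 < ε ^ 2 := by
  rw [Prod.dist_eq, max_lt_iff, Real.dist_eq, Real.dist_eq] at h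
  obtain ⟨h1, h2⟩ := h
  have hε : 0 < ε := by linarith [abs_nonneg (a.1 - b.1)]
  have k1 : (a.1 - b.1) ^ 2 < (ε / 2) ^ 2 := sq_lt_sq' (by linarith [(abs_lt.1 h1).1]) (abs_lt.1 h1).2
  have k2 : (a.2 - b.2) ^ 2 < (ε / 2) ^ 2 := sq_lt_sq' (by linarith [(abs_lt.1 h2).1]) (abs_lt.1 h2).2
  nlinarith

theorem jw299_sq_le_of_dist {a b : ℝ × ℝ} {R : ℝ} (hR : 0 ≤ R) (h : R ≤ dist a b) :
    R ^ 2 ≤ (a.1 - b.1) ^ 2 + (a.2 - b.2) ^ 2 := by
  rw [Prod.dist_eq, le_max_iff, Real.dist_eq, Real.dist_eq] at h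
  rcases h with h | h
  · have : R ^ 2 ≤ |a.1 - b.1| ^ 2 := by gcongr
    rw [sq_abs] at this
    nlinarith [sq_nonneg (a.2 - b.2)]
  · have : R ^ 2 ≤ |a.2 - b.2| ^ 2 := by gcongr
    rw [sq_abs] at this
    nlinarith [sq_nonneg (a.1 - b.1)]

/-- a point of a nearest neighbour edge is within `δ` of its first end -/
theorem jw299_dist_pos_le {δ : ℝ} (hδ : 0 < δ) {v w : ℤ × ℤ} {x : ℝ × ℝ}
    (h : w = (v.1 + 1, v.2) ∨ w = (v.1, v.2 + 1)) (hx : x ∈ jw299Seg δ v w) : dist (jw299Pos δ v) x ≤ δ := by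
  rw [jw299_mem_seg] at hx
  obtain ⟨⟨a1, a2⟩, a3, a4⟩ := hx
  rw [Prod.dist_eq, max_le_iff, Real.dist_eq, Real.dist_eq]
  simp only [jw299Pos]
  rcases h with rfl | rfl <;> push_cast at a2 a4 <;> constructor <;> rw [abs_le] <;> constructor <;> nlinarith

/-- the position of a corner lies in the squares of its four faces -/
theorem jw299_pos_mem_sq {δ : ℝ} (hδ : 0 < δ) {f v : ℤ × ℤ} (h : at92hCor f v) : jw299Pos δ v ∈ at92hSq δ f := by
  rw [at92h_mem_sq]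
  obtain ⟨h1, h2⟩ := h
  simp only [jw299Pos]
  have c1 : (f.1 : ℝ) ≤ v.1 := by exact_mod_cast (by omega : f.1 ≤ v.1)
  have c2 : (v.1 : ℝ) ≤ f.1 + 1 := by exact_mod_cast (by omega : v.1 ≤ f.1 + 1)
  have c3 : (f.2 : ℝ) ≤ v.2 := by exact_mod_cast (by omega : f.2 ≤ v.2)
  have c4 : (v.2 : ℝ) ≤ f.2 + 1 := by exact_mod_cast (by omega : v.2 ≤ f.2 + 1)
  exact ⟨⟨mul_le_mul_of_nonneg_left c1 hδ.le, mul_le_mul_of_nonneg_left c2 hδ.le⟩,
    mul_le_mul_of_nonneg_left c3 hδ.le, mul_le_mul_of_nonneg_left c4 hδ.le⟩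

/-- a polygon corner is not in the region -/
theorem jw299_pos_not_mem {δ : ℝ} (hδ : 0 < δ) {F : Finset (ℤ × ℤ)} {v : ℤ × ℤ} (hv : OnPolygon F v) :
    jw299Pos δ v ∉ faceRegionSq δ F := by
  obtain ⟨f, hf, hc⟩ := at92h_exists_ext hv
  rw [at92h_region hδ]
  intro h
  exact hf (h f (jw299_pos_mem_sq hδ hc))

/-- a corner whose position is in the region is an interior corner -/
theorem jw299_inner_of_mem {δ : ℝ} (hδ : 0 < δ) {F : Finset (ℤ × ℤ)} {v : ℤ × ℤ}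
    (hv : jw299Pos δ v ∈ faceRegionSq δ F) : v ∈ cornersOf F ∧ ¬ OnPolygon F v := by
  refine ⟨?_, fun h => jw299_pos_not_mem hδ h hv⟩
  rw [at92h_region hδ] at hv
  exact at92h_self_mem_corners (hv v (jw299_pos_mem_sq hδ (by simp [at92hCor])))

theorem jw299_circle_pair : ∃ z₁ z₂ : Circle, z₁ ≠ z₂ := by
  refine ⟨Circle.exp Real.pi, 1, ?_⟩
  intro h
  have := congrArg (fun z : Circle => (z : ℂ)) h
  simp [Circle.coe_exp] at this
  norm_num at this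

/-! ### the wall crosses every annulus centred on the frontier -/

/-- **THE WALL CROSSES.**  (sup metric) -/
theorem jw299_cross {D : Set (ℝ × ℝ)} {δ : ℕ → ℝ} {F : ℕ → Finset (ℤ × ℤ)} (happ : IsAdmissibleApprox D δ F) :
    ∃ R₀ : ℝ, 0 < R₀ ∧ ∀ r : ℝ, 0 < r → ∀ᶠ n in atTop, ∀ p ∈ frontier D,
      ∃ v w : ℤ × ℤ, (v ∈ cornersOf (F n) ∧ OnPolygon (F n) v) ∧
        Relation.ReflTransGen (jw299Adj (F n)) v w ∧
        dist (jw299Pos (δ n) v) p < r ∧ R₀ ≤ dist (jw299Pos (δ n) w) p := by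
  obtain ⟨hδ, hδ0, -, γ, γs, -, hγi, hγr, hγs, hunif⟩ := happ
  obtain ⟨z₁, z₂, hz⟩ := jw299_circle_pair
  have hd₀ : 0 < dist (γ z₁) (γ z₂) := dist_pos.2 fun h => hz (hγi h)
  set d₀ := dist (γ z₁) (γ z₂) with hd
  refine ⟨d₀ / 4, by positivity, fun r hr => ?_⟩
  set ε := min (r / 2) (d₀ / 8) with hε
  have hε0 : 0 < ε := lt_min (by positivity) (by positivity)
  have e1 : ∀ᶠ n in atTop, δ n < ε := hδ0.eventually (Iio_mem_nhds hε0)
  filter_upwards [e1, hunif ε hε0] with n hn1 hn2 p hp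
  have hfr : IsPreconnected (frontier (faceRegionSq (δ n) (F n))) := by
    rw [← (hγs n).2.2]; exact isPreconnected_range (hγs n).1
  have hmem : ∀ z, γs n z ∈ frontier (faceRegionSq (δ n) (F n)) := fun z => by
    rw [← (hγs n).2.2]; exact mem_range_self z
  have hclose : ∀ z, dist (γs n z) (γ z) < ε := fun z => jw299_dist_lt_of_sq hε0 (hn2 z)
  rw [← hγr] at hp
  obtain ⟨z, rfl⟩ := hp
  obtain ⟨v₀, w₀, he₀, hx₀⟩ := jw299_frontier_cover (hδ n) (F n) (hmem z)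
  have hfar : ∃ z', d₀ / 2 ≤ dist (γ z') (γ z) := by
    by_contra hcon
    push Not at hcon
    have h1 := hcon z₁
    have h2 := hcon z₂
    have h3 : d₀ ≤ dist (γ z₁) (γ z) + dist (γ z) (γ z₂) := dist_triangle _ _ _
    rw [dist_comm (γ z) (γ z₂)] at h3
    linarith
  obtain ⟨z', hz'⟩ := hfar
  obtain ⟨v₁, w₁, he₁, hx₁, hch⟩ := jw299_conn (hδ n) (F n) hfr he₀ hx₀ (hmem z')
  refine ⟨v₀, v₁, (jw299_edge_wall he₀).1, hch, ?_, ?_⟩
  · have a1 := jw299_dist_pos_le (hδ n) (jw299_edge_unit he₀) hx₀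
    have a2 := hclose z
    have a3 : dist (jw299Pos (δ n) v₀) (γ z) ≤ dist (jw299Pos (δ n) v₀) (γs n z) + dist (γs n z) (γ z) :=
      dist_triangle _ _ _
    have a4 : ε ≤ r / 2 := min_le_left _ _
    linarith
  · have a1 := jw299_dist_pos_le (hδ n) (jw299_edge_unit he₁) hx₁
    have a2 := hclose z'
    have a3 : dist (γ z') (γ z) ≤ dist (γ z') (γs n z') + dist (γs n z') (jw299Pos (δ n) v₁)
        + dist (jw299Pos (δ n) v₁) (γ z) := dist_triangle4 _ _ _ _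
    rw [dist_comm (γ z') (γs n z'), dist_comm (γs n z') (jw299Pos (δ n) v₁)] at a3
    have a4 : ε ≤ d₀ / 8 := min_le_right _ _
    linarith

/-- **THE WALL CROSSES.**  (Euclidean squares) -/
theorem jw299_cross_sq {D : Set (ℝ × ℝ)} {δ : ℕ → ℝ} {F : ℕ → Finset (ℤ × ℤ)} (happ : IsAdmissibleApprox D δ F) :
    ∃ R₀ : ℝ, 0 < R₀ ∧ ∀ r : ℝ, 0 < r → ∀ᶠ n in atTop, ∀ p ∈ frontier D,
      ∃ v w : ℤ × ℤ, (v ∈ cornersOf (F n) ∧ OnPolygon (F n) v) ∧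
        Relation.ReflTransGen (jw299Adj (F n)) v w ∧
        (δ n * v.1 - p.1) ^ 2 + (δ n * v.2 - p.2) ^ 2 < r ^ 2 ∧
        R₀ ^ 2 ≤ (δ n * w.1 - p.1) ^ 2 + (δ n * w.2 - p.2) ^ 2 := by
  obtain ⟨R₀, hR₀, H⟩ := jw299_cross happ
  refine ⟨R₀, hR₀, fun r hr => ?_⟩
  filter_upwards [H (r / 2) (by positivity)] with n hn p hp
  obtain ⟨v, w, h1, h2, h3, h4⟩ := hn p hp
  exact ⟨v, w, h1, h2, jw299_sq_lt_of_dist h3, jw299_sq_le_of_dist hR₀.le h4⟩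

/-! ### compact subsets of `D` -/

/-- corners in a compact subset of `D` are eventually interior corners -/
theorem jw299_inner {D : Set (ℝ × ℝ)} {δ : ℕ → ℝ} {F : ℕ → Finset (ℤ × ℤ)} (happ : IsAdmissibleApprox D δ F)
    {K : Set (ℝ × ℝ)} (hK : IsCompact K) (hKD : K ⊆ D) :
    ∀ᶠ n in atTop, ∀ v : ℤ × ℤ, jw299Pos (δ n) v ∈ K → v ∈ cornersOf (F n) ∧ ¬ OnPolygon (F n) v := by
  filter_upwards [happ.2.2.1 K hK hKD] with n hn v hv
  exact jw299_inner_of_mem (happ.1 n) (hn hv)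

/-- the wall keeps a fixed distance from a compact subset of `D` -/
theorem jw299_clear {D : Set (ℝ × ℝ)} {δ : ℕ → ℝ} {F : ℕ → Finset (ℤ × ℤ)} (happ : IsAdmissibleApprox D δ F)
    (hD : IsOpen D) {K : Set (ℝ × ℝ)} (hK : IsCompact K) (hKD : K ⊆ D) :
    ∃ ρ : ℝ, 0 < ρ ∧ ∀ᶠ n in atTop, ∀ v : ℤ × ℤ, OnPolygon (F n) v → ∀ y ∈ K, ρ < dist (jw299Pos (δ n) v) y := by
  obtain ⟨ρ, hρ, hsub⟩ := hK.exists_cthickening_subset_open hD hKD
  refine ⟨ρ, hρ, ?_⟩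
  filter_upwards [happ.2.2.1 _ hK.cthickening hsub] with n hn v hv y hy
  by_contra hcon
  rw [not_lt] at hcon
  exact jw299_pos_not_mem (happ.1 n) hv (hn (Metric.mem_cthickening_of_dist_le _ y ρ K hy hcon))

/-! ### one bounded box for all the approximations -/

theorem jw299_last {P : ℤ → Prop} (hfin : {i | P i}.Finite) {a : ℤ} (ha : P a) : ∃ i, a ≤ i ∧ P i ∧ ¬ P (i + 1) := by
  classical
  have hne : hfin.toFinset.Nonempty := ⟨a, by simpa using ha⟩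
  refine ⟨hfin.toFinset.max' hne, Finset.le_max' _ _ (by simpa using ha), ?_, fun h => ?_⟩
  · have := Finset.max'_mem _ hne
    simpa using this
  · have := Finset.le_max' hfin.toFinset _ (by simpa using h)
    omega

theorem jw299_first {P : ℤ → Prop} (hfin : {i | P i}.Finite) {a : ℤ} (ha : P a) : ∃ i, i ≤ a ∧ P i ∧ ¬ P (i - 1) := by
  classical
  have hne : hfin.toFinset.Nonempty := ⟨a, by simpa using ha⟩
  refine ⟨hfin.toFinset.min' hne, Finset.min'_le _ _ (by simpa using ha), ?_, fun h => ?_⟩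
  · have := Finset.min'_mem _ hne
    simpa using this
  · have := Finset.min'_le hfin.toFinset _ (by simpa using h)
    omega

theorem jw299_row_finite (F : Finset (ℤ × ℤ)) (b : ℤ) : {i : ℤ | (i, b) ∈ F}.Finite := by
  classical
  refine (Finset.finite_toSet (F.image Prod.fst)).subset fun i hi => ?_
  simp only [Finset.coe_image, Set.mem_image, Finset.mem_coe]
  exact ⟨(i, b), hi, rfl⟩

theorem jw299_col_finite (F : Finset (ℤ × ℤ)) (a : ℤ) : {j : ℤ | (a, j) ∈ F}.Finite := by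
  classical
  refine (Finset.finite_toSet (F.image Prod.snd)).subset fun j hj => ?_
  simp only [Finset.coe_image, Set.mem_image, Finset.mem_coe]
  exact ⟨(a, j), hj, rfl⟩

/-- every face of `F` is enclosed, in the four directions, by wall corners -/
theorem jw299_enclosed {F : Finset (ℤ × ℤ)} {f : ℤ × ℤ} (hf : f ∈ F) :
    (∃ v w, jw299Edge F v w ∧ f.1 + 1 ≤ v.1) ∧ (∃ v w, jw299Edge F v w ∧ v.1 ≤ f.1) ∧
    (∃ v w, jw299Edge F v w ∧ f.2 + 1 ≤ v.2) ∧ (∃ v w, jw299Edge F v w ∧ v.2 ≤ f.2) := by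
  obtain ⟨a, b⟩ := f
  refine ⟨?_, ?_, ?_, ?_⟩
  · obtain ⟨i, h1, h2, h3⟩ := jw299_last (jw299_row_finite F b) (a := a) hf
    exact ⟨(i + 1, b), (i + 1, b + 1), Or.inr ⟨rfl, Or.inr ⟨h3, by simpa using h2⟩⟩, by simpa using h1⟩
  · obtain ⟨i, h1, h2, h3⟩ := jw299_first (jw299_row_finite F b) (a := a) hf
    exact ⟨(i, b), (i, b + 1), Or.inr ⟨rfl, Or.inl ⟨h2, h3⟩⟩, h1⟩
  · obtain ⟨j, h1, h2, h3⟩ := jw299_last (jw299_col_finite F a) (a := b) hf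
    exact ⟨(a, j + 1), (a + 1, j + 1), Or.inl ⟨rfl, Or.inr ⟨h3, by simpa using h2⟩⟩, by simpa using h1⟩
  · obtain ⟨j, h1, h2, h3⟩ := jw299_first (jw299_col_finite F a) (a := b) hf
    exact ⟨(a, j), (a + 1, j), Or.inl ⟨rfl, Or.inl ⟨h2, h3⟩⟩, h1⟩

/-- **one bounded box**: eventually all corners of `F n` lie in the box of radius `R` -/
theorem jw299_bdd {D : Set (ℝ × ℝ)} {δ : ℕ → ℝ} {F : ℕ → Finset (ℤ × ℤ)} (happ : IsAdmissibleApprox D δ F) :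
    ∃ R : ℝ, 0 < R ∧ ∀ᶠ n in atTop, ∀ v ∈ cornersOf (F n), dist (jw299Pos (δ n) v) 0 ≤ R := by
  obtain ⟨hδ, -, -, γ, γs, hγc, -, -, hγs, hunif⟩ := happ
  obtain ⟨R, hR⟩ := (isCompact_range hγc).isBounded.subset_closedBall (0 : ℝ × ℝ)
  refine ⟨|R| + 1, by positivity, ?_⟩
  filter_upwards [hunif 1 one_pos] with n hn v hv
  have hwall : ∀ a b, jw299Edge (F n) a b → dist (jw299Pos (δ n) a) 0 ≤ |R| + 1 := by
    intro a b hab
    have h1 := jw299_seg_frontier (hδ n) hab (jw299_pos_mem_seg (hδ n) (jw299_edge_unit hab)).1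
    rw [← (hγs n).2.2] at h1
    obtain ⟨z, hz⟩ := h1
    have h2 := jw299_dist_lt_of_sq one_pos (hn z)
    have h3 : dist (γ z) 0 ≤ R := Metric.mem_closedBall.1 (hR (mem_range_self z))
    have h4 : dist (jw299Pos (δ n) a) 0 ≤ dist (γs n z) (γ z) + dist (γ z) 0 := by
      rw [← hz]; exact dist_triangle _ _ _
    linarith [le_abs_self R]
  obtain ⟨f, hf, hc1, hc2⟩ := at92h_mem_corners.1 hv
  obtain ⟨⟨v1, w1, e1, k1⟩, ⟨v2, w2, e2, k2⟩, ⟨v3, w3, e3, k3⟩, ⟨v4, w4, e4, k4⟩⟩ := jw299_enclosed hf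
  have b1 := hwall _ _ e1
  have b2 := hwall _ _ e2
  have b3 := hwall _ _ e3
  have b4 := hwall _ _ e4
  simp only [Prod.dist_eq, max_le_iff, Real.dist_eq, jw299Pos, Prod.fst_zero, Prod.snd_zero, sub_zero, abs_le]
    at b1 b2 b3 b4 ⊢
  have hd := hδ n
  have c1 : (v.1 : ℝ) ≤ v1.1 := by exact_mod_cast (by omega : v.1 ≤ v1.1)
  have c2 : (v2.1 : ℝ) ≤ v.1 := by exact_mod_cast (by omega : v2.1 ≤ v.1)
  have c3 : (v.2 : ℝ) ≤ v3.2 := by exact_mod_cast (by omega : v.2 ≤ v3.2)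
  have c4 : (v4.2 : ℝ) ≤ v.2 := by exact_mod_cast (by omega : v4.2 ≤ v.2)
  have m1 := mul_le_mul_of_nonneg_left c1 hd.le
  have m2 := mul_le_mul_of_nonneg_left c2 hd.le
  have m3 := mul_le_mul_of_nonneg_left c3 hd.le
  have m4 := mul_le_mul_of_nonneg_left c4 hd.le
  refine ⟨⟨?_, ?_⟩, ?_, ?_⟩ <;> linarith [b1.1.1, b1.1.2, b2.1.1, b2.1.2, b3.2.1, b3.2.2, b4.2.1, b4.2.2]

end Claimed.Agent.R292
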