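import Claimed.Agent.R291.Lim.Ult
import Claimed.Agent.R291.Wick.Diag
import Claimed.Prelude.Def_0468

/-!
# Row 292 (S0540), Jordan/Wick99 : THE DOMAIN ANALYSIS IS FREE      (helper99, unit JORDAN; prefix `jor99_`)

The abstract Wick identity `wk_main` of row 291 (`R291/Wick/Diag.lean`) is proved for EVERY bounded open set `D`
(Weyl lemma + maximum principle; no Green kernel, no regularity of the boundary, no Jordan curve).  With the model free
ultrafilter machine of `R291/Lim/Ult.lean` and the method of moments of `R291/Top/Mom.lean` this file gives, with 0 sorry: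

* `jor99_lap2_eq`        the two frozen Laplacians are the same function (`rfl`);
* `jor99_moments`        moment system `LmOk` on the tests of `D` + `WkData D v` for every ultrafilter limit + mean zero
                         ⟹ all moments of `X f` converge to the Wick numbers of variance `v ∫_D f u`;
* `jor99_law`            the same ⟹ convergence in law to the Gaussian;
* `jor99A/w/X`           the frozen Ashkin-Teller system of `Def_0468` as a moment system, `jor99_atExpect_eq`, `jor99_Z_pos`,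
                         exact linearity of the field;
* `jor99_S0540_of_data`  **the frozen conclusion of S0540** from `bdd` (even moments), mean zero and `WkData D (2π/(π² g))`.

So what unit (F) owes for a Jordan domain = the fields of `WkData` (R291/Defs/Wick.lean); only `bdry` sees the boundary.
-/

set_option autoImplicit false

namespace Claimed.Agent.R292

open MeasureTheory ProbabilityTheory Filter Topology BoundedContinuousFunction
open Claimed.Agent.R291
open Claims

/-- the two frozen Laplacians agree -/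
theorem jor99_lap2_eq : Claims.C0468.lap2 = Claims.C0467.lap2 := rfl

section abstract_system

variable {Ω : ℕ → Type} {A : ∀ n, Finset (Ω n)} {w : ∀ n, Ω n → ℝ}
  {X : ∀ n, (ℝ × ℝ → ℝ) → Ω n → ℝ} {D : Set (ℝ × ℝ)} {v : ℝ}

theorem jor99_M_replicate (n : ℕ) (f : ℝ × ℝ → ℝ) (k : ℕ) :
    lmM (A n) (w n) (X n) (Multiset.replicate k f) = lmE (A n) (w n) (fun h => X n f h ^ k) := by
  unfold lmM
  simp only [Multiset.map_replicate, Multiset.prod_replicate]

/-- **all moments converge to the Wick numbers**, for every bounded open `D` -/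
theorem jor99_moments (hD : IsOpen D) (hB : Bornology.IsBounded D) (hok : LmOk (lmV D) A w X)
    (hdata : ∀ 𝒰 : Ultrafilter ℕ, (𝒰 : Filter ℕ) ≤ atTop → WkData D v (lmT 𝒰 A w X))
    {f u : ℝ × ℝ → ℝ} (hf : Continuous f) (hfc : HasCompactSupport f) (hfs : tsupport f ⊆ D)
    (hmean : Tendsto (fun n => lmE (A n) (w n) (fun h => X n f h)) atTop (𝓝 0))
    (hu : ContDiffOn ℝ 2 u D) (huc : ContinuousOn u (closure D)) (hu0 : ∀ z ∈ frontier D, u z = 0)
    (hlap : ∀ z ∈ D, -Claims.C0468.lap2 u z = f z) (k : ℕ) :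
    Tendsto (fun n => lmE (A n) (w n) (fun h => X n f h ^ k)) atTop
      (𝓝 (tmmWick (v * ∫ z in D, f z * u z) k)) := by
  have hg : WkTest D f := ⟨hf, hfc, hfs⟩
  have key : ∀ 𝒰 : Ultrafilter ℕ, (𝒰 : Filter ℕ) ≤ atTop → ∀ k : ℕ,
      lmT 𝒰 A w X (Multiset.replicate k f) = tmmWick (v * ∫ z in D, f z * u z) k := by
    intro 𝒰 hU k
    induction k using Nat.twoStepInduction with
    | zero => exact lm_T_zero 𝒰 hok
    | one =>
      refine lm_T_eq 𝒰 hU ?_
      simp only [jor99_M_replicate, pow_one]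
      exact hmean
    | more j ih _ =>
      rw [wk_main (hdata 𝒰 hU) hD hB hf hfc hfs hu huc hu0 hlap j, ih, tmm_wick_succ]
      ring
  have := lm_of_T hok (s := Multiset.replicate k f) (fun g hg' => by
    rw [Multiset.eq_of_mem_replicate hg']; exact hg) (L := tmmWick (v * ∫ z in D, f z * u z) k)
    (fun 𝒰 hU => key 𝒰 hU k)
  simpa only [jor99_M_replicate] using this

/-- **convergence in law to the Gaussian**, for every bounded open `D` -/
theorem jor99_law (hD : IsOpen D) (hB : Bornology.IsBounded D) (hok : LmOk (lmV D) A w X)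
    (hdata : ∀ 𝒰 : Ultrafilter ℕ, (𝒰 : Filter ℕ) ≤ atTop → WkData D v (lmT 𝒰 A w X))
    {f u : ℝ × ℝ → ℝ} (hf : Continuous f) (hfc : HasCompactSupport f) (hfs : tsupport f ⊆ D)
    (hmean : Tendsto (fun n => lmE (A n) (w n) (fun h => X n f h)) atTop (𝓝 0))
    (hu : ContDiffOn ℝ 2 u D) (huc : ContinuousOn u (closure D)) (hu0 : ∀ z ∈ frontier D, u z = 0)
    (hlap : ∀ z ∈ D, -Claims.C0468.lap2 u z = f z) (ψ : ℝ →ᵇ ℝ) :
    Tendsto (fun n => lmE (A n) (w n) (fun h => ψ (X n f h))) atTop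
      (𝓝 (∫ s, ψ s ∂gaussianReal 0 (v * ∫ z in D, f z * u z).toNNReal)) := by
  have hp := fun n => tmm_law_prob (A n) (w n) (X n f) (hok.wnn n) (hok.Zpos n)
  have hi : ∀ (n : ℕ) (g : ℝ → ℝ), ∫ t, g t ∂tmmLaw (A n) (w n) (X n f) = lmE (A n) (w n) (fun h => g (X n f h)) :=
    fun n g => tmm_law_integral (A n) (w n) (X n f) (hok.wnn n) (hok.Zpos n) g
  have h := tmm_gauss (fun n => tmmLaw (A n) (w n) (X n f)) (fun n k => tmm_law_integrable _ _ _ _)
    (v * ∫ z in D, f z * u z)
    (by simpa only [hi] using jor99_moments hD hB hok hdata hf hfc hfs hmean hu huc hu0 hlap) ψ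
  simpa only [hi] using h

end abstract_system

/-! ### the frozen Ashkin-Teller system -/

open Classical in
/-- admissible pairs of spin configurations -/
noncomputable def jor99A (F : Finset (ℤ × ℤ)) : Finset ((C0468.cornersOf F → Bool) × (F → Bool)) :=
  Finset.univ.filter fun p => C0468.IsAdmissibleSpins p.1 p.2

/-- the weight -/
noncomputable def jor99w (t : ℝ) (F : Finset (ℤ × ℤ)) (p : (C0468.cornersOf F → Bool) × (F → Bool)) : ℝ :=
  t ^ C0468.atDisagreements p.1 p.2

/-- the smeared height -/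
noncomputable def jor99X (δ : ℝ) (F : Finset (ℤ × ℤ)) (g : ℝ × ℝ → ℝ)
    (p : (C0468.cornersOf F → Bool) × (F → Bool)) : ℝ :=
  δ ^ 2 * ∑ v ∈ C0468.cornersOf F, C0468.atHeight p.1 p.2 v * g (δ * v.1, δ * v.2)

theorem jor99_atExpect_eq (t δ : ℝ) (F : Finset (ℤ × ℤ)) (φ : ℝ × ℝ → ℝ) (ψ : ℝ → ℝ) :
    C0468.atExpect t δ F φ ψ = lmE (jor99A F) (jor99w t F) (fun p => ψ (jor99X δ F φ p)) := by
  classical
  unfold C0468.atExpect lmE jor99A jor99w jor99X
  simp only [Finset.sum_filter, Fintype.sum_prod_type]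

theorem jor99_all_plus_mem (F : Finset (ℤ × ℤ)) : ((fun _ => true, fun _ => true) :
    (C0468.cornersOf F → Bool) × (F → Bool)) ∈ jor99A F := by
  classical
  unfold jor99A
  rw [Finset.mem_filter]
  have h1 : ∀ v, C0468.atSpin (F := F) (fun _ => true) v = 1 := fun v => by
    unfold C0468.atSpin; simp
  refine ⟨Finset.mem_univ _, fun v _ _ => h1 v, fun v _ => ⟨fun _ => ?_, fun _ => ?_⟩⟩ <;> simp [h1]

theorem jor99_w_nonneg {t : ℝ} (ht : 0 < t) (F : Finset (ℤ × ℤ)) (p : (C0468.cornersOf F → Bool) × (F → Bool)) :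
    0 ≤ jor99w t F p := (pow_pos ht _).le

theorem jor99_Z_pos {t : ℝ} (ht : 0 < t) (F : Finset (ℤ × ℤ)) : 0 < ∑ p ∈ jor99A F, jor99w t F p :=
  Finset.sum_pos (fun _ _ => pow_pos ht _) ⟨_, jor99_all_plus_mem F⟩

theorem jor99_X_add (δ : ℝ) (F : Finset (ℤ × ℤ)) (g g' : ℝ × ℝ → ℝ) (p : (C0468.cornersOf F → Bool) × (F → Bool)) :
    jor99X δ F (g + g') p = jor99X δ F g p + jor99X δ F g' p := by
  unfold jor99X
  rw [← mul_add, ← Finset.sum_add_distrib]
  congr 1
  refine Finset.sum_congr rfl fun v _ => ?_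
  simp only [Pi.add_apply]; ring

theorem jor99_X_smul (δ : ℝ) (F : Finset (ℤ × ℤ)) (c : ℝ) (g : ℝ × ℝ → ℝ) (p : (C0468.cornersOf F → Bool) × (F → Bool)) :
    jor99X δ F (c • g) p = c * jor99X δ F g p := by
  unfold jor99X
  rw [mul_left_comm]
  congr 1
  rw [Finset.mul_sum]
  refine Finset.sum_congr rfl fun v _ => ?_
  simp only [Pi.smul_apply, smul_eq_mul]; ring

theorem jor99_atT_pos (U : ℝ) : 0 < C0468.atT U := by
  unfold C0468.atT
  positivity

/-- the frozen system is a moment system as soon as its even moments are eventually bounded -/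
theorem jor99_ok {t : ℝ} (ht : 0 < t) (D : Set (ℝ × ℝ)) (δ : ℕ → ℝ) (F : ℕ → Finset (ℤ × ℤ))
    (hbdd : ∀ g, WkTest D g → ∀ p : ℕ, Even p → ∃ C : ℝ, ∀ᶠ n in atTop,
      C0468.atExpect t (δ n) (F n) g (fun s => s ^ p) ≤ C) :
    LmOk (lmV D) (fun n => jor99A (F n)) (fun n => jor99w t (F n)) (fun n => jor99X (δ n) (F n)) where
  wnn := fun n a _ => jor99_w_nonneg ht (F n) a
  Zpos := fun n => jor99_Z_pos ht (F n)
  add := fun n g g' _ _ h _ => jor99_X_add (δ n) (F n) g g' h
  smul := fun n c g _ h _ => jor99_X_smul (δ n) (F n) c g h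
  bdd := fun g hg p hp => by
    obtain ⟨C, hC⟩ := hbdd g hg p hp
    exact ⟨C, by simpa only [jor99_atExpect_eq] using hC⟩

/-- **THE FROZEN CONCLUSION OF S0540** from: bounded even moments, mean zero, and `WkData D v` with the exact constant
`v = 2π / (π² g(U))` for every ultrafilter limit of the mixed moments.  `D` = any bounded open set. -/
theorem jor99_S0540_of_data (U : ℝ) (D : Set (ℝ × ℝ)) (hDo : IsOpen D) (hDb : Bornology.IsBounded D)
    (δ : ℕ → ℝ) (F : ℕ → Finset (ℤ × ℤ))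
    (hbdd : ∀ g, WkTest D g → ∀ p : ℕ, Even p → ∃ C : ℝ, ∀ᶠ n in atTop,
      C0468.atExpect (C0468.atT U) (δ n) (F n) g (fun s => s ^ p) ≤ C)
    (hdata : ∀ 𝒰 : Ultrafilter ℕ, (𝒰 : Filter ℕ) ≤ atTop →
      WkData D (2 * Real.pi / (Real.pi ^ 2 * C0468.atG U))
        (lmT 𝒰 (fun n => jor99A (F n)) (fun n => jor99w (C0468.atT U) (F n)) (fun n => jor99X (δ n) (F n))))
    (φ : ℝ × ℝ → ℝ) (hφ : Continuous φ) (hφc : HasCompactSupport φ) (hφD : tsupport φ ⊆ D)
    (hmean : Tendsto (fun n => C0468.atExpect (C0468.atT U) (δ n) (F n) φ (fun s => s)) atTop (𝓝 0))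
    (u : ℝ × ℝ → ℝ) (hu2 : ContDiffOn ℝ 2 u D) (huc : ContinuousOn u (closure D))
    (hu0 : ∀ z ∈ frontier D, u z = 0) (hueq : ∀ z ∈ D, -C0468.lap2 u z = φ z)
    (ψ : ℝ →ᵇ ℝ) :
    Tendsto (fun n => C0468.atExpect (C0468.atT U) (δ n) (F n) φ ψ) atTop
      (𝓝 (∫ s, ψ s ∂gaussianReal 0
        (2 * Real.pi * (∫ z in D, φ z * u z) / (Real.pi ^ 2 * C0468.atG U)).toNNReal)) := by
  have hok := jor99_ok (jor99_atT_pos U) D δ F hbdd
  have h := jor99_law hDo hDb hok hdata hφ hφc hφD (by simpa only [jor99_atExpect_eq] using hmean)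
    hu2 huc hu0 hueq ψ
  have e : 2 * Real.pi / (Real.pi ^ 2 * C0468.atG U) * ∫ z in D, φ z * u z
      = 2 * Real.pi * (∫ z in D, φ z * u z) / (Real.pi ^ 2 * C0468.atG U) := by ring
  rw [e] at h
  simpa only [jor99_atExpect_eq] using h

end Claimed.Agent.R292
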